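import Crest.Agent.H23.Defs

set_option autoImplicit false
set_option linter.unusedSectionVars false

open Metric Set Polynomial Real

namespace Crest.Agent.H23

namespace CalcAux

variable {χ : ℂ → ℂ} {R : ℝ}

lemma ball_nhds (h : Ext χ R) : ball (0 : ℂ) R ∈ nhds (0 : ℂ) :=
  ball_mem_nhds _ (lt_trans one_pos h.hR)

lemma chi_eq (h : Ext χ R) (u : ℂ) : χ u = u * dslope χ 0 u := by
  have := sub_smul_dslope χ 0 u
  simp only [sub_zero, h.zero, smul_eq_mul] at this
  exact this.symm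

lemma dslope_diff (h : Ext χ R) : DifferentiableOn ℂ (dslope χ 0) (ball 0 R) :=
  (Complex.differentiableOn_dslope (ball_nhds h)).2 h.diff

lemma chi_ne (h : Ext χ R) {u : ℂ} (hu : u ∈ ball (0 : ℂ) R) (hu0 : u ≠ 0) : χ u ≠ 0 := by
  intro h0
  exact hu0 (h.inj hu (mem_ball_self (lt_trans one_pos h.hR)) (by rw [h0, h.zero]))

lemma dslope_ne (h : Ext χ R) {u : ℂ} (hu : u ∈ ball (0 : ℂ) R) : dslope χ 0 u ≠ 0 := by
  by_cases hu0 : u = 0
  · subst hu0
    rw [dslope_same]
    exact h.deriv_ne 0 hu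
  · intro h0
    apply chi_ne h hu hu0
    rw [chi_eq h, h0, mul_zero]

lemma L_diff (h : Ext χ R) : DifferentiableOn ℂ (Lf χ) (ball 0 R) :=
  (h.diff.deriv isOpen_ball).div (dslope_diff h) fun _ hu => dslope_ne h hu

lemma L_zero (h : Ext χ R) : Lf χ 0 = 1 := by
  unfold Lf
  rw [dslope_same]
  exact div_self (h.deriv_ne 0 (mem_ball_self (lt_trans one_pos h.hR)))

lemma L_mul_chi (h : Ext χ R) {u : ℂ} (hu : u ∈ ball (0 : ℂ) R) :
    Lf χ u * χ u = u * deriv χ u := by
  unfold Lf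
  rw [chi_eq h]
  have := dslope_ne h hu
  field_simp

lemma closedBall_sub (h : Ext χ R) : closedBall (0 : ℂ) 1 ⊆ ball 0 R :=
  closedBall_subset_ball h.hR

lemma sphere_sub (h : Ext χ R) : sphere (0 : ℂ) 1 ⊆ ball 0 R :=
  sphere_subset_closedBall.trans (closedBall_sub h)

variable {F : Type*} [NormedAddCommGroup F] [NormedSpace ℂ F] [CompleteSpace F]

lemma ci_of_cont {f : ℂ → F} (hf : ContinuousOn f (sphere (0 : ℂ) 1)) : CircleIntegrable f 0 1 :=
  hf.circleIntegrable zero_le_one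

/-- mean value -/
lemma avg_mean (h : Ext χ R) {f : ℂ → F} (hf : DifferentiableOn ℂ f (ball 0 R)) :
    circleAverage f 0 1 = f 0 := by
  apply DiffContOnCl.circleAverage
  rw [abs_one]
  refine ⟨hf.mono (ball_subset_ball h.hR.le), ?_⟩
  rw [closure_ball _ one_ne_zero]
  exact (hf.mono (closedBall_sub h)).continuousOn

/-- average of `u * g'(u)` vanishes. -/
lemma avg_deriv {g g' : ℂ → ℂ} (hg : ∀ u ∈ sphere (0 : ℂ) 1, HasDerivAt g (g' u) u) :
    circleAverage (fun u => u * g' u) 0 1 = 0 := by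
  rw [circleAverage_eq_circleIntegral one_ne_zero]
  have h1 : (∮ z in C((0 : ℂ), 1), (z - 0)⁻¹ • (z * g' z)) = ∮ z in C((0 : ℂ), 1), g' z := by
    apply circleIntegral.integral_congr zero_le_one
    intro z hz
    have hz0 : z ≠ 0 := by
      intro h0
      rw [h0] at hz
      simp at hz
    show (z - 0)⁻¹ • (z * g' z) = g' z
    rw [sub_zero, smul_eq_mul]
    field_simp
  rw [h1, circleIntegral.integral_eq_zero_of_hasDerivWithinAt zero_le_one
    (fun z hz => (hg z hz).hasDerivWithinAt), smul_zero]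

lemma avg_smul_const {f : ℂ → ℂ} (a : F) :
    circleAverage (fun u => f u • a) 0 1 = circleAverage f 0 1 • a := by
  unfold circleAverage
  rw [intervalIntegral.integral_smul_const, smul_assoc]

variable {E : Type*} [NormedAddCommGroup E] [InnerProductSpace ℂ E] [CompleteSpace E]

lemma avg_mul_left (A : E →L[ℂ] E) {f : ℂ → E →L[ℂ] E} (hf : CircleIntegrable f 0 1) :
    circleAverage (fun u => A * f u) 0 1 = A * circleAverage f 0 1 := by
  have h := (((ContinuousLinearMap.mul ℂ (E →L[ℂ] E)) A).restrictScalars ℝ).circleAverage_comp_comm hf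
  exact h

lemma res_cont_sphere (h : Ext χ R) {A : E →L[ℂ] E}
    (hd : DifferentiableOn ℂ (Res χ A) (ball 0 R)) : ContinuousOn (Res χ A) (sphere 0 1) :=
  hd.continuousOn.mono (sphere_sub h)

lemma inv_chi_diffAt (h : Ext χ R) {u : ℂ} (hu : u ∈ sphere (0 : ℂ) 1) :
    HasDerivAt (fun u => (χ u)⁻¹) (-deriv χ u / χ u ^ 2) u := by
  have hu1 : u ∈ ball (0 : ℂ) R := sphere_sub h hu
  have hu0 : u ≠ 0 := by
    intro h0; rw [h0] at hu; simp at hu
  exact ((h.diff.differentiableAt (isOpen_ball.mem_nhds hu1)).hasDerivAt).inv (chi_ne h hu1 hu0)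

end CalcAux

open CalcAux

section Calc
variable {E : Type*} [NormedAddCommGroup E] [InnerProductSpace ℂ E] [CompleteSpace E]

/-- T4a -/
theorem res_diff {χ : ℂ → ℂ} {R : ℝ} (h : Ext χ R) (A : E →L[ℂ] E)
    (hA : ∀ u ∈ ball (0 : ℂ) R, IsUnit (1 - χ u • A)) :
    DifferentiableOn ℂ (Res χ A) (ball 0 R) := by
  have h1 : DifferentiableOn ℂ (fun u => 1 - χ u • A) (ball 0 R) :=
    (h.diff.smul_const A).const_sub 1
  exact (L_diff h).smul (h1.inverse hA)

/-- T4b -/
theorem res_zero {χ : ℂ → ℂ} {R : ℝ} (h : Ext χ R) (A : E →L[ℂ] E) : Res χ A 0 = 1 := by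
  unfold Res
  rw [L_zero h, h.zero]
  simp

lemma CalcAux.res_eq {χ : ℂ → ℂ} {R : ℝ} (A : E →L[ℂ] E)
    (hA : ∀ u ∈ ball (0 : ℂ) R, IsUnit (1 - χ u • A)) {u : ℂ} (hu : u ∈ ball (0 : ℂ) R) :
    Res χ A u = Lf χ u • 1 + χ u • (A * Res χ A u) := by
  have h1 : (1 - χ u • A) * Ring.inverse (1 - χ u • A) = 1 := Ring.mul_inverse_cancel _ (hA u hu)
  have h2 : Ring.inverse (1 - χ u • A) = 1 + χ u • (A * Ring.inverse (1 - χ u • A)) := by
    rw [sub_mul, one_mul, smul_mul_assoc] at h1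
    exact sub_eq_iff_eq_add.1 h1
  unfold Res
  conv_lhs => rw [h2]
  rw [smul_add, mul_smul_comm, smul_comm (Lf χ u) (χ u)]

lemma CalcAux.res_eq_pow {χ : ℂ → ℂ} {R : ℝ} (A : E →L[ℂ] E)
    (hA : ∀ u ∈ ball (0 : ℂ) R, IsUnit (1 - χ u • A)) {u : ℂ} (hu : u ∈ ball (0 : ℂ) R) (n : ℕ) :
    Res χ A u = (∑ k ∈ Finset.range n, (Lf χ u * χ u ^ k) • A ^ k)
      + χ u ^ n • (A ^ n * Res χ A u) := by
  induction n with
  | zero => simp
  | succ n ih =>
    rw [Finset.sum_range_succ]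
    have h1 : χ u ^ n • (A ^ n * Res χ A u) = (Lf χ u * χ u ^ n) • A ^ n
        + χ u ^ (n + 1) • (A ^ (n + 1) * Res χ A u) := by
      conv_lhs => rw [CalcAux.res_eq A hA hu]
      rw [mul_add, mul_smul_comm, mul_smul_comm, mul_one, smul_add, smul_smul, smul_smul,
        ← mul_assoc, ← pow_succ, ← pow_succ, mul_comm (χ u ^ n) (Lf χ u)]
    rw [add_assoc, ← h1]
    exact ih

/-- T4c -/
theorem faber_coeff {χ : ℂ → ℂ} {R : ℝ} (h : Ext χ R) (A : E →L[ℂ] E)
    (hA : ∀ u ∈ ball (0 : ℂ) R, IsUnit (1 - χ u • A)) (n : ℕ) :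
    Real.circleAverage (fun u : ℂ => (u⁻¹) ^ n • Res χ A u) 0 1 = aeval A (Phi χ n) := by
  have hd := res_diff h A hA
  have h1 : Real.circleAverage (fun u : ℂ => (u⁻¹) ^ n • Res χ A u) 0 1 =
      Real.circleAverage (fun u : ℂ => (∑ k ∈ Finset.range (n + 1),
        (Lf χ u * χ u ^ k * (u⁻¹) ^ n) • A ^ k)
        + (u * dslope χ 0 u ^ (n + 1)) • (A ^ (n + 1) * Res χ A u)) 0 1 := by
    apply circleAverage_congr_sphere
    intro u hu
    rw [abs_one] at hu
    have hu0 : u ≠ 0 := by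
      intro h0; rw [h0] at hu; simp at hu
    show (u⁻¹) ^ n • Res χ A u = _
    conv_lhs => rw [CalcAux.res_eq_pow A hA (sphere_sub h hu) (n + 1)]
    rw [smul_add, Finset.smul_sum, smul_smul]
    congr 1
    · apply Finset.sum_congr rfl
      intro k _
      rw [smul_smul, mul_comm]
    · congr 1
      rw [chi_eq h u, mul_pow, pow_succ u n]
      have hun : (u⁻¹) ^ n * u ^ n = 1 := by
        rw [← mul_pow, inv_mul_cancel₀ hu0, one_pow]
      calc (u⁻¹) ^ n * (u ^ n * u * dslope χ 0 u ^ (n + 1))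
          = ((u⁻¹) ^ n * u ^ n) * (u * dslope χ 0 u ^ (n + 1)) := by ring
        _ = _ := by rw [hun, one_mul]
  have hL := (L_diff h).continuousOn.mono (sphere_sub h)
  have hχ := h.diff.continuousOn.mono (sphere_sub h)
  have hinv : ContinuousOn (fun u : ℂ => u⁻¹) (sphere 0 1) := by
    apply continuousOn_inv₀.mono
    intro u hu h0
    rw [mem_singleton_iff] at h0
    rw [h0] at hu; simp at hu
  have hk : ∀ k, ContinuousOn (fun u : ℂ => Lf χ u * χ u ^ k * (u⁻¹) ^ n) (sphere 0 1) := by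
    intro k
    exact (hL.mul (hχ.pow k)).mul (hinv.pow n)
  have hlast : DifferentiableOn ℂ (fun u : ℂ => (u * dslope χ 0 u ^ (n + 1)) •
      (A ^ (n + 1) * Res χ A u)) (ball 0 R) :=
    (differentiableOn_id.mul ((dslope_diff h).pow (n + 1))).smul
      ((differentiableOn_const (A ^ (n + 1))).mul hd)
  rw [h1, circleAverage_fun_add, circleAverage_fun_sum, avg_mean h hlast]
  · simp only [zero_mul, zero_smul, add_zero]
    unfold Phi
    rw [map_sum]
    apply Finset.sum_congr rfl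
    intro k _
    rw [avg_smul_const, map_mul, map_pow, aeval_X, aeval_C, Algebra.algebraMap_eq_smul_one,
      smul_mul_assoc, one_mul]
    rfl
  · intro k _
    exact ci_of_cont ((hk k).smul continuousOn_const)
  · exact ci_of_cont (continuousOn_finsetSum _ fun k _ => (hk k).smul continuousOn_const)
  · exact ci_of_cont (hlast.continuousOn.mono (sphere_sub h))

/-- the key: `avg (G φ(G) Res) = A avg (φ(G) Res)`, for scalar `φ(G)` such that
`avg (G φ(G) L) = 0`. -/
lemma CalcAux.avg_step {χ : ℂ → ℂ} {R : ℝ} (h : Ext χ R) (A : E →L[ℂ] E)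
    (hA : ∀ u ∈ ball (0 : ℂ) R, IsUnit (1 - χ u • A)) (f : ℂ → ℂ)
    (hf : ContinuousOn f (sphere 0 1))
    (h0 : circleAverage (fun u => (χ u)⁻¹ * f u * Lf χ u) 0 1 = 0) :
    circleAverage (fun u => ((χ u)⁻¹ * f u) • Res χ A u) 0 1
      = A * circleAverage (fun u => f u • Res χ A u) 0 1 := by
  have hd := res_diff h A hA
  have hR := res_cont_sphere h hd
  have hinvχ : ContinuousOn (fun u => (χ u)⁻¹) (sphere 0 1) := fun u hu =>
    (inv_chi_diffAt h hu).continuousAt.continuousWithinAt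
  have hL := (L_diff h).continuousOn.mono (sphere_sub h)
  have h1 : circleAverage (fun u => ((χ u)⁻¹ * f u) • Res χ A u) 0 1
      = circleAverage (fun u => ((χ u)⁻¹ * f u * Lf χ u) • (1 : E →L[ℂ] E)
        + A * (f u • Res χ A u)) 0 1 := by
    apply circleAverage_congr_sphere
    intro u hu
    rw [abs_one] at hu
    have hu0 : u ≠ 0 := by
      intro h0; rw [h0] at hu; simp at hu
    have hχ0 := chi_ne h (sphere_sub h hu) hu0
    show ((χ u)⁻¹ * f u) • Res χ A u = _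
    conv_lhs => rw [CalcAux.res_eq A hA (sphere_sub h hu)]
    rw [smul_add, smul_smul, smul_smul]
    have h3 : (χ u)⁻¹ * f u * χ u = f u := by field_simp
    rw [h3]
    show _ = ((χ u)⁻¹ * f u * Lf χ u) • (1 : E →L[ℂ] E) + A * f u • Res χ A u
    rw [mul_smul_comm]
  rw [h1, circleAverage_fun_add, avg_smul_const, h0, zero_smul, zero_add, avg_mul_left]
  · exact ci_of_cont (hf.smul hR)
  · exact ci_of_cont (((hinvχ.mul hf).mul hL).smul continuousOn_const)
  · exact ci_of_cont (continuousOn_const.mul (hf.smul hR))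

/-- vanishing of `avg (G φ(G) L)` for holomorphic `φ` on a convex neighbourhood of the curve. -/
lemma CalcAux.avg_vanish {χ : ℂ → ℂ} {R : ℝ} (h : Ext χ R)
    (Ω : Set ℂ) (hΩ : IsOpen Ω) (hc : Convex ℝ Ω) (hu : ∀ u : ℂ, ‖u‖ = 1 → (χ u)⁻¹ ∈ Ω)
    (φ : ℂ → ℂ) (hφ : DifferentiableOn ℂ φ Ω) :
    circleAverage (fun u => (χ u)⁻¹ * φ (χ u)⁻¹ * Lf χ u) 0 1 = 0 := by
  obtain ⟨P, hP⟩ := hc.exists_forall_hasDerivWithinAt hφ
  have hP' : ∀ a ∈ Ω, HasDerivAt P (φ a) a := fun a ha => (hP a ha).hasDerivAt (hΩ.mem_nhds ha)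
  have h1 : circleAverage (fun u => (χ u)⁻¹ * φ (χ u)⁻¹ * Lf χ u) 0 1
      = circleAverage (fun u => u * (-(φ (χ u)⁻¹ * (-deriv χ u / χ u ^ 2)))) 0 1 := by
    apply circleAverage_congr_sphere
    intro u hu1
    rw [abs_one] at hu1
    have hu0 : u ≠ 0 := by
      intro h0; rw [h0] at hu1; simp at hu1
    have hχ0 := chi_ne h (sphere_sub h hu1) hu0
    have hLχ := L_mul_chi h (sphere_sub h hu1)
    show (χ u)⁻¹ * φ (χ u)⁻¹ * Lf χ u = u * (-(φ (χ u)⁻¹ * (-deriv χ u / χ u ^ 2)))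
    have : Lf χ u = u * deriv χ u / χ u := by
      rw [eq_div_iff hχ0, hLχ]
    rw [this]
    field_simp
  rw [h1]
  apply avg_deriv (g := fun u => -(P (χ u)⁻¹))
  intro u hu1
  have h2 := (hP' (χ u)⁻¹ (hu u (by simpa using hu1))).comp u (inv_chi_diffAt h hu1)
  exact h2.neg

/-- T4e -/
theorem mul_calc {χ : ℂ → ℂ} {R : ℝ} (h : Ext χ R) (A : E →L[ℂ] E)
    (hA : ∀ u ∈ ball (0 : ℂ) R, IsUnit (1 - χ u • A)) (w : Polynomial ℂ)
    (Ω : Set ℂ) (hΩ : IsOpen Ω) (hc : Convex ℝ Ω) (hu : ∀ u : ℂ, ‖u‖ = 1 → (χ u)⁻¹ ∈ Ω)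
    (φ : ℂ → ℂ) (hφ : DifferentiableOn ℂ φ Ω) :
    Real.circleAverage (fun u : ℂ => (w.eval (χ u)⁻¹ * φ (χ u)⁻¹) • Res χ A u) 0 1
      = aeval A w * Real.circleAverage (fun u : ℂ => φ (χ u)⁻¹ • Res χ A u) 0 1 := by
  have hd := res_diff h A hA
  have hR := res_cont_sphere h hd
  have hinvχ : ContinuousOn (fun u => (χ u)⁻¹) (sphere 0 1) := fun u hu =>
    (inv_chi_diffAt h hu).continuousAt.continuousWithinAt
  have hφc : ContinuousOn (fun u => φ (χ u)⁻¹) (sphere 0 1) :=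
    hφ.continuousOn.comp hinvχ (fun u hu1 => hu u (by simpa using hu1))
  have hwc : ∀ w : Polynomial ℂ, ContinuousOn (fun u => w.eval (χ u)⁻¹) (sphere 0 1) := fun w =>
    w.continuous.comp_continuousOn hinvχ
  induction w using Polynomial.induction_on' with
  | add p q hp hq =>
    simp only [eval_add, map_add, add_mul, add_smul]
    rw [← hp, ← hq, circleAverage_fun_add]
    · exact ci_of_cont (((hwc p).mul hφc).smul hR)
    · exact ci_of_cont (((hwc q).mul hφc).smul hR)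
  | monomial n a =>
    induction n with
    | zero =>
      simp only [monomial_zero_left, eval_C, aeval_C, Algebra.algebraMap_eq_smul_one, smul_mul_assoc,
        one_mul, mul_smul]
      exact circleAverage_fun_smul
    | succ n ih =>
      have h1 := CalcAux.avg_step h A hA
        (fun u => (monomial n a).eval (χ u)⁻¹ * φ (χ u)⁻¹) ((hwc _).mul hφc)
        (by
          have := CalcAux.avg_vanish h Ω hΩ hc hu (fun z => (monomial n a).eval z * φ z)
            ((Polynomial.differentiable _).differentiableOn.mul hφ)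
          exact this)
      rw [ih, ← mul_assoc] at h1
      have h2 : (aeval A) ((monomial (n + 1)) a) = A * (aeval A) ((monomial n) a) := by
        simp only [aeval_monomial]
        rw [pow_succ', Algebra.algebraMap_eq_smul_one]
        simp
      rw [h2, ← h1]
      congr 1
      funext u
      congr 1
      simp only [eval_monomial]
      ring

/-- T4d -/
theorem poly_calc {χ : ℂ → ℂ} {R : ℝ} (h : Ext χ R) (A : E →L[ℂ] E)
    (hA : ∀ u ∈ ball (0 : ℂ) R, IsUnit (1 - χ u • A)) (w : Polynomial ℂ) :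
    Real.circleAverage (fun u : ℂ => w.eval (χ u)⁻¹ • Res χ A u) 0 1 = aeval A w := by
  have h1 := mul_calc h A hA w univ isOpen_univ convex_univ (fun _ _ => mem_univ _) (fun _ => 1)
    (differentiableOn_const 1)
  have h2 := avg_mean h (res_diff h A hA)
  rw [res_zero h A] at h2
  simp only [mul_one, one_smul] at h1
  rw [h1, h2, mul_one]

end Calc

end Crest.Agent.H23
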