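import Crest.Agent.H23.Defs

set_option autoImplicit false
set_option linter.unusedSectionVars false

open Metric Set

namespace Crest.Agent.H23

section Calc
variable {E : Type*} [NormedAddCommGroup E] [InnerProductSpace ℂ E] [CompleteSpace E]

/-- the Rayleigh quotient lies in K. -/
lemma ExtOpAux.rayleigh {K : Set ℂ} (A : E →L[ℂ] E)
    (hW : ∀ x : E, ‖x‖ = 1 → inner ℂ x (A x) ∈ K) {x : E} (hx : x ≠ 0) :
    ∃ z ∈ K, inner ℂ x (A x) = z * (‖x‖ : ℂ) ^ 2 := by
  have hn : (‖x‖ : ℂ) ≠ 0 := by exact_mod_cast norm_ne_zero_iff.2 hx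
  set y : E := ((‖x‖ : ℂ)⁻¹) • x with hy
  have hy1 : ‖y‖ = 1 := by
    rw [hy, norm_smul, norm_inv, Complex.norm_real, norm_norm,
      inv_mul_cancel₀ (norm_ne_zero_iff.2 hx)]
  refine ⟨inner ℂ y (A y), hW y hy1, ?_⟩
  have hxy : x = (‖x‖ : ℂ) • y := by
    rw [hy, smul_smul, mul_inv_cancel₀ hn, one_smul]
  conv_lhs => rw [hxy]
  rw [map_smul, inner_smul_left, inner_smul_right, Complex.conj_ofReal]
  ring

/-- T5b: operator positivity and invertibility from the numerical range. -/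
theorem ext_op [FiniteDimensional ℂ E] {χ : ℂ → ℂ} {R : ℝ} (h : Ext χ R) {K : Set ℂ}
    (hK1 : ∀ u ∈ ball (0 : ℂ) R, u ≠ 0 → (χ u)⁻¹ ∉ K)
    (hK2 : ∀ u : ℂ, ‖u‖ = 1 → ∀ z ∈ K, 0 ≤ ((1 - z * χ u) / Lf χ u).re)
    (A : E →L[ℂ] E) (hW : ∀ x : E, ‖x‖ = 1 → inner ℂ x (A x) ∈ K) :
    (∀ u ∈ ball (0 : ℂ) R, IsUnit (1 - χ u • A)) ∧
      ∀ u : ℂ, ‖u‖ = 1 → ∀ x : E, 0 ≤ (inner ℂ x (Res χ A u x)).re := by
  have hunit : ∀ u ∈ ball (0 : ℂ) R, IsUnit (1 - χ u • A) := by
    intro u hu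
    by_cases hu0 : u = 0
    · subst hu0
      rw [h.zero]; simp
    · rw [ContinuousLinearMap.isUnit_iff_bijective]
      have hinj : Function.Injective (1 - χ u • A : E →L[ℂ] E) := by
        rw [injective_iff_map_eq_zero]
        intro x hx
        by_contra hx0
        obtain ⟨z, hz, hzx⟩ := ExtOpAux.rayleigh A hW hx0
        have hχ0 : χ u ≠ 0 := by
          intro h0
          rw [h0] at hx
          simp at hx
          exact hx0 hx
        have h1 : x = χ u • A x := by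
          have : x - χ u • A x = 0 := by simpa using hx
          exact sub_eq_zero.1 this
        have h2 : A x = (χ u)⁻¹ • x := by
          conv_rhs => rw [h1]
          rw [smul_smul, inv_mul_cancel₀ hχ0, one_smul]
        have hn : (‖x‖ : ℂ) ^ 2 ≠ 0 := by
          have : (‖x‖ : ℂ) ≠ 0 := by exact_mod_cast norm_ne_zero_iff.2 hx0
          exact pow_ne_zero 2 this
        rw [h2, inner_smul_right, inner_self_eq_norm_sq_to_K] at hzx
        have h3 : (χ u)⁻¹ = z := mul_right_cancel₀ hn hzx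
        exact hK1 u hu hu0 (h3 ▸ hz)
      exact ⟨hinj, (LinearMap.injective_iff_surjective
        (f := ((1 - χ u • A : E →L[ℂ] E) : E →ₗ[ℂ] E))).1 hinj⟩
  refine ⟨hunit, ?_⟩
  intro u hu x
  have huR : u ∈ ball (0 : ℂ) R := by
    rw [mem_ball_zero_iff, hu]; exact h.hR
  have hun := hunit u huR
  set w : E := (Ring.inverse (1 - χ u • A)) x with hw
  have hx : x = w - χ u • A w := by
    have h1 : ((1 - χ u • A) * Ring.inverse (1 - χ u • A)) x = x := by
      rw [Ring.mul_inverse_cancel _ hun]; rfl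
    have h2 : (1 - χ u • A : E →L[ℂ] E) w = x := h1
    rw [← h2]
    simp
  have hR : Res χ A u x = Lf χ u • w := rfl
  by_cases hw0 : w = 0
  · rw [hR, hw0]; simp
  obtain ⟨z, hz, hzw⟩ := ExtOpAux.rayleigh A hW hw0
  have h4 : inner ℂ x (Res χ A u x) = Lf χ u * ((starRingEnd ℂ) (1 - z * χ u)) * (‖w‖ : ℂ) ^ 2 := by
    rw [hR, inner_smul_right]
    conv_lhs => rw [hx]
    rw [← inner_conj_symm, inner_sub_right, inner_smul_right, hzw, inner_self_eq_norm_sq_to_K]
    simp only [map_sub, map_mul, map_pow, map_one, Complex.conj_ofReal]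
    push_cast
    simp only [Complex.coe_algebraMap, Complex.conj_ofReal]
    ring
  have h5 := hK2 u hu z hz
  have h6 : (Lf χ u * ((starRingEnd ℂ) (1 - z * χ u))).re
      = Complex.normSq (Lf χ u) * ((1 - z * χ u) / Lf χ u).re := by
    by_cases hL : Lf χ u = 0
    · simp [hL]
    · have h7 : (1 - z * χ u) = ((1 - z * χ u) / Lf χ u) * Lf χ u := by
        field_simp
      set q := (1 - z * χ u) / Lf χ u with hq
      rw [h7, map_mul]
      simp only [Complex.mul_re, Complex.mul_im, Complex.conj_re, Complex.conj_im,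
        Complex.normSq_apply]
      ring
  rw [h4]
  have h8 : (Lf χ u * (starRingEnd ℂ) (1 - z * χ u) * (‖w‖ : ℂ) ^ 2).re
      = (Lf χ u * (starRingEnd ℂ) (1 - z * χ u)).re * ‖w‖ ^ 2 := by
    have : ((‖w‖ : ℂ) ^ 2) = ((‖w‖ ^ 2 : ℝ) : ℂ) := by push_cast; ring
    rw [this, Complex.re_mul_ofReal]
  rw [h8, h6]
  exact mul_nonneg (mul_nonneg (Complex.normSq_nonneg _) h5) (sq_nonneg _)

end Calc

end Crest.Agent.H23
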