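import Mathlib

set_option autoImplicit false

open Filter Metric Set Topology

namespace Crest.Agent.H23.RMT

/-- Bounded holomorphic functions are locally Lipschitz with a uniform constant. -/
lemma lip_of_bound {f : ℂ → ℂ} {U : Set ℂ} {x : ℂ} {r : ℝ}
    (hx : ball x (2 * r) ⊆ U) (hf : DifferentiableOn ℂ f U)
    (hb : ∀ z ∈ U, ‖f z‖ ≤ 1) {y : ℂ} (hy : y ∈ ball x (2 * r)) :
    dist (f y) (f x) ≤ 2 / (2 * r) * dist y x := by
  have h2r : 0 < 2 * r := by
    have := mem_ball.1 hy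
    exact lt_of_le_of_lt dist_nonneg this
  refine Complex.dist_le_div_mul_dist_of_mapsTo_ball (hf.mono hx) ?_ hy
  intro z hz
  rw [mem_closedBall, dist_eq_norm]
  calc ‖f z - f x‖ ≤ ‖f z‖ + ‖f x‖ := norm_sub_le _ _
    _ ≤ 1 + 1 := add_le_add (hb z (hx hz)) (hb x (hx (mem_ball_self h2r)))
    _ = 2 := by norm_num

/-- Montel: along an ultrafilter a sequence of holomorphic functions bounded by `1` converges locally
uniformly. -/
lemma montel {U : Set ℂ} (hU : IsOpen U) (F : ℕ → ℂ → ℂ) (hF : ∀ n, DifferentiableOn ℂ (F n) U)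
    (hb : ∀ n, ∀ z ∈ U, ‖F n z‖ ≤ 1) (𝒰 : Ultrafilter ℕ) :
    ∃ f : ℂ → ℂ, TendstoLocallyUniformlyOn F f 𝒰 U ∧ (∀ z ∈ U, ‖f z‖ ≤ 1) := by
  have hlim : ∀ z, ∃ w : ℂ, z ∈ U → (Tendsto (fun n => F n z) 𝒰 (𝓝 w) ∧ ‖w‖ ≤ 1) := by
    intro z
    by_cases hz : z ∈ U
    · have hc : IsCompact (closedBall (0 : ℂ) 1) := isCompact_closedBall _ _
      have := hc.ultrafilter_le_nhds (𝒰.map (fun n => F n z)) (by
        simp only [Ultrafilter.coe_map, le_principal_iff, mem_map]
        filter_upwards with n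
        simpa using hb n z hz)
      obtain ⟨w, hw, hw2⟩ := this
      exact ⟨w, fun _ => ⟨hw2, by simpa using hw⟩⟩
    · exact ⟨0, fun h => absurd h hz⟩
  choose f hf using hlim
  refine ⟨f, ?_, fun z hz => (hf z hz).2⟩
  rw [Metric.tendstoLocallyUniformlyOn_iff]
  intro ε hε x hx
  obtain ⟨R, hR, hRU⟩ := Metric.isOpen_iff.1 hU x hx
  set r := R / 2 with hr
  have hr0 : 0 < r := by positivity
  have h2r : 2 * r = R := by rw [hr]; ring
  have hRU' : ball x (2 * r) ⊆ U := by rw [h2r]; exact hRU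
  set δ := min R (R * ε / 8) with hδ
  have hδ0 : 0 < δ := by rw [hδ]; positivity
  have key : ∀ n, ∀ y ∈ ball x δ, dist (F n y) (F n x) ≤ ε / 4 := by
    intro n y hy
    have hy' : y ∈ ball x (2 * r) := by
      rw [h2r]; exact ball_subset_ball (min_le_left _ _) hy
    have h1 := lip_of_bound hRU' (hF n) (hb n) hy'
    have h2 : dist y x ≤ R * ε / 8 := le_of_lt (lt_of_lt_of_le (mem_ball.1 hy) (min_le_right _ _))
    calc dist (F n y) (F n x) ≤ 2 / (2 * r) * dist y x := h1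
      _ ≤ 2 / (2 * r) * (R * ε / 8) := by gcongr
      _ = ε / 4 := by rw [h2r]; field_simp; ring
  have key2 : ∀ y ∈ ball x δ, dist (f y) (f x) ≤ ε / 4 := by
    intro y hy
    have hyU : y ∈ U := hRU (ball_subset_ball (min_le_left _ _) hy)
    have h1 := ((hf y hyU).1).dist ((hf x hx).1)
    exact le_of_tendsto h1 (Eventually.of_forall fun n => key n y hy)
  refine ⟨ball x δ, mem_nhdsWithin_of_mem_nhds (ball_mem_nhds x hδ0), ?_⟩
  have h3 : ∀ᶠ n in (𝒰 : Filter ℕ), dist (F n x) (f x) < ε / 4 :=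
    (hf x hx).1.eventually (ball_mem_nhds _ (by positivity))
  filter_upwards [h3] with n hn y hy
  calc dist (f y) (F n y) ≤ dist (f y) (f x) + dist (f x) (F n x) + dist (F n x) (F n y) :=
        dist_triangle4 _ _ _ _
    _ < ε / 4 + ε / 4 + ε / 2 := by
        have a := key2 y hy
        have b : dist (f x) (F n x) < ε / 4 := by rw [dist_comm]; exact hn
        have c : dist (F n x) (F n y) ≤ ε / 4 := by rw [dist_comm]; exact key n y hy
        linarith
    _ = ε := by ring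

/-- Minimum modulus principle on a closed ball. -/
lemma min_modulus {g : ℂ → ℂ} {U : Set ℂ} {b : ℂ} {r m : ℝ} (hr : 0 < r)
    (hbU : closedBall b r ⊆ U) (hg : DifferentiableOn ℂ g U) (hne : ∀ z ∈ closedBall b r, g z ≠ 0)
    (hm : 0 < m) (hs : ∀ z ∈ sphere b r, m ≤ ‖g z‖) : m ≤ ‖g b‖ := by
  have hd : DiffContOnCl ℂ (fun z => (g z)⁻¹) (ball b r) := by
    have : DifferentiableOn ℂ (fun z => (g z)⁻¹) (closedBall b r) :=
      (hg.mono hbU).inv hne
    refine ⟨this.mono ball_subset_closedBall, ?_⟩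
    rw [closure_ball b hr.ne']
    exact this.continuousOn
  have h := Complex.norm_le_of_forall_mem_frontier_norm_le isBounded_ball hd (C := m⁻¹) (z := b)
    (by
      intro z hz
      rw [frontier_ball b hr.ne'] at hz
      rw [norm_inv]
      exact inv_anti₀ hm (hs z hz)) (subset_closure (mem_ball_self hr))
  rw [norm_inv] at h
  have hb0 : 0 < ‖g b‖ := norm_pos_iff.2 (hne b (mem_closedBall_self hr.le))
  exact (inv_le_inv₀ hb0 hm).1 h

/-- Hurwitz: a locally uniform limit of injective holomorphic functions, which is not constant, is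
injective. -/
lemma hurwitz {U : Set ℂ} (hU : IsOpen U) (hc : IsPreconnected U) {F : ℕ → ℂ → ℂ} {f : ℂ → ℂ}
    {𝒰 : Filter ℕ} [𝒰.NeBot] (hF : ∀ n, DifferentiableOn ℂ (F n) U) (hi : ∀ n, InjOn (F n) U)
    (hl : TendstoLocallyUniformlyOn F f 𝒰 U) {z0 : ℂ} (hz0 : z0 ∈ U) (hd : deriv f z0 ≠ 0) :
    InjOn f U := by
  have hfd : DifferentiableOn ℂ f U := hl.differentiableOn (Eventually.of_forall hF) hU
  intro a ha b hb hab
  by_contra hne
  -- g = f - f a has an isolated zero at b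
  have hgan : AnalyticOnNhd ℂ (fun z => f z - f a) U :=
    (hfd.sub_const _).analyticOnNhd hU
  have hiso : ∀ᶠ z in 𝓝[≠] b, f z - f a ≠ 0 := by
    rcases (hgan b hb).eventually_eq_zero_or_eventually_ne_zero with h | h
    · exfalso
      have h0 : EqOn (fun z => f z - f a) 0 U :=
        hgan.eqOn_zero_of_preconnected_of_eventuallyEq_zero hc hb h
      have h1 : f =ᶠ[𝓝 z0] fun _ => f a := by
        filter_upwards [hU.mem_nhds hz0] with z hz
        have := h0 hz
        simpa [sub_eq_zero] using this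
      apply hd
      rw [h1.deriv_eq]
      simp
    · exact h
  rw [eventually_nhdsWithin_iff] at hiso
  obtain ⟨r1, hr1, h1⟩ := Metric.eventually_nhds_iff_ball.1 hiso
  obtain ⟨r2, hr2, h2⟩ := Metric.isOpen_iff.1 hU b hb
  have hdab : 0 < dist a b := dist_pos.2 hne
  set r := min (min (r1 / 2) (r2 / 2)) (dist a b / 2) with hr
  have hr0 : 0 < r := by rw [hr]; positivity
  have hrr1 : r < r1 := lt_of_le_of_lt ((min_le_left _ _).trans (min_le_left _ _)) (by linarith)
  have hrr2 : r < r2 := lt_of_le_of_lt ((min_le_left _ _).trans (min_le_right _ _)) (by linarith)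
  have hrab : r < dist a b := lt_of_le_of_lt (min_le_right _ _) (by linarith)
  have hbU : closedBall b r ⊆ U := (closedBall_subset_ball hrr2).trans h2
  have haU : a ∉ closedBall b r := by rw [mem_closedBall]; exact not_le.2 hrab
  have hsph : ∀ z ∈ sphere b r, f z - f a ≠ 0 := by
    intro z hz
    apply h1 z
    · rw [mem_ball, mem_sphere.1 hz]; exact hrr1
    · intro hzb
      rw [mem_singleton_iff] at hzb
      rw [hzb, mem_sphere, dist_self] at hz
      exact hr0.ne hz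
  have hsU : sphere b r ⊆ U := sphere_subset_closedBall.trans hbU
  have hcs : IsCompact (sphere b r) := isCompact_sphere _ _
  have hne' : (sphere b r).Nonempty := NormedSpace.sphere_nonempty.2 hr0.le
  obtain ⟨zm, hzm, hmin⟩ := hcs.exists_isMinOn hne'
    (f := fun z => ‖f z - f a‖) (by
      have := (hfd.continuousOn.mono hsU)
      fun_prop)
  set m := ‖f zm - f a‖ with hm
  have hm0 : 0 < m := norm_pos_iff.2 (hsph zm hzm)
  -- uniform convergence on the sphere
  have hunif : TendstoUniformlyOn F f 𝒰 (sphere b r) :=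
    (tendstoLocallyUniformlyOn_iff_forall_isCompact hU).1 hl _ hsU hcs
  have e1 : ∀ᶠ n in 𝒰, ∀ z ∈ sphere b r, dist (f z) (F n z) < m / 4 :=
    (Metric.tendstoUniformlyOn_iff.1 hunif) (m / 4) (by positivity)
  have ta := hl.tendsto_at ha
  have tb := hl.tendsto_at hb
  have e2 : ∀ᶠ n in 𝒰, dist (F n a) (f a) < m / 8 := ta.eventually (ball_mem_nhds _ (by positivity))
  have e3 : ∀ᶠ n in 𝒰, dist (F n b) (f b) < m / 8 := tb.eventually (ball_mem_nhds _ (by positivity))
  obtain ⟨n, hn1, hn2, hn3⟩ := (e1.and (e2.and e3)).exists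
  have hmm := min_modulus (g := fun z => F n z - F n a) (U := U) (b := b) (r := r) (m := m / 2) hr0 hbU
    ((hF n).sub_const _) (by
      intro z hz h0
      have : z = a := hi n (hbU hz) ha (by simpa [sub_eq_zero] using h0)
      exact haU (this ▸ hz)) (by positivity) (by
      intro z hz
      have h4 : m ≤ ‖f z - f a‖ := hmin hz
      have h5 := hn1 z hz
      rw [dist_eq_norm] at h5 hn2
      have h6 : f z - f a = (f z - F n z) + (F n z - F n a) + (F n a - f a) := by ring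
      have h7 : ‖f z - f a‖ ≤ ‖f z - F n z‖ + ‖F n z - F n a‖ + ‖F n a - f a‖ := by
        rw [h6]; exact norm_add₃_le
      show m / 2 ≤ ‖F n z - F n a‖
      linarith)
  have h8 : ‖F n b - F n a‖ ≤ ‖F n b - f b‖ + ‖f a - F n a‖ := by
    have : F n b - F n a = (F n b - f b) + (f a - F n a) := by rw [hab]; ring
    rw [this]; exact norm_add_le _ _
  rw [dist_eq_norm] at hn2 hn3
  rw [norm_sub_rev (f a)] at h8
  have : m / 2 ≤ ‖F n b - F n a‖ := hmm
  linarith

/-- Hurwitz: the locally uniform limit of nonvanishing holomorphic functions on a connected open set is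
nonvanishing unless it is identically zero. -/
lemma hurwitz_ne {U : Set ℂ} (hU : IsOpen U) (hc : IsPreconnected U) {F : ℕ → ℂ → ℂ} {f : ℂ → ℂ}
    {𝒰 : Filter ℕ} [𝒰.NeBot] (hF : ∀ n, DifferentiableOn ℂ (F n) U)
    (hi : ∀ n, ∀ z ∈ U, F n z ≠ 0)
    (hl : TendstoLocallyUniformlyOn F f 𝒰 U) {z0 : ℂ} (hz0 : z0 ∈ U) (hd : f z0 ≠ 0) :
    ∀ b ∈ U, f b ≠ 0 := by
  have hfd : DifferentiableOn ℂ f U := hl.differentiableOn (Eventually.of_forall hF) hU
  intro b hb hb0
  have hgan : AnalyticOnNhd ℂ f U := hfd.analyticOnNhd hU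
  have hiso : ∀ᶠ z in 𝓝[≠] b, f z ≠ 0 := by
    rcases (hgan b hb).eventually_eq_zero_or_eventually_ne_zero with h | h
    · exfalso
      exact hd (hgan.eqOn_zero_of_preconnected_of_eventuallyEq_zero hc hb h hz0)
    · exact h
  rw [eventually_nhdsWithin_iff] at hiso
  obtain ⟨r1, hr1, h1⟩ := Metric.eventually_nhds_iff_ball.1 hiso
  obtain ⟨r2, hr2, h2⟩ := Metric.isOpen_iff.1 hU b hb
  set r := min (r1 / 2) (r2 / 2) with hr
  have hr0 : 0 < r := by rw [hr]; positivity
  have hrr1 : r < r1 := lt_of_le_of_lt (min_le_left _ _) (by linarith)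
  have hrr2 : r < r2 := lt_of_le_of_lt (min_le_right _ _) (by linarith)
  have hbU : closedBall b r ⊆ U := (closedBall_subset_ball hrr2).trans h2
  have hsph : ∀ z ∈ sphere b r, f z ≠ 0 := by
    intro z hz
    apply h1 z
    · rw [mem_ball, mem_sphere.1 hz]; exact hrr1
    · intro hzb
      rw [mem_singleton_iff] at hzb
      rw [hzb, mem_sphere, dist_self] at hz
      exact hr0.ne hz
  have hsU : sphere b r ⊆ U := sphere_subset_closedBall.trans hbU
  have hcs : IsCompact (sphere b r) := isCompact_sphere _ _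
  have hne' : (sphere b r).Nonempty := NormedSpace.sphere_nonempty.2 hr0.le
  obtain ⟨zm, hzm, hmin⟩ := hcs.exists_isMinOn hne'
    (f := fun z => ‖f z‖) (by
      have := (hfd.continuousOn.mono hsU)
      fun_prop)
  set m := ‖f zm‖ with hm
  have hm0 : 0 < m := norm_pos_iff.2 (hsph zm hzm)
  have hunif : TendstoUniformlyOn F f 𝒰 (sphere b r) :=
    (tendstoLocallyUniformlyOn_iff_forall_isCompact hU).1 hl _ hsU hcs
  have e1 : ∀ᶠ n in 𝒰, ∀ z ∈ sphere b r, dist (f z) (F n z) < m / 4 :=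
    (Metric.tendstoUniformlyOn_iff.1 hunif) (m / 4) (by positivity)
  have tb := hl.tendsto_at hb
  have e3 : ∀ᶠ n in 𝒰, dist (F n b) (f b) < m / 8 := tb.eventually (ball_mem_nhds _ (by positivity))
  obtain ⟨n, hn1, hn3⟩ := (e1.and e3).exists
  have hmm := min_modulus (g := F n) (U := U) (b := b) (r := r) (m := m / 2) hr0 hbU
    (hF n) (fun z hz => hi n z (hbU hz)) (by positivity) (by
      intro z hz
      have h4 : m ≤ ‖f z‖ := hmin hz
      have h5 := hn1 z hz
      rw [dist_eq_norm] at h5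
      have h7 : ‖f z‖ ≤ ‖f z - F n z‖ + ‖F n z‖ := by
        calc ‖f z‖ = ‖(f z - F n z) + F n z‖ := by ring_nf
          _ ≤ _ := norm_add_le _ _
      linarith)
  rw [dist_eq_norm, hb0, sub_zero] at hn3
  linarith

/-- The disc automorphism. -/
noncomputable def mob (w z : ℂ) : ℂ := (z - w) / (1 - (starRingEnd ℂ) w * z)

lemma mob_den_ne {w z : ℂ} (hw : ‖w‖ < 1) (hz : ‖z‖ < 1) : 1 - (starRingEnd ℂ) w * z ≠ 0 := by
  intro h
  have h1 : (starRingEnd ℂ) w * z = 1 := by linear_combination -h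
  have h2 : ‖(starRingEnd ℂ) w * z‖ < 1 := by
    rw [norm_mul, RCLike.norm_conj]
    calc ‖w‖ * ‖z‖ ≤ ‖w‖ * 1 := by gcongr
      _ < 1 := by linarith
  rw [h1] at h2
  simp at h2

lemma mob_norm_lt {w z : ℂ} (hw : ‖w‖ < 1) (hz : ‖z‖ < 1) : ‖mob w z‖ < 1 := by
  have hd := mob_den_ne hw hz
  unfold mob
  rw [norm_div, div_lt_one (norm_pos_iff.2 hd)]
  rw [← sq_lt_sq₀ (norm_nonneg _) (norm_nonneg _)]
  rw [← Complex.normSq_eq_norm_sq, ← Complex.normSq_eq_norm_sq]
  have hw2 : Complex.normSq w < 1 := by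
    rw [Complex.normSq_eq_norm_sq]; nlinarith [norm_nonneg w]
  have hz2 : Complex.normSq z < 1 := by
    rw [Complex.normSq_eq_norm_sq]; nlinarith [norm_nonneg z]
  simp only [Complex.normSq_apply, Complex.sub_re, Complex.sub_im, Complex.mul_re, Complex.mul_im,
    Complex.conj_re, Complex.conj_im, Complex.one_re, Complex.one_im] at *
  nlinarith [mul_pos (sub_pos.2 hw2) (sub_pos.2 hz2)]

lemma mob_inj {w z z' : ℂ} (hw : ‖w‖ < 1) (hz : ‖z‖ < 1) (hz' : ‖z'‖ < 1)
    (h : mob w z = mob w z') : z = z' := by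
  have hd := mob_den_ne hw hz
  have hd' := mob_den_ne hw hz'
  unfold mob at h
  rw [div_eq_div_iff hd hd'] at h
  have h1 : (z - z') * (1 - (starRingEnd ℂ) w * w) = 0 := by linear_combination h
  rcases mul_eq_zero.1 h1 with h2 | h2
  · exact sub_eq_zero.1 h2
  · exact absurd h2 (mob_den_ne hw hw)

lemma mob_hasDerivAt {w z : ℂ} (hw : ‖w‖ < 1) (hz : ‖z‖ < 1) :
    HasDerivAt (mob w) ((1 - (starRingEnd ℂ) w * w) / (1 - (starRingEnd ℂ) w * z) ^ 2) z := by
  have hd := mob_den_ne hw hz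
  have h1 : HasDerivAt (fun z => z - w) 1 z := (hasDerivAt_id z).sub_const w
  have h2 : HasDerivAt (fun z => 1 - (starRingEnd ℂ) w * z) (-(starRingEnd ℂ) w) z := by
    simpa using ((hasDerivAt_id z).const_mul ((starRingEnd ℂ) w)).const_sub 1
  have h3 := h1.div h2 hd
  refine h3.congr_deriv ?_
  congr 1
  ring

lemma mob_zero_iff {w z : ℂ} (hw : ‖w‖ < 1) (hz : ‖z‖ < 1) : mob w z = 0 ↔ z = w := by
  unfold mob
  rw [div_eq_zero_iff, or_iff_left (mob_den_ne hw hz), sub_eq_zero]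

/-- The Riemann family. -/
def Fam (U : Set ℂ) (z0 : ℂ) : Set (ℂ → ℂ) :=
  {f | DifferentiableOn ℂ f U ∧ InjOn f U ∧ (∀ z ∈ U, ‖f z‖ < 1) ∧ f z0 = 0 ∧
    ∀ z ∈ U, deriv f z ≠ 0}

/-- Koebe's square root trick. -/
lemma koebe {U : Set ℂ} (hU : IsOpen U) (hc : IsSimplyConnected U) {z0 : ℂ} (hz0 : z0 ∈ U)
    {f : ℂ → ℂ} (hf : f ∈ Fam U z0) {w : ℂ} (hw : ‖w‖ < 1)
    (hwU : w ∉ f '' U) : ∃ k ∈ Fam U z0, ‖deriv f z0‖ < ‖deriv k z0‖ := by
  obtain ⟨hfd, hfi, hfb, hf0, hfne⟩ := hf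
  have hd0 : deriv f z0 ≠ 0 := hfne z0 hz0
  set g : ℂ → ℂ := fun z => mob w (f z) with hg
  have hgd : ∀ z ∈ U, HasDerivAt g ((1 - (starRingEnd ℂ) w * w) / (1 - (starRingEnd ℂ) w * f z) ^ 2
      * deriv f z) z := by
    intro z hz
    exact (mob_hasDerivAt hw (hfb z hz)).comp z
      ((hfd.differentiableAt (hU.mem_nhds hz)).hasDerivAt)
  have hgne : ∀ z ∈ U, g z ≠ 0 := by
    intro z hz h
    exact hwU ⟨z, hz, (mob_zero_iff hw (hfb z hz)).1 h⟩
  have hgi : InjOn g U := fun a ha b hb hab => hfi ha hb (mob_inj hw (hfb a ha) (hfb b hb) hab)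
  have hgb : ∀ z ∈ U, ‖g z‖ < 1 := fun z hz => mob_norm_lt hw (hfb z hz)
  have hgc : ContinuousOn g U := fun z hz => (hgd z hz).continuousAt.continuousWithinAt
  obtain ⟨h, hhc, hh⟩ := Complex.exists_continuousOn_pow_eq hc hU hgc
    (by rintro ⟨z, hz, hz2⟩; exact hgne z hz hz2) two_ne_zero
  have hhne : ∀ z ∈ U, h z ≠ 0 := by
    intro z hz h0
    apply hgne z hz
    rw [← hh z, h0]; simp
  have hhd : ∀ z ∈ U, HasDerivAt h ((1 - (starRingEnd ℂ) w * w) / (1 - (starRingEnd ℂ) w * f z) ^ 2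
      * deriv f z / (2 * h z)) z := by
    intro z hz
    refine HasDerivAt.of_comp_left (f := fun x => x ^ 2) (hhc.continuousAt (hU.mem_nhds hz)) ?_
      (hgd z hz) (mul_ne_zero two_ne_zero (hhne z hz)) ?_
    · simpa using hasDerivAt_pow 2 (h z)
    · exact Eventually.of_forall fun x => hh x
  have hhb : ∀ z ∈ U, ‖h z‖ < 1 := by
    intro z hz
    have := hgb z hz
    rw [← hh z, norm_pow] at this
    exact (pow_lt_one_iff_of_nonneg (norm_nonneg _) two_ne_zero).1 this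
  have hhi : InjOn h U := by
    intro a ha b hb hab
    apply hgi ha hb
    rw [← hh a, ← hh b, hab]
  set k : ℂ → ℂ := fun z => mob (h z0) (h z) with hk
  have hkd : ∀ z ∈ U, HasDerivAt k ((1 - (starRingEnd ℂ) (h z0) * (h z0)) /
      (1 - (starRingEnd ℂ) (h z0) * h z) ^ 2 * ((1 - (starRingEnd ℂ) w * w) /
      (1 - (starRingEnd ℂ) w * f z) ^ 2 * deriv f z / (2 * h z))) z := by
    intro z hz
    exact (mob_hasDerivAt (hhb z0 hz0) (hhb z hz)).comp z (hhd z hz)
  refine ⟨k, ⟨fun z hz => (hkd z hz).differentiableAt.differentiableWithinAt, ?_, ?_, ?_, ?_⟩, ?_⟩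
  · intro a ha b hb hab
    exact hhi ha hb (mob_inj (hhb z0 hz0) (hhb a ha) (hhb b hb) hab)
  · intro z hz
    exact mob_norm_lt (hhb z0 hz0) (hhb z hz)
  · exact (mob_zero_iff (hhb z0 hz0) (hhb z0 hz0)).2 rfl
  · intro z hz
    rw [(hkd z hz).deriv]
    have a1 := mob_den_ne (hhb z0 hz0) (hhb z0 hz0)
    have a2 := mob_den_ne (hhb z0 hz0) (hhb z hz)
    have a3 := mob_den_ne hw hw
    have a4 := mob_den_ne hw (hfb z hz)
    have a5 := hfne z hz
    have a6 := hhne z hz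
    exact mul_ne_zero (div_ne_zero a1 (pow_ne_zero 2 a2)) (div_ne_zero (mul_ne_zero
      (div_ne_zero a3 (pow_ne_zero 2 a4)) a5) (mul_ne_zero two_ne_zero a6))
  · rw [(hkd z0 hz0).deriv, hf0]
    have hg0 : g z0 = -w := by simp [hg, mob, hf0]
    have hh0 : (h z0) ^ 2 = -w := by rw [hh z0, hg0]
    set t := ‖h z0‖ with ht
    have ht0 : 0 < t := norm_pos_iff.2 (hhne z0 hz0)
    have ht1 : t < 1 := hhb z0 hz0
    have hwt : ‖w‖ = t ^ 2 := by
      rw [ht, ← norm_pow, hh0, norm_neg]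
    have hcc : ∀ a : ℂ, 1 - (starRingEnd ℂ) a * a = ((1 - ‖a‖ ^ 2 : ℝ) : ℂ) := by
      intro a
      rw [← Complex.normSq_eq_conj_mul_self, Complex.normSq_eq_norm_sq]
      push_cast; ring
    have h1 : ‖(1 - (starRingEnd ℂ) (h z0) * h z0)‖ = 1 - t ^ 2 := by
      rw [hcc, Complex.norm_real, Real.norm_of_nonneg]
      nlinarith
    have h2 : ‖(1 - (starRingEnd ℂ) w * w)‖ = 1 - (t ^ 2) ^ 2 := by
      rw [hcc, Complex.norm_real, Real.norm_of_nonneg, hwt]
      rw [hwt]
      have : t ^ 2 < 1 := by nlinarith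
      nlinarith [sq_nonneg t]
    rw [norm_mul, norm_div, norm_div, norm_mul, norm_div, norm_pow, norm_pow, norm_mul, h1, h2]
    simp only [mul_zero, sub_zero, norm_one, one_pow, div_one, Complex.norm_ofNat]
    rw [← ht]
    have hD : 0 < ‖deriv f z0‖ := norm_pos_iff.2 hd0
    have ht2 : 0 < 1 - t ^ 2 := by nlinarith
    have : (1 - t ^ 2) / (1 - t ^ 2) ^ 2 * ((1 - (t ^ 2) ^ 2) * ‖deriv f z0‖ / (2 * t))
        = ‖deriv f z0‖ * ((1 + t ^ 2) / (2 * t)) := by
      field_simp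
      ring
    rw [this]
    have h3 : 1 < (1 + t ^ 2) / (2 * t) := by
      rw [one_lt_div (by positivity)]
      nlinarith [sq_pos_of_pos (sub_pos.2 ht1)]
    exact lt_mul_of_one_lt_right hD h3

/-- **Riemann mapping theorem** for bounded simply connected domains. -/
theorem riemann_mapping {U : Set ℂ} (hU : IsOpen U) (hc : IsSimplyConnected U)
    (hb : Bornology.IsBounded U) {z0 : ℂ} (hz0 : z0 ∈ U) :
    ∃ f : ℂ → ℂ, DifferentiableOn ℂ f U ∧ InjOn f U ∧ f '' U = ball 0 1 ∧ f z0 = 0 ∧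
      ∀ z ∈ U, deriv f z ≠ 0 := by
  have hpc : IsPreconnected U := hc.isPathConnected.isConnected.isPreconnected
  obtain ⟨r, hr, hrU⟩ := Metric.isOpen_iff.1 hU z0 hz0
  set S : Set ℝ := (fun f : ℂ → ℂ => ‖deriv f z0‖) '' Fam U z0 with hS
  have hSb : BddAbove S := by
    refine ⟨1 / r, ?_⟩
    rintro _ ⟨f, hf, rfl⟩
    have h := Complex.norm_fderiv_le_div_of_mapsTo_ball (f := f) (c := z0) (R₁ := r) (R₂ := 1)
      (hf.1.mono hrU) (by
        intro z hz
        rw [hf.2.2.2.1]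
        simpa using (hf.2.2.1 z (hrU hz)).le) hr
    show ‖deriv f z0‖ ≤ 1 / r
    rw [norm_deriv_eq_norm_fderiv]
    exact h
  -- a member
  obtain ⟨R, hR0, hR⟩ : ∃ R : ℝ, 0 < R ∧ ∀ z ∈ U, ‖z - z0‖ < R := by
    obtain ⟨R, hR⟩ := hb.exists_norm_le
    refine ⟨R + ‖z0‖ + 1, ?_, ?_⟩
    · have := hR z0 hz0
      have := norm_nonneg z0
      linarith
    · intro z hz
      have h1 := hR z hz
      have := norm_sub_le z z0
      linarith
  have hmem : (fun z => (z - z0) / (R : ℂ)) ∈ Fam U z0 := by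
    have hRc : (R : ℂ) ≠ 0 := by exact_mod_cast hR0.ne'
    refine ⟨by fun_prop, ?_, ?_, by simp, ?_⟩
    · intro a _ b _ hab
      have := (div_left_inj' hRc).1 hab
      linear_combination this
    · intro z hz
      rw [norm_div, Complex.norm_real, Real.norm_of_nonneg hR0.le, div_lt_one hR0]
      exact hR z hz
    · intro z hz
      simp [deriv_div_const, hR0.ne']
  have hderiv : deriv (fun z => (z - z0) / (R : ℂ)) z0 = 1 / R := by
    simp [deriv_div_const]
  have hSne : S.Nonempty := ⟨_, ⟨_, hmem, rfl⟩⟩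
  set s := sSup S with hs
  have hs0 : 0 < s := by
    refine lt_of_lt_of_le ?_ (le_csSup hSb ⟨_, hmem, rfl⟩)
    show 0 < ‖deriv (fun z => (z - z0) / (R : ℂ)) z0‖
    rw [hderiv]
    simp [hR0.ne']
  obtain ⟨u, hu1, hu2, hu3⟩ := exists_seq_tendsto_sSup hSne hSb
  choose F hF using hu3
  obtain ⟨f, hf, hfb⟩ := montel hU F (fun n => (hF n).1.1)
    (fun n z hz => ((hF n).1.2.2.1 z hz).le) (hyperfilter ℕ)
  have hFd : ∀ n, DifferentiableOn ℂ (F n) U := fun n => (hF n).1.1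
  have hfd : DifferentiableOn ℂ f U := hf.differentiableOn (Eventually.of_forall hFd) hU
  have hder : Tendsto (fun n => ‖deriv (F n) z0‖) (hyperfilter ℕ) (𝓝 ‖deriv f z0‖) := by
    have h1 := hf.deriv (Eventually.of_forall hFd) hU
    exact (h1.tendsto_at hz0).norm
  have hder2 : Tendsto (fun n => ‖deriv (F n) z0‖) (hyperfilter ℕ) (𝓝 s) := by
    have h1 : (fun n => ‖deriv (F n) z0‖) = u := by
      funext n; exact (hF n).2
    rw [h1]
    exact hu2.mono_left Nat.hyperfilter_le_atTop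
  have hds : ‖deriv f z0‖ = s := tendsto_nhds_unique hder hder2
  have hd0 : deriv f z0 ≠ 0 := norm_pos_iff.1 (by rw [hds]; exact hs0)
  have hf0 : f z0 = 0 := by
    have h1 := hf.tendsto_at hz0
    have h2 : (fun n => F n z0) = fun _ => 0 := by
      funext n; exact (hF n).1.2.2.2.1
    rw [h2] at h1
    exact (tendsto_nhds_unique h1 tendsto_const_nhds)
  have hfi : InjOn f U := hurwitz hU hpc hFd (fun n => (hF n).1.2.1) hf hz0 hd0
  have hflt : ∀ z ∈ U, ‖f z‖ < 1 := by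
    intro z hz
    by_contra hcon
    have h1 : ‖f z‖ = 1 := le_antisymm (hfb z hz) (not_lt.1 hcon)
    have hmax : IsMaxOn (norm ∘ f) U z := by
      intro y hy
      show ‖f y‖ ≤ ‖f z‖
      rw [h1]; exact hfb y hy
    have h2 := Complex.eqOn_of_isPreconnected_of_isMaxOn_norm hpc hU hfd hz hmax
    apply hd0
    have h3 : f =ᶠ[𝓝 z0] fun _ => f z := by
      filter_upwards [hU.mem_nhds hz0] with y hy
      exact h2 hy
    rw [h3.deriv_eq]; simp
  have hfne : ∀ z ∈ U, deriv f z ≠ 0 :=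
    hurwitz_ne hU hpc (F := deriv ∘ F) (f := deriv f) (𝒰 := hyperfilter ℕ)
      (fun n => (hFd n).deriv hU) (fun n z hz => (hF n).1.2.2.2.2 z hz)
      (hf.deriv (Eventually.of_forall hFd) hU) hz0 hd0
  have hfam : f ∈ Fam U z0 := ⟨hfd, hfi, hflt, hf0, hfne⟩
  refine ⟨f, hfd, hfi, ?_, hf0, hfne⟩
  apply Subset.antisymm
  · rintro _ ⟨z, hz, rfl⟩
    simpa using hflt z hz
  · intro w hw
    by_contra hwU
    obtain ⟨k, hk, hk2⟩ := koebe hU hc hz0 hfam (by simpa using hw) hwU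
    have : ‖deriv k z0‖ ≤ s := le_csSup hSb ⟨k, hk, rfl⟩
    rw [hds] at hk2
    linarith

end Crest.Agent.H23.RMT

namespace Crest.Agent.H23

/-- T1: Riemann mapping theorem for bounded star-shaped domains. -/
theorem riemann_star (D : Set ℂ) (hO : IsOpen D) (hb : Bornology.IsBounded D)
    (h0 : (0 : ℂ) ∈ D) (hs : StarConvex ℝ 0 D) :
    ∃ χ ψ : ℂ → ℂ, DifferentiableOn ℂ χ (ball 0 1) ∧ DifferentiableOn ℂ ψ D ∧
      MapsTo χ (ball 0 1) D ∧ MapsTo ψ D (ball 0 1) ∧
      (∀ u ∈ ball (0 : ℂ) 1, ψ (χ u) = u) ∧ (∀ w ∈ D, χ (ψ w) = w) ∧ χ 0 = 0 := by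
  have hc : IsSimplyConnected D := by
    have : ContractibleSpace D := hs.contractibleSpace ⟨0, h0⟩
    exact (inferInstance : SimplyConnectedSpace D)
  obtain ⟨f, hfd, hfi, hfim, hf0, hfne⟩ := RMT.riemann_mapping hO hc hb h0
  set χ : ℂ → ℂ := Function.invFunOn f D with hχ
  have hmem : ∀ u ∈ ball (0 : ℂ) 1, χ u ∈ D ∧ f (χ u) = u := by
    intro u hu
    rw [← hfim] at hu
    exact ⟨Function.invFunOn_mem hu, Function.invFunOn_eq hu⟩
  have hleft : ∀ w ∈ D, χ (f w) = w := by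
    intro w hw
    have h1 : f w ∈ ball (0 : ℂ) 1 := by rw [← hfim]; exact mem_image_of_mem f hw
    exact hfi (hmem _ h1).1 hw (hmem _ h1).2
  have hcont : ∀ u ∈ ball (0 : ℂ) 1, ContinuousAt χ u := by
    intro u hu
    obtain ⟨huD, hfu⟩ := hmem u hu
    have hst : HasStrictDerivAt f (deriv f (χ u)) (χ u) :=
      ((hfd.analyticOnNhd hO) _ huD).hasStrictDerivAt
    have hmap := hst.map_nhds_eq (hfne _ huD)
    rw [ContinuousAt, tendsto_def]
    intro s hs
    have h2 : s ∩ D ∈ 𝓝 (χ u) := inter_mem hs (hO.mem_nhds huD)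
    have h3 : f '' (s ∩ D) ∈ 𝓝 u := by
      have : f '' (s ∩ D) ∈ Filter.map f (𝓝 (χ u)) := Filter.image_mem_map h2
      rw [hmap, hfu] at this
      exact this
    filter_upwards [h3]
    rintro _ ⟨y, ⟨hys, hyD⟩, rfl⟩
    show χ (f y) ∈ s
    rw [hleft y hyD]
    exact hys
  refine ⟨χ, f, ?_, hfd, fun u hu => (hmem u hu).1, ?_, fun u hu => (hmem u hu).2, hleft, ?_⟩
  · intro u hu
    obtain ⟨huD, hfu⟩ := hmem u hu
    have h1 : HasDerivAt f (deriv f (χ u)) (χ u) :=
      (hfd.differentiableAt (hO.mem_nhds huD)).hasDerivAt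
    have h2 := HasDerivAt.of_local_left_inverse (hcont u hu) h1 (hfne _ huD) (by
      filter_upwards [isOpen_ball.mem_nhds hu] with y hy
      exact (hmem y hy).2)
    exact h2.differentiableAt.differentiableWithinAt
  · intro w hw
    rw [← hfim]
    exact mem_image_of_mem f hw
  · have := hleft 0 h0
    rwa [hf0] at this

end Crest.Agent.H23
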