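import Crest.Agent.H23.Defs
import Crest.Agent.H23.Riemann

/-! T2 of row 132: exterior data of convex compact sets. -/

set_option autoImplicit false

open Metric Set Filter Topology

namespace Crest.Agent.H23

namespace Level

/-- the inverted exterior domain -/
def DD (K : Set ℂ) : Set ℂ := {w | w = 0 ∨ w⁻¹ ∉ K}

structure RM (K : Set ℂ) (χ ψ : ℂ → ℂ) : Prop where
  hK : IsCompact K
  hc : Convex ℝ K
  h0 : (0:ℂ) ∈ interior K
  dχ : DifferentiableOn ℂ χ (ball 0 1)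
  dψ : DifferentiableOn ℂ ψ (DD K)
  mχ : MapsTo χ (ball 0 1) (DD K)
  mψ : MapsTo ψ (DD K) (ball 0 1)
  left : ∀ u ∈ ball (0:ℂ) 1, ψ (χ u) = u
  right : ∀ w ∈ DD K, χ (ψ w) = w
  z0 : χ 0 = 0

theorem DD_open {K : Set ℂ} (hK : IsCompact K) : IsOpen (DD K) := by
  rw [Metric.isOpen_iff]
  rintro w (rfl | hw)
  · obtain ⟨C, hC⟩ := hK.isBounded.exists_norm_le
    refine ⟨(|C| + 1)⁻¹, by positivity, fun z hz => ?_⟩
    by_cases hz0 : z = 0
    · exact Or.inl hz0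
    · right
      intro hzK
      have h1 := hC _ hzK
      rw [mem_ball_zero_iff] at hz
      rw [norm_inv] at h1
      have hzp : 0 < ‖z‖ := norm_pos_iff.mpr hz0
      have h2 : ‖z‖⁻¹ ≤ |C| := h1.trans (le_abs_self C)
      have h3 : |C| + 1 < ‖z‖⁻¹ := by
        rw [lt_inv_comm₀ (by positivity) hzp]; exact hz
      linarith
  · by_cases hw0 : w = 0
    · subst hw0
      obtain ⟨C, hC⟩ := hK.isBounded.exists_norm_le
      refine ⟨(|C| + 1)⁻¹, by positivity, fun z hz => ?_⟩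
      by_cases hz0 : z = 0
      · exact Or.inl hz0
      · right
        intro hzK
        have h1 := hC _ hzK
        rw [mem_ball_zero_iff] at hz
        rw [norm_inv] at h1
        have hzp : 0 < ‖z‖ := norm_pos_iff.mpr hz0
        have h2 : ‖z‖⁻¹ ≤ |C| := h1.trans (le_abs_self C)
        have h3 : |C| + 1 < ‖z‖⁻¹ := by
          rw [lt_inv_comm₀ (by positivity) hzp]; exact hz
        linarith
    · have hc : ContinuousAt (fun z : ℂ => z⁻¹) w := continuousAt_inv₀ hw0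
      have hn : Kᶜ ∈ 𝓝 (w⁻¹) := hK.isClosed.isOpen_compl.mem_nhds hw
      have := hc.preimage_mem_nhds hn
      obtain ⟨ε, hε, hsub⟩ := Metric.mem_nhds_iff.mp this
      exact ⟨ε, hε, fun z hz => Or.inr (hsub hz)⟩

theorem DD_bdd {K : Set ℂ} (h0 : (0:ℂ) ∈ interior K) : Bornology.IsBounded (DD K) := by
  obtain ⟨δ, hδ, hsub⟩ := Metric.mem_nhds_iff.mp (mem_interior_iff_mem_nhds.mp h0)
  refine (Metric.isBounded_closedBall (x := (0:ℂ)) (r := δ⁻¹)).subset ?_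
  rintro w (rfl | hw)
  · simp [hδ.le]
  · rw [mem_closedBall_zero_iff]
    by_contra hlt
    push Not at hlt
    apply hw
    apply hsub
    rw [mem_ball_zero_iff, norm_inv]
    rwa [inv_lt_comm₀ (lt_trans (inv_pos.mpr hδ) hlt) hδ]

theorem DD_star {K : Set ℂ} (hc : Convex ℝ K) (h0 : (0:ℂ) ∈ K) : StarConvex ℝ 0 (DD K) := by
  intro w hw a b ha hb hab
  rw [smul_zero, zero_add]
  by_cases hbw : b • w = 0
  · exact Or.inl hbw
  · right
    have hb0 : b ≠ 0 := fun h => hbw (by simp [h])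
    have hw0 : w ≠ 0 := fun h => hbw (by simp [h])
    intro hmem
    rcases hw with h | h
    · exact hw0 h
    · apply h
      have := hc h0 hmem ha hb hab
      have he : a • (0:ℂ) + b • (b • w)⁻¹ = w⁻¹ := by
        rw [smul_zero, zero_add, Complex.real_smul, Complex.real_smul, mul_inv, ← mul_assoc,
          mul_inv_cancel₀ (by exact_mod_cast hb0), one_mul]
      rwa [he] at this

variable {K : Set ℂ} {χ ψ : ℂ → ℂ}

theorem RM.zK (h : RM K χ ψ) : (0:ℂ) ∈ K := interior_subset h.h0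

theorem RM.ne (h : RM K χ ψ) {z : ℂ} (hz : z ∉ K) : z ≠ 0 := fun h' => hz (h' ▸ h.zK)

theorem RM.inv_mem (_h : RM K χ ψ) {z : ℂ} (hz : z ∉ K) : z⁻¹ ∈ DD K := by
  right; rwa [inv_inv]

theorem RM.ψ0 (h : RM K χ ψ) : ψ 0 = 0 := by
  have := h.left 0 (by simp)
  rwa [h.z0] at this

theorem RM.opn (h : RM K χ ψ) : IsOpen (DD K) := DD_open h.hK

theorem RM.χ_ne (h : RM K χ ψ) {u : ℂ} (hu : u ∈ ball (0:ℂ) 1) (hu0 : u ≠ 0) : χ u ≠ 0 := by
  intro h1
  have := h.left u hu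
  rw [h1, h.ψ0] at this
  exact hu0 this.symm

theorem RM.χ_inv (h : RM K χ ψ) {u : ℂ} (hu : u ∈ ball (0:ℂ) 1) (hu0 : u ≠ 0) : (χ u)⁻¹ ∉ K := by
  rcases h.mχ hu with h1 | h1
  · exact absurd h1 (h.χ_ne hu hu0)
  · exact h1

open Classical in
/-- the extended modulus -/
noncomputable def mm (K : Set ℂ) (ψ : ℂ → ℂ) (z : ℂ) : ℝ := if z ∈ K then 1 else ‖ψ z⁻¹‖

theorem mm_in {z : ℂ} (hz : z ∈ K) : mm K ψ z = 1 := if_pos hz
theorem mm_out {z : ℂ} (hz : z ∉ K) : mm K ψ z = ‖ψ z⁻¹‖ := if_neg hz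

theorem RM.lt_one (h : RM K χ ψ) {z : ℂ} (hz : z ∉ K) : mm K ψ z < 1 := by
  rw [mm_out hz]
  have := h.mψ (h.inv_mem hz)
  rwa [mem_ball_zero_iff] at this

theorem RM.notin (_h : RM K χ ψ) {z : ℂ} (hz : mm K ψ z < 1) : z ∉ K := by
  intro h1; rw [mm_in h1] at hz; exact lt_irrefl _ hz

theorem RM.le_one (h : RM K χ ψ) (z : ℂ) : mm K ψ z ≤ 1 := by
  by_cases hz : z ∈ K
  · rw [mm_in hz]
  · exact (h.lt_one hz).le

theorem RM.pos (h : RM K χ ψ) (z : ℂ) : 0 < mm K ψ z := by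
  by_cases hz : z ∈ K
  · rw [mm_in hz]; exact one_pos
  · rw [mm_out hz, norm_pos_iff]
    intro h1
    have := h.right _ (h.inv_mem hz)
    rw [h1, h.z0] at this
    exact h.ne hz (inv_eq_zero.mp this.symm)

theorem RM.mm_χ (h : RM K χ ψ) {u : ℂ} (hu : u ∈ ball (0:ℂ) 1) (hu0 : u ≠ 0) :
    mm K ψ (χ u)⁻¹ = ‖u‖ := by
  rw [mm_out (h.χ_inv hu hu0), inv_inv, h.left u hu]

theorem RM.closed_le (h : RM K χ ψ) {r : ℝ} (hr : r < 1) : IsClosed {z | mm K ψ z ≤ r} := by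
  have hcomp : IsCompact (χ '' closedBall 0 r) := by
    apply (isCompact_closedBall (0:ℂ) r).image_of_continuousOn
    exact h.dχ.continuousOn.mono (closedBall_subset_ball hr)
  have h1 : ContinuousOn (fun z : ℂ => z⁻¹) (interior K)ᶜ := by
    apply continuousOn_inv₀.mono
    intro z hz h2
    exact hz (by rw [h2]; exact h.h0)
  have h2 := h1.preimage_isClosed_of_isClosed isOpen_interior.isClosed_compl hcomp.isClosed
  convert h2 using 1
  ext z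
  simp only [mem_ofPred_eq, mem_inter_iff, mem_preimage, mem_image, mem_compl_iff]
  constructor
  · intro hz
    have hzK : z ∉ K := h.notin (hz.trans_lt hr)
    refine ⟨fun h3 => hzK (interior_subset h3), ψ z⁻¹, ?_, h.right _ (h.inv_mem hzK)⟩
    rw [mem_closedBall_zero_iff, ← mm_out hzK]; exact hz
  · rintro ⟨hz, u, hu, hu2⟩
    have hz0 : z ≠ 0 := fun h3 => hz (h3 ▸ h.h0)
    have hub : u ∈ ball (0:ℂ) 1 := closedBall_subset_ball hr hu
    have hu0 : u ≠ 0 := by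
      rintro rfl
      rw [h.z0] at hu2
      exact inv_ne_zero hz0 hu2.symm
    have hz' : z = (χ u)⁻¹ := by rw [hu2, inv_inv]
    rw [hz', h.mm_χ hub hu0]
    rwa [mem_closedBall_zero_iff] at hu

theorem RM.inv_contAt (h : RM K χ ψ) {z : ℂ} (hz : z ∉ K) : ContinuousAt (fun z => ψ z⁻¹) z := by
  have h1 : ContinuousAt (fun z : ℂ => z⁻¹) z := continuousAt_inv₀ (h.ne hz)
  have h2 : ContinuousAt ψ z⁻¹ :=
    (h.dψ.continuousOn).continuousAt (h.opn.mem_nhds (h.inv_mem hz))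
  exact ContinuousAt.comp (f := fun z : ℂ => z⁻¹) (g := ψ) h2 h1

theorem RM.inv_diffAt (h : RM K χ ψ) {z : ℂ} (hz : z ∉ K) :
    DifferentiableAt ℂ (fun z => ψ z⁻¹) z := by
  have h1 : DifferentiableAt ℂ (fun z : ℂ => z⁻¹) z := differentiableAt_inv (h.ne hz)
  have h2 : DifferentiableAt ℂ ψ z⁻¹ :=
    (h.dψ).differentiableAt (h.opn.mem_nhds (h.inv_mem hz))
  exact DifferentiableAt.comp z h2 h1

theorem RM.cont (h : RM K χ ψ) : Continuous (mm K ψ) := by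
  rw [continuous_iff_continuousAt]
  intro z
  by_cases hz : z ∈ K
  · rw [Metric.continuousAt_iff']
    intro ε hε
    rw [mm_in hz]
    have hcl : IsClosed {z | mm K ψ z ≤ 1 - ε} := h.closed_le (by linarith)
    have hmem : z ∈ {z | mm K ψ z ≤ 1 - ε}ᶜ := by
      simp only [mem_compl_iff, mem_ofPred_eq, mm_in hz]; linarith
    filter_upwards [hcl.isOpen_compl.mem_nhds hmem] with y hy
    simp only [mem_compl_iff, mem_ofPred_eq, not_le] at hy
    rw [Real.dist_eq, abs_lt]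
    constructor
    · linarith
    · linarith [h.le_one y]
  · have h1 : ContinuousAt (fun z => ‖ψ z⁻¹‖) z := (h.inv_contAt hz).norm
    apply h1.congr
    filter_upwards [h.hK.isClosed.isOpen_compl.mem_nhds hz] with y hy
    exact (mm_out hy).symm

theorem RM.tend_inf (h : RM K χ ψ) : Tendsto (mm K ψ) (Bornology.cobounded ℂ) (𝓝 0) := by
  have h1 : Tendsto (fun z : ℂ => z⁻¹) (Bornology.cobounded ℂ) (𝓝 0) := tendsto_inv₀_cobounded
  have h2 : ContinuousAt ψ 0 :=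
    (h.dψ.continuousOn).continuousAt (h.opn.mem_nhds (Or.inl rfl))
  have h3 : Tendsto (fun z : ℂ => ‖ψ z⁻¹‖) (Bornology.cobounded ℂ) (𝓝 0) := by
    have := (h2.tendsto.comp h1).norm
    simpa [h.ψ0] using this
  refine h3.congr' ?_
  have h4 : ∀ᶠ z in Bornology.cobounded ℂ, z ∉ K := by
    have := h.hK.isBounded
    exact Bornology.isBounded_def.mp this
  filter_upwards [h4] with z hz
  exact (mm_out hz).symm

theorem RM.near (h : RM K χ ψ) {V : Set ℂ} (hV : IsOpen V) (hKV : K ⊆ V) :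
    ∃ r : ℝ, 0 < r ∧ r < 1 ∧ ∀ z, r < mm K ψ z → z ∈ V := by
  have hclosed : IsClosed (Vᶜ ∩ {z | 1/2 ≤ mm K ψ z}) :=
    hV.isClosed_compl.inter (isClosed_le continuous_const h.cont)
  have hbdd : Bornology.IsBounded (Vᶜ ∩ {z | 1/2 ≤ mm K ψ z}) := by
    rw [Bornology.isBounded_def]
    have := h.tend_inf.eventually (gt_mem_nhds (show (0:ℝ) < 1/2 by norm_num))
    filter_upwards [this] with z hz
    rintro ⟨_, h2⟩
    simp only [mem_ofPred_eq] at h2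
    linarith
  have hcomp := Metric.isCompact_of_isClosed_isBounded hclosed hbdd
  by_cases hne : (Vᶜ ∩ {z | 1/2 ≤ mm K ψ z}).Nonempty
  · obtain ⟨z0, hz0, hmax⟩ := hcomp.exists_isMaxOn hne h.cont.continuousOn
    have hz1 : z0 ∉ K := fun h1 => hz0.1 (hKV h1)
    refine ⟨mm K ψ z0, h.pos z0, h.lt_one hz1, fun z hz => ?_⟩
    by_contra hzV
    have h2 : z ∈ Vᶜ ∩ {z | 1/2 ≤ mm K ψ z} := by
      refine ⟨hzV, ?_⟩
      simp only [mem_ofPred_eq]
      have := hz0.2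
      simp only [mem_ofPred_eq] at this
      linarith
    have := hmax h2
    simp only [mem_ofPred_eq] at this
    linarith
  · refine ⟨1/2, by norm_num, by norm_num, fun z hz => ?_⟩
    by_contra hzV
    exact hne ⟨z, hzV, hz.le⟩

theorem RM.hasDerivχ (h : RM K χ ψ) {u : ℂ} (hu : u ∈ ball (0:ℂ) 1) :
    HasDerivAt χ (deriv χ u) u :=
  (h.dχ.differentiableAt (isOpen_ball.mem_nhds hu)).hasDerivAt

theorem RM.hasDerivψ (h : RM K χ ψ) {w : ℂ} (hw : w ∈ DD K) :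
    HasDerivAt ψ (deriv ψ w) w :=
  (h.dψ.differentiableAt (h.opn.mem_nhds hw)).hasDerivAt

theorem RM.chain (h : RM K χ ψ) {u : ℂ} (hu : u ∈ ball (0:ℂ) 1) :
    deriv ψ (χ u) * deriv χ u = 1 := by
  have h1 : HasDerivAt (ψ ∘ χ) (deriv ψ (χ u) * deriv χ u) u :=
    (h.hasDerivψ (h.mχ hu)).comp u (h.hasDerivχ hu)
  have h2 : HasDerivAt (ψ ∘ χ) 1 u := by
    refine (hasDerivAt_id u).congr_of_eventuallyEq ?_
    filter_upwards [isOpen_ball.mem_nhds hu] with v hv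
    exact h.left v hv
  exact h1.unique h2

theorem RM.chain0 (h : RM K χ ψ) : deriv ψ 0 * deriv χ 0 = 1 := by
  have := h.chain (u := 0) (by simp)
  rwa [h.z0] at this

theorem RM.dχ0 (h : RM K χ ψ) : deriv χ 0 ≠ 0 := right_ne_zero_of_mul_eq_one h.chain0
theorem RM.dψ0 (h : RM K χ ψ) : deriv ψ 0 ≠ 0 := left_ne_zero_of_mul_eq_one h.chain0

theorem RM.scale_inf (h : RM K χ ψ) : Tendsto (fun z => ‖z‖ * mm K ψ z) (Bornology.cobounded ℂ)
    (𝓝 ‖deriv ψ 0‖) := by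
  have h1 : Tendsto (fun z : ℂ => z⁻¹) (Bornology.cobounded ℂ) (𝓝[≠] 0) := by
    exact tendsto_inv₀_cobounded'
  have h2 := (h.hasDerivψ (w := 0) (Or.inl rfl)).tendsto_slope
  have h3 := (h2.comp h1).norm
  refine h3.congr' ?_
  have h4 : ∀ᶠ z in Bornology.cobounded ℂ, z ∉ K := by
    have := h.hK.isBounded
    exact Bornology.isBounded_def.mp this
  filter_upwards [h4] with z hz
  simp only [Function.comp, slope_def_field, sub_zero, h.ψ0, div_inv_eq_mul]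
  rw [mm_out hz, mul_comm, norm_mul]

/-- convex combination of two exterior points -/
noncomputable def HH (χ : ℂ → ℂ) (a b : ℂ) (t : ℝ) (u : ℂ) : ℂ :=
  (1 - t) * (χ (u * a))⁻¹ + t * (χ (u * b))⁻¹

theorem RM.lim_one (h : RM K χ ψ) {a : ℂ} (ha : ‖a‖ = 1) :
    Tendsto (fun u : ℂ => u * (χ (u * a))⁻¹) (𝓝[≠] 0) (𝓝 (a * deriv χ 0)⁻¹) := by
  have ha0 : a ≠ 0 := norm_pos_iff.mp (by rw [ha]; exact one_pos)
  have h1 : HasDerivAt (fun u : ℂ => χ (u * a)) (deriv χ 0 * (1 * a)) 0 := by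
    have h2 : HasDerivAt (fun u : ℂ => u * a) (1 * a) 0 := (hasDerivAt_id 0).mul_const a
    have h3 : HasDerivAt χ (deriv χ 0) (0 * a) := by
      rw [zero_mul]; exact h.hasDerivχ (by simp)
    exact h3.comp (0:ℂ) h2
  have h2 := h1.tendsto_slope
  have h3 : (deriv χ 0 * (1 * a)) ≠ 0 := by
    rw [one_mul]; exact mul_ne_zero h.dχ0 ha0
  have h4 := h2.inv₀ h3
  rw [one_mul, mul_comm (deriv χ 0) a] at h4
  refine h4.congr' ?_
  filter_upwards with u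
  simp only [slope_def_field, sub_zero, zero_mul, h.z0, inv_div]
  rw [div_eq_mul_inv]

theorem RM.lim_HH (h : RM K χ ψ) {a b : ℂ} (ha : ‖a‖ = 1) (hb : ‖b‖ = 1) (t : ℝ) :
    Tendsto (fun u : ℂ => u * HH χ a b t u) (𝓝[≠] 0)
      (𝓝 ((1 - t) * (a * deriv χ 0)⁻¹ + t * (b * deriv χ 0)⁻¹)) := by
  have h1 := ((h.lim_one ha).const_mul ((1:ℂ) - t)).add ((h.lim_one hb).const_mul (t:ℂ))
  refine h1.congr' ?_
  filter_upwards with u
  rw [HH]; ring

theorem RM.lim_le (h : RM K χ ψ) {a b : ℂ} (ha : ‖a‖ = 1) (hb : ‖b‖ = 1) {t : ℝ}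
    (ht0 : 0 ≤ t) (ht1 : t ≤ 1) :
    ‖((1 - t) * (a * deriv χ 0)⁻¹ + t * (b * deriv χ 0)⁻¹ : ℂ)‖ ≤ ‖deriv ψ 0‖ := by
  have hd : ‖deriv ψ 0‖ = ‖(deriv χ 0)⁻¹‖ := by
    rw [eq_inv_of_mul_eq_one_left h.chain0]
  have h1 : ‖((1:ℂ) - t)‖ = 1 - t := by
    rw [← Complex.ofReal_one, ← Complex.ofReal_sub, Complex.norm_real, Real.norm_of_nonneg]
    linarith
  have h2 : ‖(t:ℂ)‖ = t := by
    rw [Complex.norm_real, Real.norm_of_nonneg ht0]
  calc _ ≤ ‖((1 - t) * (a * deriv χ 0)⁻¹ : ℂ)‖ + ‖(t * (b * deriv χ 0)⁻¹ : ℂ)‖ := norm_add_le _ _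
    _ = (1 - t) * ‖deriv ψ 0‖ + t * ‖deriv ψ 0‖ := by
        rw [norm_mul, norm_mul, h1, h2, mul_inv, mul_inv, norm_mul, norm_mul, hd, norm_inv a,
          norm_inv b, ha, hb]
        simp
    _ = _ := by ring

theorem RM.small (h : RM K χ ψ) {a b : ℂ} (ha : ‖a‖ = 1) (hb : ‖b‖ = 1) {t : ℝ}
    (ht0 : 0 ≤ t) (ht1 : t ≤ 1) {c : ℝ} (hc : 1 < c) :
    ∃ δ : ℝ, 0 < δ ∧ ∀ u : ℂ, u ≠ 0 → ‖u‖ < δ → ‖u‖ ≤ c * mm K ψ (HH χ a b t u) := by
  set α := ‖deriv ψ 0‖ with hα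
  have hα0 : 0 < α := norm_pos_iff.mpr h.dψ0
  obtain ⟨η, hη1, hη2⟩ : ∃ η : ℝ, 1 < η ∧ η * η ≤ c := by
    refine ⟨Real.sqrt c, ?_, ?_⟩
    · rw [show (1:ℝ) = Real.sqrt 1 by simp]
      exact Real.sqrt_lt_sqrt (by norm_num) hc
    · rw [Real.mul_self_sqrt (by linarith)]
  have h1 : ∀ᶠ z in Bornology.cobounded ℂ, α / η < ‖z‖ * mm K ψ z := by
    apply h.scale_inf.eventually (lt_mem_nhds _)
    rw [div_lt_iff₀ (by linarith)]
    nlinarith
  obtain ⟨M, hM⟩ : ∃ M : ℝ, ∀ z : ℂ, M < ‖z‖ → α / η < ‖z‖ * mm K ψ z := by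
    rw [← comap_norm_atTop, Filter.eventually_comap] at h1
    obtain ⟨M, hM⟩ := Filter.eventually_atTop.mp h1
    exact ⟨M, fun z hz => hM _ hz.le z rfl⟩
  obtain ⟨c0, hc0, hlow⟩ : ∃ c0 : ℝ, 0 < c0 ∧ ∀ z : ℂ, ‖z‖ ≤ |M| → c0 ≤ mm K ψ z := by
    obtain ⟨z0, hz0, hmin⟩ := (isCompact_closedBall (0:ℂ) |M|).exists_isMinOn
      ⟨0, by simp⟩ h.cont.continuousOn
    exact ⟨mm K ψ z0, h.pos z0, fun z hz => hmin (by rwa [mem_closedBall_zero_iff])⟩
  have h2 : ∀ᶠ u in 𝓝[≠] (0:ℂ), ‖u * HH χ a b t u‖ < η * α := by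
    apply (h.lim_HH ha hb t).norm.eventually (gt_mem_nhds _)
    calc _ ≤ α := h.lim_le ha hb ht0 ht1
      _ < η * α := by nlinarith
  obtain ⟨δ, hδ, hsub⟩ := Metric.mem_nhdsWithin_iff.mp h2
  refine ⟨min δ c0, lt_min hδ hc0, fun u hu0 hu => ?_⟩
  have hmpos := h.pos (HH χ a b t u)
  by_cases hbig : ‖HH χ a b t u‖ ≤ |M|
  · have h3 := hlow _ hbig
    have h4 : ‖u‖ < c0 := hu.trans_le (min_le_right _ _)
    nlinarith
  · push Not at hbig
    have h3 := hM _ ((le_abs_self M).trans_lt hbig)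
    have h4 : ‖u * HH χ a b t u‖ < η * α := by
      apply hsub
      refine ⟨?_, hu0⟩
      rw [mem_ball_zero_iff]
      exact hu.trans_le (min_le_left _ _)
    rw [norm_mul] at h4
    rw [div_lt_iff₀ (by linarith)] at h3
    have hHpos : 0 < ‖HH χ a b t u‖ := (abs_nonneg M).trans_lt hbig
    have h5 : ‖HH χ a b t u‖ * ‖u‖ ≤ ‖HH χ a b t u‖ * (c * mm K ψ (HH χ a b t u)) := by
      calc ‖HH χ a b t u‖ * ‖u‖ = ‖u‖ * ‖HH χ a b t u‖ := mul_comm _ _
        _ ≤ η * α := h4.le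
        _ ≤ η * (‖HH χ a b t u‖ * mm K ψ (HH χ a b t u) * η) := by
            apply mul_le_mul_of_nonneg_left h3.le (by linarith)
        _ = (η * η) * (‖HH χ a b t u‖ * mm K ψ (HH χ a b t u)) := by ring
        _ ≤ c * (‖HH χ a b t u‖ * mm K ψ (HH χ a b t u)) := by
            apply mul_le_mul_of_nonneg_right hη2 (by positivity)
        _ = _ := by ring
    exact le_of_mul_le_mul_left h5 hHpos

theorem RM.large (h : RM K χ ψ) {a b : ℂ} (ha : ‖a‖ = 1) (hb : ‖b‖ = 1) {t : ℝ}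
    (ht0 : 0 ≤ t) (ht1 : t ≤ 1) {c : ℝ} (hc : 1 < c) :
    ∃ δ : ℝ, δ < 1 ∧ ∀ u : ℂ, u ≠ 0 → δ < ‖u‖ → ‖u‖ < 1 → ‖u‖ ≤ c * mm K ψ (HH χ a b t u) := by
  have hopen : IsOpen {z | c⁻¹ < mm K ψ z} := isOpen_lt continuous_const h.cont
  have hsub : K ⊆ {z | c⁻¹ < mm K ψ z} := by
    intro z hz
    simp only [mem_ofPred_eq, mm_in hz]
    exact inv_lt_one_of_one_lt₀ hc
  obtain ⟨δ, hδ, hth⟩ := h.hK.exists_thickening_subset_open hopen hsub
  obtain ⟨r, hr0, hr1, hr⟩ := h.near (isOpen_thickening (δ := δ) (E := K)) (self_subset_thickening hδ K)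
  refine ⟨r, hr1, fun u hu0 hur hu1 => ?_⟩
  have hcv : Convex ℝ (thickening δ K) := h.hc.thickening δ
  have key : ∀ a : ℂ, ‖a‖ = 1 → (χ (u * a))⁻¹ ∈ thickening δ K := by
    intro a ha
    apply hr
    have ha0 : a ≠ 0 := norm_pos_iff.mp (by rw [ha]; exact one_pos)
    rw [h.mm_χ (by rw [mem_ball_zero_iff, norm_mul, ha, mul_one]; exact hu1)
      (mul_ne_zero hu0 ha0), norm_mul, ha, mul_one]
    exact hur
  have hH : HH χ a b t u ∈ thickening δ K := by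
    have := hcv (key a ha) (key b hb) (sub_nonneg.mpr ht1) ht0 (by ring)
    convert this using 1
    rw [HH, Complex.real_smul, Complex.real_smul]
    push_cast
    ring
  have h1 := hth hH
  simp only [mem_ofPred_eq] at h1
  have h2 : 1 < c * mm K ψ (HH χ a b t u) := by
    rw [inv_lt_iff_one_lt_mul₀ (by linarith)] at h1
    linarith
  linarith

theorem RM.HH_diff (h : RM K χ ψ) {a b : ℂ} (ha : ‖a‖ = 1) (hb : ‖b‖ = 1) (t : ℝ) {u : ℂ}
    (hu0 : u ≠ 0) (hu1 : ‖u‖ < 1) : DifferentiableAt ℂ (HH χ a b t) u := by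
  have key : ∀ a : ℂ, ‖a‖ = 1 → DifferentiableAt ℂ (fun u => (χ (u * a))⁻¹) u := by
    intro a ha
    have ha0 : a ≠ 0 := norm_pos_iff.mp (by rw [ha]; exact one_pos)
    have hmem : u * a ∈ ball (0:ℂ) 1 := by rw [mem_ball_zero_iff, norm_mul, ha, mul_one]; exact hu1
    have h1 : DifferentiableAt ℂ χ (u * a) := (h.hasDerivχ hmem).differentiableAt
    have h2 : DifferentiableAt ℂ (fun u : ℂ => u * a) u := differentiableAt_id.mul_const a
    have h3 : DifferentiableAt ℂ (fun u : ℂ => χ (u * a)) u :=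
      DifferentiableAt.comp (f := fun u : ℂ => u * a) (g := χ) u h1 h2
    exact h3.inv (h.χ_ne hmem (mul_ne_zero hu0 ha0))
  have := ((key a ha).const_mul ((1:ℂ) - t)).add ((key b hb).const_mul (t:ℂ))
  exact this

theorem RM.level (h : RM K χ ψ) {a b : ℂ} (ha : ‖a‖ = 1) (hb : ‖b‖ = 1) {t : ℝ}
    (ht0 : 0 ≤ t) (ht1 : t ≤ 1) {u : ℂ} (hu0 : u ≠ 0) (hu1 : ‖u‖ < 1) :
    ‖u‖ ≤ mm K ψ (HH χ a b t u) := by
  by_contra hcon
  push Not at hcon
  have hmp := h.pos (HH χ a b t u)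
  obtain ⟨c, hc1, hc2⟩ : ∃ c : ℝ, 1 < c ∧ c * mm K ψ (HH χ a b t u) < ‖u‖ := by
    obtain ⟨c, hc1, hc2⟩ := exists_between ((one_lt_div hmp).mpr hcon)
    exact ⟨c, hc1, by rwa [lt_div_iff₀ hmp] at hc2⟩
  obtain ⟨δ0, hδ0, hsm⟩ := h.small ha hb ht0 ht1 hc1
  obtain ⟨δ1, hδ1, hla⟩ := h.large ha hb ht0 ht1 hc1
  -- the punctured disc
  set P : Set ℂ := {v : ℂ | v ≠ 0 ∧ ‖v‖ < 1} with hP
  have hPo : IsOpen P := by
    have : P = {0}ᶜ ∩ ball (0:ℂ) 1 := by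
      ext v; simp [hP]
    rw [this]
    exact isOpen_compl_singleton.inter isOpen_ball
  have hcH : ∀ v ∈ P, ContinuousAt (fun v => c * mm K ψ (HH χ a b t v)) v := by
    intro v hv
    have h1 := (h.HH_diff ha hb t hv.1 hv.2).continuousAt
    exact (ContinuousAt.comp (f := HH χ a b t) (g := mm K ψ) h.cont.continuousAt h1).const_mul c
  set T : Set ℂ := P ∩ {v | c * mm K ψ (HH χ a b t v) < ‖v‖} with hT
  have hTo : IsOpen T := by
    have hc1 : ContinuousOn (fun v => ‖v‖ - c * mm K ψ (HH χ a b t v)) P := fun v hv =>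
      (continuous_norm.continuousAt.sub (hcH v hv)).continuousWithinAt
    have := hc1.isOpen_inter_preimage hPo (isOpen_Ioi (a := (0:ℝ)))
    convert this using 1
    ext v
    simp [hT]
  have huT : u ∈ T := ⟨⟨hu0, hu1⟩, hc2⟩
  have hTsub : T ⊆ {v : ℂ | δ0 ≤ ‖v‖ ∧ ‖v‖ ≤ δ1} := by
    rintro v ⟨⟨hv0, hv1⟩, hv2⟩
    simp only [mem_ofPred_eq] at hv2 ⊢
    constructor
    · by_contra hlt
      push Not at hlt
      exact absurd (hsm v hv0 hlt) (not_le.mpr hv2)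
    · by_contra hlt
      push Not at hlt
      exact absurd (hla v hv0 hlt hv1) (not_le.mpr hv2)
  have hclA : IsClosed {v : ℂ | δ0 ≤ ‖v‖ ∧ ‖v‖ ≤ δ1} :=
    (isClosed_le continuous_const continuous_norm).inter
      (isClosed_le continuous_norm continuous_const)
  have hcT : closure T ⊆ {v : ℂ | δ0 ≤ ‖v‖ ∧ ‖v‖ ≤ δ1} := closure_minimal hTsub hclA
  have hcTP : closure T ⊆ P := by
    intro v hv
    have := hcT hv
    simp only [mem_ofPred_eq] at this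
    refine ⟨?_, by linarith [this.2]⟩
    rintro rfl
    rw [norm_zero] at this
    linarith [this.1]
  have hcl_le : ∀ v ∈ closure T, c * mm K ψ (HH χ a b t v) ≤ ‖v‖ := by
    intro v hv
    have hcv := hcH v (hcTP hv)
    have : (𝓝[T] v).NeBot := mem_closure_iff_nhdsWithin_neBot.mp hv
    refine le_of_tendsto_of_tendsto (b := 𝓝[T] v) (hcv.tendsto.mono_left nhdsWithin_le_nhds)
      (continuous_norm.continuousAt.tendsto.mono_left nhdsWithin_le_nhds) ?_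
    filter_upwards [self_mem_nhdsWithin] with w hw
    exact hw.2.le
  have hcl_notin : ∀ v ∈ closure T, HH χ a b t v ∉ K := by
    intro v hv
    apply h.notin
    have h1 := hcl_le v hv
    have h2 := (hcTP hv).2
    have h3 := h.pos (HH χ a b t v)
    nlinarith
  set B : ℂ → ℂ := fun v => v * (ψ (HH χ a b t v)⁻¹)⁻¹ with hB
  have hBd : ∀ v ∈ closure T, DifferentiableAt ℂ B v := by
    intro v hv
    have h1 := h.HH_diff ha hb t (hcTP hv).1 (hcTP hv).2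
    have h2 := h.inv_diffAt (hcl_notin v hv)
    have h3 : DifferentiableAt ℂ (fun v => ψ (HH χ a b t v)⁻¹) v :=
      DifferentiableAt.comp (f := HH χ a b t) (g := fun z => ψ z⁻¹) v h2 h1
    have h4 : ψ (HH χ a b t v)⁻¹ ≠ 0 := by
      have := h.pos (HH χ a b t v)
      rw [mm_out (hcl_notin v hv), norm_pos_iff] at this
      exact this
    exact differentiableAt_id.mul (h3.inv h4)
  have hBn : ∀ v ∈ closure T, ‖B v‖ = ‖v‖ / mm K ψ (HH χ a b t v) := by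
    intro v hv
    rw [hB]
    simp only [norm_mul, norm_inv]
    rw [mm_out (hcl_notin v hv)]
    rfl
  have hTb : Bornology.IsBounded T := by
    refine (Metric.isBounded_closedBall (x := (0:ℂ)) (r := δ1)).subset ?_
    intro v hv
    rw [mem_closedBall_zero_iff]
    exact (hTsub hv).2
  have hdc : DiffContOnCl ℂ B T := by
    refine ⟨fun v hv => (hBd v (subset_closure hv)).differentiableWithinAt, fun v hv =>
      (hBd v hv).continuousAt.continuousWithinAt⟩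
  have hfr : ∀ z ∈ frontier T, ‖B z‖ ≤ c := by
    intro z hz
    have hz1 : z ∈ closure T := frontier_subset_closure hz
    have hz2 : z ∉ T := by
      rw [hTo.frontier_eq] at hz
      exact hz.2
    rw [hBn z hz1, div_le_iff₀ (h.pos _)]
    by_contra hlt
    push Not at hlt
    exact hz2 ⟨hcTP hz1, hlt⟩
  have := Complex.norm_le_of_forall_mem_frontier_norm_le hTb hdc hfr (subset_closure huT)
  rw [hBn u (subset_closure huT), div_le_iff₀ (h.pos _)] at this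
  linarith

theorem RM.level' (h : RM K χ ψ) {p q : ℂ} {r : ℝ} (hr1 : r < 1) (hp : mm K ψ p = r)
    (hq : mm K ψ q = r) {t : ℝ} (ht0 : 0 ≤ t) (ht1 : t ≤ 1) :
    r ≤ mm K ψ ((1 - t) * p + t * q) := by
  have hr0 : 0 < r := by rw [← hp]; exact h.pos p
  have hpK : p ∉ K := h.notin (by rw [hp]; exact hr1)
  have hqK : q ∉ K := h.notin (by rw [hq]; exact hr1)
  rw [mm_out hpK] at hp
  rw [mm_out hqK] at hq
  have hrc : (r:ℂ) ≠ 0 := by exact_mod_cast hr0.ne'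
  have hnr : ‖(r:ℂ)‖ = r := by rw [Complex.norm_real, Real.norm_of_nonneg hr0.le]
  have ha : ‖ψ p⁻¹ / r‖ = 1 := by rw [norm_div, hp, hnr, div_self hr0.ne']
  have hb : ‖ψ q⁻¹ / r‖ = 1 := by rw [norm_div, hq, hnr, div_self hr0.ne']
  have := h.level ha hb ht0 ht1 (u := (r:ℂ)) hrc (by rw [hnr]; exact hr1)
  rw [HH, mul_div_cancel₀ _ hrc, mul_div_cancel₀ _ hrc, h.right _ (h.inv_mem hpK),
    h.right _ (h.inv_mem hqK), inv_inv, inv_inv, hnr] at this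
  exact this

theorem RM.ray (h : RM K χ ψ) {r : ℝ} (hr0 : 0 < r) {z e : ℂ} (hz : r ≤ mm K ψ z) (he : e ≠ 0) :
    ∃ s : ℝ, 0 ≤ s ∧ mm K ψ (z + s * e) = r := by
  have hcont : Continuous (fun s : ℝ => mm K ψ (z + s * e)) := by
    apply h.cont.comp
    fun_prop
  have htend : Tendsto (fun s : ℝ => mm K ψ (z + s * e)) atTop (𝓝 0) := by
    apply h.tend_inf.comp
    have h1 : Tendsto (fun s : ℝ => (s:ℂ) * e) atTop (Bornology.cobounded ℂ) := by
      rw [← comap_norm_atTop, tendsto_comap_iff]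
      have h2 : (norm ∘ fun s : ℝ => (s:ℂ) * e) = fun s : ℝ => |s| * ‖e‖ := by
        funext s
        simp
      rw [h2]
      exact (tendsto_abs_atTop_atTop).atTop_mul_const (norm_pos_iff.mpr he)
    exact (tendsto_const_add_cobounded z).comp h1
  have hev := (htend.eventually (gt_mem_nhds hr0)).and (eventually_ge_atTop (0:ℝ))
  obtain ⟨s1, hs1, hs10⟩ := hev.exists
  have h0 : r ≤ mm K ψ (z + (0:ℝ) * e) := by simpa using hz
  obtain ⟨s, hs, hs2⟩ := intermediate_value_Icc' hs10 hcont.continuousOn ⟨hs1.le, h0⟩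
  exact ⟨s, hs.1, hs2⟩

theorem RM.convex_level (h : RM K χ ψ) {r : ℝ} (hr0 : 0 < r) (hr1 : r < 1) {z z' : ℂ}
    (hz : r ≤ mm K ψ z) (hz' : r ≤ mm K ψ z') {t : ℝ} (ht0 : 0 ≤ t) (ht1 : t ≤ 1) :
    r ≤ mm K ψ ((1 - t) * z + t * z') := by
  by_cases he : z' - z = 0
  · have : z' = z := sub_eq_zero.mp he
    subst this
    have h1 : (1 - (t:ℂ)) * z' + t * z' = z' := by ring
    rw [h1]; exact hz
  · obtain ⟨s, hs0, hs⟩ := h.ray hr0 hz' he
    obtain ⟨s', hs'0, hs'⟩ := h.ray hr0 hz (neg_ne_zero.mpr he)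
    have hpos : 0 < s + s' + 1 := by linarith
    have key := h.level' hr1 hs' hs (t := (s' + t) / (s + s' + 1)) (by positivity)
      (by rw [div_le_one hpos]; linarith)
    have hne : ((s:ℂ) + s' + 1) ≠ 0 := by exact_mod_cast hpos.ne'
    convert key using 2
    push_cast
    field_simp
    ring

theorem RM.tangent (h : RM K χ ψ) {v : ℂ} (hv0 : v ≠ 0) (hv1 : ‖v‖ < 1) {z : ℂ}
    (hz : ‖v‖ ≤ mm K ψ z) :
    0 ≤ ((1 - z * χ v) * (χ v / (v * deriv χ v))).re := by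
  have hvb : v ∈ ball (0:ℂ) 1 := by rw [mem_ball_zero_iff]; exact hv1
  have hχ0 : χ v ≠ 0 := h.χ_ne hvb hv0
  have hr0 : 0 < ‖v‖ := norm_pos_iff.mpr hv0
  have hz1 : mm K ψ (χ v)⁻¹ = ‖v‖ := h.mm_χ hvb hv0
  have hz1K : (χ v)⁻¹ ∉ K := h.χ_inv hvb hv0
  have hdχ : deriv χ v ≠ 0 := right_ne_zero_of_mul_eq_one (h.chain hvb)
  -- the function g(s) = ψ(1/z_s)
  set Z : ℝ → ℂ := fun s => (1 - s) * (χ v)⁻¹ + s * z with hZ
  have hZ0 : Z 0 = (χ v)⁻¹ := by simp [hZ]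
  have hZd : HasDerivAt Z (z - (χ v)⁻¹) 0 := by
    have h1 : HasDerivAt (fun s : ℝ => (s:ℂ)) 1 0 := Complex.ofRealCLM.hasDerivAt
    have h2 := ((h1.const_sub (1:ℂ)).mul_const (χ v)⁻¹).add (h1.mul_const z)
    exact h2.congr_deriv (by ring)
  have hψd : HasDerivAt (fun z => ψ z⁻¹) (deriv ψ (χ v) * (-((χ v)⁻¹ ^ 2)⁻¹)) (χ v)⁻¹ := by
    have h1 : HasDerivAt (fun z : ℂ => z⁻¹) (-((χ v)⁻¹ ^ 2)⁻¹) (χ v)⁻¹ :=
      hasDerivAt_inv (inv_ne_zero hχ0)
    have h2 : HasDerivAt ψ (deriv ψ (χ v)) ((χ v)⁻¹)⁻¹ := by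
      rw [inv_inv]; exact h.hasDerivψ (h.mχ hvb)
    exact h2.comp _ h1
  have hgd : HasDerivAt (fun s : ℝ => ψ (Z s)⁻¹)
      ((deriv ψ (χ v) * (-((χ v)⁻¹ ^ 2)⁻¹)) * (z - (χ v)⁻¹)) 0 := by
    have h1 : HasDerivAt (fun z => ψ z⁻¹) (deriv ψ (χ v) * (-((χ v)⁻¹ ^ 2)⁻¹)) (Z 0) := by
      rw [hZ0]; exact hψd
    exact h1.comp (0:ℝ) hZd
  have hg0 : ψ (Z 0)⁻¹ = v := by rw [hZ0, inv_inv, h.left v hvb]
  set D : ℂ := (deriv ψ (χ v) * (-((χ v)⁻¹ ^ 2)⁻¹)) * (z - (χ v)⁻¹) with hD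
  -- real function Re (conj v * g(s))
  have hre : HasDerivAt (fun s : ℝ => ‖ψ (Z s)⁻¹‖ ^ 2) (2 * inner ℝ v D) 0 := by
    have := hgd.norm_sq
    rwa [hg0] at this
  have hev : ∀ᶠ s in 𝓝[>] (0:ℝ), ‖v‖ ^ 2 ≤ ‖ψ (Z s)⁻¹‖ ^ 2 := by
    have h1 : ∀ᶠ s in 𝓝 (0:ℝ), Z s ∉ K := by
      have h2 : ContinuousAt Z 0 := hZd.continuousAt
      have h3 : Kᶜ ∈ 𝓝 (Z 0) := by
        rw [hZ0]
        exact h.hK.isClosed.isOpen_compl.mem_nhds hz1K
      exact h2.preimage_mem_nhds h3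
    have h3 : ∀ᶠ s in 𝓝[>] (0:ℝ), s < 1 := nhdsWithin_le_nhds (gt_mem_nhds one_pos)
    filter_upwards [nhdsWithin_le_nhds h1, h3, self_mem_nhdsWithin] with s hs1 hs2 hs3
    have h4 := h.convex_level hr0 hv1 (z := (χ v)⁻¹) (z' := z) hz1.ge hz (le_of_lt hs3) hs2.le
    have h5 : mm K ψ (Z s) = ‖ψ (Z s)⁻¹‖ := mm_out hs1
    rw [← h5]
    have h6 : ‖v‖ ≤ mm K ψ (Z s) := h4
    nlinarith
  have hge : 0 ≤ 2 * inner ℝ v D := by
    have h1 := hre.hasDerivWithinAt (s := Ioi (0:ℝ))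
    rw [hasDerivWithinAt_iff_tendsto_slope' (by simp)] at h1
    refine ge_of_tendsto h1 ?_
    filter_upwards [hev, self_mem_nhdsWithin] with s hs hs2
    rw [slope_def_field]
    apply div_nonneg
    · simp only [hg0]; linarith
    · simp only [mem_Ioi] at hs2; linarith
  have hge' : 0 ≤ (D * (starRingEnd ℂ) v).re := by
    have h1 : (inner ℝ v D : ℝ) = (D * (starRingEnd ℂ) v).re := by
      rw [Complex.inner]
    rw [← h1]; linarith
  have hψχ : deriv ψ (χ v) = (deriv χ v)⁻¹ := eq_inv_of_mul_eq_one_left (h.chain hvb)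
  have hkey : D * (starRingEnd ℂ) v = (‖v‖ ^ 2 : ℝ) * ((1 - z * χ v) * (χ v / (v * deriv χ v))) := by
    have hconj : (starRingEnd ℂ) v = ((‖v‖ ^ 2 : ℝ) : ℂ) / v := by
      rw [eq_div_iff hv0, mul_comm, Complex.mul_conj, Complex.normSq_eq_norm_sq]
    rw [hconj, hD, hψχ]
    field_simp
    ring
  rw [hkey, Complex.re_ofReal_mul] at hge'
  exact nonneg_of_mul_nonneg_right hge' (by positivity)

end Level

/-- T2: exterior data of convex compact sets, with convex level curves, arbitrarily close to K. -/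
theorem exists_ext (K V : Set ℂ) (hK : IsCompact K) (hc : Convex ℝ K)
    (h0 : (0 : ℂ) ∈ interior K) (hV : IsOpen V) (hKV : K ⊆ V) :
    ∃ (χ : ℂ → ℂ) (R : ℝ), Ext χ R ∧ (∀ u ∈ ball (0 : ℂ) R, u ≠ 0 → (χ u)⁻¹ ∉ K) ∧
      (∀ u : ℂ, ‖u‖ = 1 → (χ u)⁻¹ ∈ V) ∧
      (∀ u : ℂ, ‖u‖ = 1 → ∀ z ∈ K, 0 ≤ ((1 - z * χ u) / Lf χ u).re) := by
  obtain ⟨χ, ψ, hχ, hψ, mχ, mψ, hl, hr, hz0⟩ := riemann_star (Level.DD K) (Level.DD_open hK)
    (Level.DD_bdd h0) (Or.inl rfl) (Level.DD_star hc (interior_subset h0))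
  have h : Level.RM K χ ψ := ⟨hK, hc, h0, hχ, hψ, mχ, mψ, hl, hr, hz0⟩
  obtain ⟨r0, hr00, hr01, hnear⟩ := h.near hV hKV
  obtain ⟨r, hr0r, hr1⟩ := exists_between hr01
  have hrpos : 0 < r := hr00.trans hr0r
  have hrc : (r:ℂ) ≠ 0 := by exact_mod_cast hrpos.ne'
  have hnr : ‖(r:ℂ)‖ = r := by rw [Complex.norm_real, Real.norm_of_nonneg hrpos.le]
  have hR : 1 < r⁻¹ := (one_lt_inv₀ hrpos).mpr hr1
  have hmem : ∀ u ∈ ball (0:ℂ) r⁻¹, (r:ℂ) * u ∈ ball (0:ℂ) 1 := by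
    intro u hu
    rw [mem_ball_zero_iff] at hu ⊢
    rw [norm_mul, hnr]
    calc r * ‖u‖ < r * r⁻¹ := by apply mul_lt_mul_of_pos_left hu hrpos
      _ = 1 := mul_inv_cancel₀ hrpos.ne'
  have hmem1 : ∀ u : ℂ, ‖u‖ = 1 → u ∈ ball (0:ℂ) r⁻¹ := by
    intro u hu; rw [mem_ball_zero_iff, hu]; exact hR
  have hd : ∀ u ∈ ball (0:ℂ) r⁻¹, HasDerivAt (fun u : ℂ => χ (r * u)) (deriv χ (r * u) * r) u := by
    intro u hu
    have h1 : HasDerivAt (fun u : ℂ => (r:ℂ) * u) (r * 1) u := (hasDerivAt_id u).const_mul (r:ℂ)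
    rw [mul_one] at h1
    exact (h.hasDerivχ (hmem u hu)).comp u h1
  have hLf : ∀ u : ℂ, ‖u‖ = 1 → Lf (fun u : ℂ => χ (r * u)) u = r * u * deriv χ (r * u) / χ (r * u) := by
    intro u hu
    have hu0 : u ≠ 0 := norm_pos_iff.mp (by rw [hu]; exact one_pos)
    rw [Lf, (hd u (hmem1 u hu)).deriv, dslope_of_ne _ hu0, slope_def_field, mul_zero, hz0, sub_zero,
      sub_zero]
    field_simp
  have htan : ∀ u : ℂ, ‖u‖ = 1 → ∀ z : ℂ, r ≤ Level.mm K ψ z →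
      0 ≤ ((1 - z * χ (r * u)) / Lf (fun u : ℂ => χ (r * u)) u).re := by
    intro u hu z hz
    have hu0 : u ≠ 0 := norm_pos_iff.mp (by rw [hu]; exact one_pos)
    have hnru : ‖(r:ℂ) * u‖ = r := by rw [norm_mul, hnr, hu, mul_one]
    have := h.tangent (v := r * u) (mul_ne_zero hrc hu0) (by rw [hnru]; exact hr1) (z := z)
      (by rw [hnru]; exact hz)
    rw [hLf u hu, div_eq_mul_inv, inv_div]
    exact this
  refine ⟨fun u => χ (r * u), r⁻¹, ⟨hR, fun u hu => (hd u hu).differentiableAt.differentiableWithinAt,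
    ?_, ?_, ?_, ?_⟩, ?_, ?_, ?_⟩
  · intro u hu u' hu' huu
    have h1 := congrArg ψ huu
    simp only at h1
    rw [hl _ (hmem u hu), hl _ (hmem u' hu')] at h1
    exact mul_left_cancel₀ hrc h1
  · simp [hz0]
  · intro u hu
    rw [(hd u hu).deriv]
    exact mul_ne_zero (right_ne_zero_of_mul_eq_one (h.chain (hmem u hu))) hrc
  · intro u u' hu hu'
    have hu'0 : u' ≠ 0 := norm_pos_iff.mp (by rw [hu']; exact one_pos)
    have := htan u hu (χ (r * u'))⁻¹ (by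
      rw [h.mm_χ (hmem u' (hmem1 u' hu')) (mul_ne_zero hrc hu'0), norm_mul, hnr, hu', mul_one])
    rwa [inv_mul_eq_div] at this
  · intro u hu hu0
    exact h.χ_inv (hmem u hu) (mul_ne_zero hrc hu0)
  · intro u hu
    have hu0 : u ≠ 0 := norm_pos_iff.mp (by rw [hu]; exact one_pos)
    apply hnear
    rw [h.mm_χ (hmem u (hmem1 u hu)) (mul_ne_zero hrc hu0), norm_mul, hnr, hu, mul_one]
    exact hr0r
  · intro u hu z hz
    apply htan u hu z
    rw [Level.mm_in hz]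
    exact hr1.le

end Crest.Agent.H23
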