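import Crest.Agent.H23.Defs

/-! Row 132, task T3: the `L²` bound for Faber polynomials on the boundary curve. -/

set_option autoImplicit false

open Metric Set Real MeasureTheory
open scoped ComplexConjugate

namespace Crest.Agent.H23

namespace FL2

section general

variable {E : Type*} [NormedAddCommGroup E] [NormedSpace ℝ E]

omit [NormedSpace ℝ E] in
lemma ci {f : ℂ → E} (hf : ContinuousOn f (sphere 0 1)) : CircleIntegrable f 0 1 :=
  ContinuousOn.circleIntegrable (by norm_num) hf

lemma cavg_congr {f g : ℂ → E} (h : ∀ u : ℂ, ‖u‖ = 1 → f u = g u) :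
    circleAverage f 0 1 = circleAverage g 0 1 := by
  apply circleAverage_congr_sphere
  intro u hu
  apply h
  simpa using hu

lemma mv {f : ℂ → ℂ} {ρ : ℝ} (hρ : 1 < ρ) (hf : DifferentiableOn ℂ f (ball 0 ρ)) :
    circleAverage f 0 1 = f 0 := by
  apply DiffContOnCl.circleAverage
  apply DifferentiableOn.diffContOnCl
  apply hf.mono
  intro x hx
  have := closure_ball_subset_closedBall hx
  simp at this ⊢
  linarith

lemma mv_mul {f : ℂ → ℂ} {ρ : ℝ} (hρ : 1 < ρ) (hf : DifferentiableOn ℂ f (ball 0 ρ)) :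
    circleAverage (fun u => u * f u) 0 1 = 0 := by
  rw [mv hρ (f := fun u => u * f u)]
  · simp
  · exact DifferentiableOn.mul differentiableOn_id hf

lemma conj_avg {f : ℂ → ℂ} (hf : ContinuousOn f (sphere 0 1)) :
    circleAverage (fun u => conj (f u)) 0 1 = conj (circleAverage f 0 1) := by
  have := (Complex.conjCLE : ℂ →L[ℝ] ℂ).circleAverage_comp_comm (ci hf)
  simpa [Function.comp_def] using this

lemma re_avg {f : ℂ → ℂ} (hf : ContinuousOn f (sphere 0 1)) :
    circleAverage (fun u => (f u).re) 0 1 = (circleAverage f 0 1).re := by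
  have := (Complex.reCLM).circleAverage_comp_comm (ci hf)
  simpa [Function.comp_def] using this

lemma ofReal_avg {f : ℂ → ℝ} (hf : ContinuousOn f (sphere 0 1)) :
    circleAverage (fun u => ((f u : ℝ) : ℂ)) 0 1 = ((circleAverage f 0 1 : ℝ) : ℂ) := by
  have := (Complex.ofRealCLM).circleAverage_comp_comm (ci hf)
  simpa [Function.comp_def] using this

lemma inv_eq_conj {u : ℂ} (hu : ‖u‖ = 1) : u⁻¹ = conj u := by
  rw [Complex.inv_def, Complex.normSq_eq_norm_sq, hu]
  simp

lemma avg_pow (n : ℕ) : circleAverage (fun u : ℂ => u ^ n) 0 1 = if n = 0 then 1 else 0 := by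
  rw [mv (ρ := 2) (by norm_num) (f := fun u => u ^ n) (by fun_prop)]
  simp [zero_pow_eq]

lemma avg_inv_pow (n : ℕ) : circleAverage (fun u : ℂ => (u⁻¹) ^ n) 0 1 = if n = 0 then 1 else 0 := by
  rw [show (fun u : ℂ => (u⁻¹) ^ n) = (fun u : ℂ => (fun w : ℂ => w ^ n) u⁻¹) from rfl]
  rw [circleAverage_zero_one_congr_inv (f := fun w : ℂ => w ^ n)]
  exact avg_pow n

lemma circ_mem (θ : ℝ) : circleMap 0 1 θ ∈ sphere (0 : ℂ) 1 := circleMap_mem_sphere _ (by norm_num) _

lemma swap {F : ℂ → ℂ → E} (hF : ContinuousOn (Function.uncurry F) (sphere 0 1 ×ˢ sphere 0 1)) :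
    circleAverage (fun u => circleAverage (fun v => F u v) 0 1) 0 1 =
      circleAverage (fun v => circleAverage (fun u => F u v) 0 1) 0 1 := by
  unfold circleAverage
  simp only [intervalIntegral.integral_smul]
  congr 2
  have h0 : (0 : ℝ) ≤ 2 * π := by positivity
  simp only [intervalIntegral.integral_of_le h0]
  apply MeasureTheory.integral_integral_swap
  have hc : Continuous (Function.uncurry fun x y : ℝ => F (circleMap 0 1 x) (circleMap 0 1 y)) := by
    have : (Function.uncurry fun x y : ℝ => F (circleMap 0 1 x) (circleMap 0 1 y)) =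
        (Function.uncurry F) ∘ (fun p : ℝ × ℝ => (circleMap 0 1 p.1, circleMap 0 1 p.2)) := by
      ext p
      rfl
    rw [this]
    apply hF.comp_continuous
    · fun_prop
    · intro p
      exact ⟨circ_mem _, circ_mem _⟩
  rw [Measure.prod_restrict]
  apply IntegrableOn.mono_set (t := Icc 0 (2 * π) ×ˢ Icc 0 (2 * π))
  · exact (hc.continuousOn).integrableOn_compact (isCompact_Icc.prod isCompact_Icc)
  · exact Set.prod_mono Ioc_subset_Icc_self Ioc_subset_Icc_self

end general

section basics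

variable {χ : ℂ → ℂ} {R : ℝ}

lemma mem_ball_of_norm_le (h : Ext χ R) {u : ℂ} (hu : ‖u‖ ≤ 1) : u ∈ ball (0 : ℂ) R := by
  have := h.hR
  simp
  linarith

lemma zero_mem (h : Ext χ R) : (0 : ℂ) ∈ ball (0 : ℂ) R :=
  mem_ball_of_norm_le h (by simp)

lemma slope_ne (h : Ext χ R) {a b : ℂ} (ha : a ∈ ball (0 : ℂ) R) (hb : b ∈ ball (0 : ℂ) R) :
    dslope χ a b ≠ 0 := by
  by_cases hab : b = a
  · subst hab
    rw [dslope_same]
    exact h.deriv_ne b hb
  · rw [dslope_of_ne _ hab, slope_def_field]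
    apply div_ne_zero
    · rw [sub_ne_zero]
      intro h'
      exact hab (h.inj hb ha h')
    · exact sub_ne_zero.mpr hab

lemma slope_diff (h : Ext χ R) {a : ℂ} (ha : a ∈ ball (0 : ℂ) R) :
    DifferentiableOn ℂ (dslope χ a) (ball 0 R) :=
  (Complex.differentiableOn_dslope (isOpen_ball.mem_nhds ha)).mpr h.diff

lemma deriv_diff (h : Ext χ R) : DifferentiableOn ℂ (deriv χ) (ball 0 R) :=
  h.diff.deriv isOpen_ball

lemma Lf_diff (h : Ext χ R) : DifferentiableOn ℂ (Lf χ) (ball 0 R) := by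
  unfold Lf
  apply DifferentiableOn.div (deriv_diff h) (slope_diff h (zero_mem h))
  intro u hu
  exact slope_ne h (zero_mem h) hu

lemma Lf_ne (h : Ext χ R) {u : ℂ} (hu : u ∈ ball (0 : ℂ) R) : Lf χ u ≠ 0 := by
  unfold Lf
  exact div_ne_zero (h.deriv_ne u hu) (slope_ne h (zero_mem h) hu)

lemma Lf_zero (h : Ext χ R) : Lf χ 0 = 1 := by
  unfold Lf
  rw [dslope_same]
  exact div_self (h.deriv_ne 0 (zero_mem h))

/-- `χ u = u * dslope χ 0 u`. -/
lemma chi_eq (h : Ext χ R) (u : ℂ) : χ u = u * dslope χ 0 u := by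
  have := sub_smul_dslope χ 0 u
  simp [h.zero] at this
  exact this.symm

/-- scaling of coefficients -/
lemma scale {ρ : ℝ} (hρ : 1 < ρ) (r : ℝ) (h0 : 0 < r) (h1 : r < 1) (n : ℕ) :
    ∀ f : ℂ → ℂ, DifferentiableOn ℂ f (ball 0 ρ) →
    circleAverage (fun u : ℂ => f (r * u) * (u⁻¹) ^ n) 0 1 =
      r ^ n * circleAverage (fun u : ℂ => f u * (u⁻¹) ^ n) 0 1 := by
  induction n with
  | zero =>
    intro f hf
    simp only [pow_zero, mul_one, one_mul]
    rw [mv hρ hf]
    rw [mv (ρ := ρ) hρ (f := fun u => f (r * u))]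
    · simp
    · apply hf.comp (by fun_prop)
      intro u hu
      simp only [mem_ball, dist_zero_right, norm_mul, Complex.norm_real, norm_eq_abs] at hu ⊢
      rw [abs_of_pos h0]
      nlinarith [norm_nonneg u]
  | succ n ih =>
    intro f hf
    have hz : (0 : ℂ) ∈ ball (0 : ℂ) ρ := by simp; linarith
    have hd : DifferentiableOn ℂ (dslope f 0) (ball 0 ρ) :=
      (Complex.differentiableOn_dslope (isOpen_ball.mem_nhds hz)).mpr hf
    have hS : sphere (0 : ℂ) 1 ⊆ ball 0 ρ := by
      intro u hu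
      simp at hu ⊢
      linarith
    have hSr : ∀ u ∈ sphere (0 : ℂ) 1, (r : ℂ) * u ∈ ball (0 : ℂ) ρ := by
      intro u hu
      simp only [mem_sphere, dist_zero_right, mem_ball, norm_mul, Complex.norm_real, norm_eq_abs] at hu ⊢
      rw [abs_of_pos h0, hu]
      linarith
    have hinv : ContinuousOn (fun u : ℂ => u⁻¹) (sphere 0 1) := by
      apply continuousOn_inv₀.mono
      intro u hu h0
      simp at h0
      subst h0
      simp at hu
    have hf' : ∀ u, f u = f 0 + u * dslope f 0 u := by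
      intro u
      have := sub_smul_dslope f 0 u
      simp at this
      rw [this]
      ring
    have e1 : circleAverage (fun u : ℂ => f u * (u⁻¹) ^ (n + 1)) 0 1 =
        circleAverage (fun u : ℂ => f 0 * (u⁻¹) ^ (n + 1) + dslope f 0 u * (u⁻¹) ^ n) 0 1 := by
      apply cavg_congr
      intro u hu
      have hu0 : u ≠ 0 := by
        rintro rfl
        simp at hu
      rw [hf' u, pow_succ]
      field_simp
    have e2 : circleAverage (fun u : ℂ => f (r * u) * (u⁻¹) ^ (n + 1)) 0 1 =
        circleAverage (fun u : ℂ => f 0 * (u⁻¹) ^ (n + 1) + r * (dslope f 0 (r * u) * (u⁻¹) ^ n)) 0 1 := by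
      apply cavg_congr
      intro u hu
      have hu0 : u ≠ 0 := by
        rintro rfl
        simp at hu
      rw [hf' (r * u), pow_succ]
      field_simp
    rw [e1, e2, circleAverage_fun_add, circleAverage_fun_add]
    · have a1 : circleAverage (fun u : ℂ => f 0 * (u⁻¹) ^ (n + 1)) 0 1 = 0 := by
        have := circleAverage_fun_smul (a := f 0) (f := fun u : ℂ => (u⁻¹) ^ (n + 1)) (c := 0) (R := 1)
        simp only [smul_eq_mul] at this
        rw [this, avg_inv_pow]
        simp
      have a2 : circleAverage (fun u : ℂ => (r : ℂ) * (dslope f 0 (r * u) * (u⁻¹) ^ n)) 0 1 =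
          r * circleAverage (fun u : ℂ => (dslope f 0 (r * u) * (u⁻¹) ^ n)) 0 1 := by
        have := circleAverage_fun_smul (a := (r : ℂ)) (f := fun u : ℂ => (dslope f 0 (r * u) * (u⁻¹) ^ n)) (c := 0) (R := 1)
        simpa only [smul_eq_mul] using this
      rw [a1, a2, ih _ hd]
      ring
    · apply ci
      fun_prop
    · apply ci
      apply ContinuousOn.mul (hd.continuousOn.mono hS) (hinv.pow n)
    · apply ci
      fun_prop
    · apply ci
      apply ContinuousOn.mul continuousOn_const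
      apply ContinuousOn.mul _ (hinv.pow n)
      apply hd.continuousOn.comp (by fun_prop)
      exact hSr

lemma inv_cont : ContinuousOn (fun u : ℂ => u⁻¹) (sphere 0 1) := by
  apply continuousOn_inv₀.mono
  intro u hu h0
  simp at h0
  subst h0
  simp at hu

lemma ru_mem {ρ : ℝ} (hρ : 1 < ρ) {r : ℝ} (h0 : 0 < r) (_h1 : r < 1) {u : ℂ} (hu : ‖u‖ < r⁻¹) :
    (r : ℂ) * u ∈ ball (0 : ℂ) 1 ∧ (r : ℂ) * u ∈ ball (0 : ℂ) ρ := by
  have : ‖(r : ℂ) * u‖ < 1 := by
    rw [norm_mul, Complex.norm_real, norm_eq_abs, abs_of_pos h0]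
    calc r * ‖u‖ < r * r⁻¹ := by gcongr
      _ = 1 := mul_inv_cancel₀ h0.ne'
  simp only [mem_ball, dist_zero_right]
  constructor <;> linarith

lemma cavg_smul (a : ℂ) (f : ℂ → ℂ) :
    circleAverage (fun u : ℂ => a * f u) 0 1 = a * circleAverage f 0 1 := by
  have := circleAverage_fun_smul (a := a) (f := f) (c := 0) (R := 1)
  simpa only [smul_eq_mul] using this

/-- geometric expansion of coefficients -/
lemma geom {ρ : ℝ} (hρ : 1 < ρ) {L s : ℂ → ℂ} (hL : DifferentiableOn ℂ L (ball 0 ρ))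
    (hs : DifferentiableOn ℂ s (ball 0 ρ)) (hs0 : s 0 = 0) (z : ℂ)
    (hz : ∀ w ∈ ball (0 : ℂ) 1, 1 - z * s w ≠ 0) (r : ℝ) (h0 : 0 < r) (h1 : r < 1) (n : ℕ) :
    circleAverage (fun u : ℂ => L (r * u) / (1 - z * s (r * u)) * (u⁻¹) ^ n) 0 1 =
      ∑ k ∈ Finset.range (n + 1), z ^ k *
        circleAverage (fun u : ℂ => (L (r * u) * s (r * u) ^ k) * (u⁻¹) ^ n) 0 1 := by
  have hz0 : (0 : ℂ) ∈ ball (0 : ℂ) ρ := by simp; linarith
  have hd : DifferentiableOn ℂ (dslope s 0) (ball 0 ρ) :=
    (Complex.differentiableOn_dslope (isOpen_ball.mem_nhds hz0)).mpr hs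
  have hs' : ∀ u, s u = u * dslope s 0 u := by
    intro u
    have := sub_smul_dslope s 0 u
    simp [hs0] at this
    exact this.symm
  have hrinv : 1 < r⁻¹ := by
    rw [one_lt_inv₀ h0]
    exact h1
  have hmap : MapsTo (fun u : ℂ => (r : ℂ) * u) (ball 0 r⁻¹) (ball 0 ρ) := by
    intro u hu
    apply (ru_mem hρ h0 h1 _).2
    simpa using hu
  have hLr : DifferentiableOn ℂ (fun u : ℂ => L (r * u)) (ball 0 r⁻¹) :=
    hL.comp (by fun_prop) hmap
  have hsr : DifferentiableOn ℂ (fun u : ℂ => s (r * u)) (ball 0 r⁻¹) :=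
    hs.comp (by fun_prop) hmap
  have hdr : DifferentiableOn ℂ (fun u : ℂ => dslope s 0 (r * u)) (ball 0 r⁻¹) :=
    hd.comp (by fun_prop) hmap
  have hne : ∀ u ∈ ball (0 : ℂ) r⁻¹, 1 - z * s (r * u) ≠ 0 := by
    intro u hu
    apply hz
    apply (ru_mem hρ h0 h1 _).1
    simpa using hu
  have hS : sphere (0 : ℂ) 1 ⊆ ball 0 r⁻¹ := by
    intro u hu
    simp only [mem_sphere, dist_zero_right, mem_ball] at hu ⊢
    linarith
  set B : ℂ → ℂ := fun u => ((r * dslope s 0 (r * u)) ^ (n + 1) * z ^ (n + 1) *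
    (L (r * u) / (1 - z * s (r * u)))) with hB
  have hBd : DifferentiableOn ℂ B (ball 0 r⁻¹) := by
    rw [hB]
    apply DifferentiableOn.mul
    · apply DifferentiableOn.mul
      · exact ((differentiableOn_const _).mul hdr).pow _
      · exact differentiableOn_const _
    · apply hLr.div _ hne
      exact (differentiableOn_const _).sub ((differentiableOn_const _).mul hsr)
  have e1 : circleAverage (fun u : ℂ => L (r * u) / (1 - z * s (r * u)) * (u⁻¹) ^ n) 0 1 =
      circleAverage (fun u : ℂ => (∑ k ∈ Finset.range (n + 1), z ^ k *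
        ((L (r * u) * s (r * u) ^ k) * (u⁻¹) ^ n)) + u * B u) 0 1 := by
    apply cavg_congr
    intro u hu
    have hu0 : u ≠ 0 := by
      rintro rfl
      simp at hu
    have hne' := hne u (hS (by simpa using hu))
    have hgeom : (∑ k ∈ Finset.range (n + 1), (z * s (r * u)) ^ k) * (1 - z * s (r * u)) =
        1 - (z * s (r * u)) ^ (n + 1) := by
      rw [← geom_sum_mul_neg]
    have hsum : (∑ k ∈ Finset.range (n + 1), z ^ k *
        ((L (r * u) * s (r * u) ^ k) * (u⁻¹) ^ n)) =
        L (r * u) * (u⁻¹) ^ n * (∑ k ∈ Finset.range (n + 1), (z * s (r * u)) ^ k) := by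
      rw [Finset.mul_sum]
      apply Finset.sum_congr rfl
      intro k _
      rw [mul_pow]
      ring
    have hgeom' : (∑ k ∈ Finset.range (n + 1), (z * s (r * u)) ^ k) =
        (1 - (z * s (r * u)) ^ (n + 1)) / (1 - z * s (r * u)) := by
      rw [eq_div_iff hne']
      exact hgeom
    rw [hsum, hgeom', hB]
    have hsu : (z * s (r * u)) ^ (n + 1) = u ^ (n + 1) * ((r * dslope s 0 (r * u)) ^ (n + 1) * z ^ (n + 1)) := by
      rw [hs' (r * u)]
      ring
    rw [hsu]
    have hp : (u⁻¹) ^ n * u ^ (n + 1) = u := by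
      rw [pow_succ, ← mul_assoc, ← mul_pow, inv_mul_cancel₀ hu0]
      simp
    calc _ = L (r * u) * (u⁻¹) ^ n * (1 / (1 - z * s (r * u))) := by ring
      _ = L (r * u) * (u⁻¹) ^ n * ((1 - u ^ (n + 1) * ((r * dslope s 0 (r * u)) ^ (n + 1) * z ^ (n + 1))) / (1 - z * s (r * u)))
          + ((u⁻¹) ^ n * u ^ (n + 1)) * ((r * dslope s 0 (r * u)) ^ (n + 1) * z ^ (n + 1) * (L (r * u) / (1 - z * s (r * u)))) := by ring
      _ = _ := by rw [hp]
  rw [e1, circleAverage_fun_add, mv_mul hrinv hBd, add_zero, circleAverage_fun_sum]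
  · apply Finset.sum_congr rfl
    intro k _
    rw [cavg_smul]
  · intro k _
    apply ci
    apply ContinuousOn.mul continuousOn_const
    apply ContinuousOn.mul _ (inv_cont.pow n)
    exact ((hLr.continuousOn.mono hS).mul ((hsr.continuousOn.mono hS).pow k))
  · apply ci
    apply continuousOn_finsetSum
    intro k _
    apply ContinuousOn.mul continuousOn_const
    apply ContinuousOn.mul _ (inv_cont.pow n)
    exact ((hLr.continuousOn.mono hS).mul ((hsr.continuousOn.mono hS).pow k))
  · apply ci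
    exact continuousOn_id.mul (hBd.continuousOn.mono hS)

/-- the kernel -/
noncomputable def Ek (χ : ℂ → ℂ) (w v : ℂ) : ℂ := Lf χ w / (1 - (χ v)⁻¹ * χ w) - 1 / (1 - v⁻¹ * w)

/-- the analytic part of the Faber polynomial on the curve -/
noncomputable def eps (χ : ℂ → ℂ) (n : ℕ) (v : ℂ) : ℂ := (Phi χ n).eval (χ v)⁻¹ - (v⁻¹) ^ n

lemma chi_ne (h : Ext χ R) {v : ℂ} (hv : ‖v‖ = 1) : χ v ≠ 0 := by
  intro h0
  have hv0 : v = 0 := h.inj (mem_ball_of_norm_le h hv.le) (zero_mem h) (by rw [h0, h.zero])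
  rw [hv0] at hv
  simp at hv

lemma one_sub_ne (h : Ext χ R) {v w : ℂ} (hv : ‖v‖ = 1) (hw : w ∈ ball (0 : ℂ) R) (hne : w ≠ v) :
    1 - (χ v)⁻¹ * χ w ≠ 0 := by
  intro h0
  have : χ w = χ v := by
    have h1 := chi_ne h hv
    field_simp at h0
    linear_combination -h0
  exact hne (h.inj hw (mem_ball_of_norm_le h hv.le) this)

lemma one_sub_ne' {v w : ℂ} (hv : ‖v‖ = 1) (hne : w ≠ v) : 1 - v⁻¹ * w ≠ 0 := by
  intro h0
  have hv0 : v ≠ 0 := by rintro rfl; simp at hv
  apply hne
  field_simp at h0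
  linear_combination -h0

lemma ne_of_lt {v w : ℂ} (hv : ‖v‖ = 1) (hw : ‖w‖ < 1) : w ≠ v := by
  rintro rfl
  linarith

/-- Lemma A -/
lemma lemA (h : Ext χ R) {v : ℂ} (hv : ‖v‖ = 1) (r : ℝ) (h0 : 0 < r) (h1 : r < 1) (n : ℕ) :
    circleAverage (fun u : ℂ => Ek χ (r * u) v * (u⁻¹) ^ n) 0 1 = r ^ n * eps χ n v := by
  have hsph : ∀ u : ℂ, ‖u‖ = 1 → ‖(r : ℂ) * u‖ < 1 := by
    intro u hu
    rw [norm_mul, Complex.norm_real, norm_eq_abs, abs_of_pos h0, hu]
    linarith
  have hcr : ContinuousOn (fun u : ℂ => (r : ℂ) * u) (sphere 0 1) := by fun_prop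
  have hmap : MapsTo (fun u : ℂ => (r : ℂ) * u) (sphere 0 1) (ball 0 R) := by
    intro u hu
    exact mem_ball_of_norm_le h (hsph u (by simpa using hu)).le
  have hLc : ContinuousOn (fun u : ℂ => Lf χ (r * u)) (sphere 0 1) :=
    (Lf_diff h).continuousOn.comp hcr hmap
  have hχc : ContinuousOn (fun u : ℂ => χ (r * u)) (sphere 0 1) :=
    h.diff.continuousOn.comp hcr hmap
  have e0 : circleAverage (fun u : ℂ => Ek χ (r * u) v * (u⁻¹) ^ n) 0 1 =
      circleAverage (fun u : ℂ => Lf χ (r * u) / (1 - (χ v)⁻¹ * χ (r * u)) * (u⁻¹) ^ n -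
        1 / (1 - v⁻¹ * (r * u)) * (u⁻¹) ^ n) 0 1 := by
    apply cavg_congr
    intro u _
    rw [Ek]
    ring
  rw [e0, circleAverage_fun_sub]
  · have g1 := geom h.hR (Lf_diff h) h.diff h.zero (χ v)⁻¹ (fun w hw => one_sub_ne h hv
      (mem_ball_of_norm_le h (by simp at hw; linarith)) (ne_of_lt hv (by simpa using hw))) r h0 h1 n
    have g2 := geom (L := fun _ => 1) (s := fun w => w) (ρ := 2) (by norm_num)
      (differentiableOn_const _) differentiableOn_id rfl v⁻¹ (fun w hw => one_sub_ne' hv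
       (ne_of_lt hv (by simpa using hw))) r h0 h1 n
    rw [g1, g2]
    have t1 : ∀ k, circleAverage (fun u : ℂ => (Lf χ (r * u) * χ (r * u) ^ k) * (u⁻¹) ^ n) 0 1 =
        r ^ n * fcoef χ n k := by
      intro k
      exact scale h.hR r h0 h1 n (fun u => Lf χ u * χ u ^ k) ((Lf_diff h).mul (h.diff.pow k))
    have t2 : ∀ k, circleAverage (fun u : ℂ => (1 * ((r : ℂ) * u) ^ k) * (u⁻¹) ^ n) 0 1 =
        if k = n then (r : ℂ) ^ n else 0 := by
      intro k
      have := scale (ρ := 2) (by norm_num) r h0 h1 n (fun u => u ^ k) (by fun_prop)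
      simp only [one_mul]
      rw [this]
      split_ifs with hk
      · subst hk
        have : circleAverage (fun u : ℂ => u ^ k * u⁻¹ ^ k) 0 1 = circleAverage (fun u : ℂ => (1 : ℂ)) 0 1 := by
          apply cavg_congr
          intro u hu
          have hu0 : u ≠ 0 := by rintro rfl; simp at hu
          rw [← mul_pow, mul_inv_cancel₀ hu0, one_pow]
        rw [this, circleAverage_const, mul_one]
      · rcases lt_or_gt_of_ne hk with hlt | hgt
        · have : circleAverage (fun u : ℂ => u ^ k * u⁻¹ ^ n) 0 1 = circleAverage (fun u : ℂ => (u⁻¹) ^ (n - k)) 0 1 := by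
            apply cavg_congr
            intro u hu
            have hu0 : u ≠ 0 := by rintro rfl; simp at hu
            conv_lhs => rw [show n = k + (n - k) by omega]
            rw [pow_add, ← mul_assoc, ← mul_pow, mul_inv_cancel₀ hu0, one_pow, one_mul]
          rw [this, avg_inv_pow]
          have : n - k ≠ 0 := by omega
          simp [this]
        · have : circleAverage (fun u : ℂ => u ^ k * u⁻¹ ^ n) 0 1 = circleAverage (fun u : ℂ => u ^ (k - n)) 0 1 := by
            apply cavg_congr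
            intro u hu
            have hu0 : u ≠ 0 := by rintro rfl; simp at hu
            conv_lhs => rw [show k = (k - n) + n by omega]
            rw [pow_add, mul_assoc, ← mul_pow, mul_inv_cancel₀ hu0, one_pow, mul_one]
          rw [this, avg_pow]
          have : k - n ≠ 0 := by omega
          simp [this]
    simp only [t1, t2]
    rw [eps, Phi, Polynomial.eval_finsetSum]
    simp only [Polynomial.eval_mul, Polynomial.eval_C, Polynomial.eval_pow, Polynomial.eval_X]
    have t3 : ∑ x ∈ Finset.range (n + 1), v⁻¹ ^ x * (if x = n then (r : ℂ) ^ n else 0) = v⁻¹ ^ n * r ^ n := by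
      simp
    rw [t3, mul_sub, Finset.mul_sum]
    congr 1
    · apply Finset.sum_congr rfl
      intro k _
      ring
    · ring
  · apply ci
    apply ContinuousOn.mul _ (inv_cont.pow n)
    apply hLc.div
    · exact continuousOn_const.sub (continuousOn_const.mul hχc)
    · intro u hu
      exact one_sub_ne h hv (hmap hu) (ne_of_lt hv (hsph u (by simpa using hu)))
  · apply ci
    apply ContinuousOn.mul _ (inv_cont.pow n)
    apply continuousOn_const.div
    · fun_prop
    · intro u hu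
      exact one_sub_ne' hv (ne_of_lt hv (hsph u (by simpa using hu)))

/-- key identity: `L(w) χ(w) = w χ'(w)`. -/
lemma Lf_mul_chi (h : Ext χ R) {w : ℂ} (hw : w ∈ ball (0 : ℂ) R) : Lf χ w * χ w = w * deriv χ w := by
  have := slope_ne h (zero_mem h) hw
  rw [chi_eq h w, Lf]
  field_simp

lemma lemB (h : Ext χ R) {w : ℂ} (hw0 : w ≠ 0) (hw : ‖w‖ < 1) (m : ℕ) :
    circleAverage (fun v : ℂ => v ^ m * Ek χ w v) 0 1 = 0 := by
  have hwR : w ∈ ball (0 : ℂ) R := mem_ball_of_norm_le h hw.le
  set g : ℂ → ℂ := fun v => Lf χ w * χ v / dslope χ w v - v with hg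
  have hgd : DifferentiableOn ℂ g (ball 0 R) := by
    rw [hg]
    apply DifferentiableOn.sub _ differentiableOn_id
    apply DifferentiableOn.div
    · exact (differentiableOn_const _).mul h.diff
    · exact slope_diff h hwR
    · intro v hv
      exact slope_ne h hwR hv
  have hgw : g w = 0 := by
    simp only [hg]
    rw [dslope_same, Lf_mul_chi h hwR]
    have := h.deriv_ne w hwR
    field_simp
    ring
  have hg0 : g 0 = 0 := by
    simp only [hg]
    rw [h.zero]
    simp
  have hgs : DifferentiableOn ℂ (dslope g w) (ball 0 R) :=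
    (Complex.differentiableOn_dslope (isOpen_ball.mem_nhds hwR)).mpr hgd
  have e : circleAverage (fun v : ℂ => v ^ m * Ek χ w v) 0 1 =
      circleAverage (fun v : ℂ => v ^ m * dslope g w v) 0 1 := by
    apply cavg_congr
    intro v hv
    have hne : w ≠ v := ne_of_lt hv hw
    have hv0 : v ≠ 0 := by rintro rfl; simp at hv
    have hvR : v ∈ ball (0 : ℂ) R := mem_ball_of_norm_le h hv.le
    congr 1
    rw [dslope_of_ne _ hne.symm, slope_def_field, hgw, sub_zero, Ek]
    simp only [hg]
    have h1 : dslope χ w v = (χ v - χ w) / (v - w) := by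
      rw [dslope_of_ne _ hne.symm, slope_def_field]
    have h2 : χ v - χ w ≠ 0 := by
      rw [sub_ne_zero]
      intro h'
      exact hne (h.inj hwR hvR h'.symm)
    have h3 : v - w ≠ 0 := sub_ne_zero.mpr hne.symm
    have h4 := chi_ne h hv
    have h5 : (1 - (χ v)⁻¹ * χ w) = (χ v - χ w) / χ v := by
      field_simp
    have h6 : 1 - v⁻¹ * w = (v - w) / v := by field_simp
    rw [h1, h5, h6]
    field_simp
  rw [e, mv h.hR (f := fun v : ℂ => v ^ m * dslope g w v)]
  · rw [dslope_of_ne _ hw0.symm, slope_def_field, hgw, hg0]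
    simp
  · exact (differentiableOn_id.pow m).mul hgs

lemma Ek_cont_u (h : Ext χ R) {v : ℂ} (hv : ‖v‖ = 1) {r : ℝ} (h0 : 0 < r) (h1 : r < 1) :
    DifferentiableOn ℂ (fun u : ℂ => Ek χ (r * u) v) (ball 0 r⁻¹) := by
  have hmap : MapsTo (fun u : ℂ => (r : ℂ) * u) (ball 0 r⁻¹) (ball 0 R) := by
    intro u hu
    apply (ru_mem h.hR h0 h1 _).2
    simpa using hu
  have hlt : ∀ u ∈ ball (0 : ℂ) r⁻¹, ‖(r : ℂ) * u‖ < 1 := by
    intro u hu
    have := (ru_mem h.hR h0 h1 (u := u) (by simpa using hu)).1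
    simpa using this
  unfold Ek
  apply DifferentiableOn.sub
  · apply DifferentiableOn.div
    · exact (Lf_diff h).comp (by fun_prop) hmap
    · exact (differentiableOn_const _).sub ((differentiableOn_const _).mul (h.diff.comp (by fun_prop) hmap))
    · intro u hu
      exact one_sub_ne h hv (hmap hu) (ne_of_lt hv (hlt u hu))
  · apply DifferentiableOn.div
    · exact differentiableOn_const _
    · fun_prop
    · intro u hu
      exact one_sub_ne' hv (ne_of_lt hv (hlt u hu))

lemma one_lt_rinv {r : ℝ} (h0 : 0 < r) (h1 : r < 1) : 1 < r⁻¹ := by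
  rw [one_lt_inv₀ h0]
  exact h1

lemma sph_sub {ρ : ℝ} (hρ : 1 < ρ) : sphere (0 : ℂ) 1 ⊆ ball 0 ρ := by
  intro u hu
  simp only [mem_sphere, dist_zero_right, mem_ball] at hu ⊢
  linarith

lemma lemC (h : Ext χ R) {v : ℂ} (hv : ‖v‖ = 1) {r : ℝ} (h0 : 0 < r) (h1 : r < 1) (m : ℕ) :
    circleAverage (fun u : ℂ => u ^ m * Ek χ (r * u) v) 0 1 = 0 := by
  rw [mv (one_lt_rinv h0 h1) (f := fun u : ℂ => u ^ m * Ek χ (r * u) v)]
  · rw [Ek]
    simp [h.zero, Lf_zero h]
  · exact (differentiableOn_id.pow m).mul (Ek_cont_u h hv h0 h1)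

lemma lemD (h : Ext χ R) {v w : ℂ} (hv : ‖v‖ = 1) (hw : ‖w‖ < 1) : -(1 / 2) ≤ (Ek χ w v).re := by
  have hvR : v ∈ ball (0 : ℂ) R := mem_ball_of_norm_le h hv.le
  have hv0 : v ≠ 0 := by rintro rfl; simp at hv
  set g : ℂ → ℂ := fun w => Lf χ w * χ v / dslope χ v w - v with hg
  have hgd : DifferentiableOn ℂ g (ball 0 R) := by
    rw [hg]
    apply DifferentiableOn.sub _ (differentiableOn_const _)
    apply DifferentiableOn.div
    · exact (Lf_diff h).mul (differentiableOn_const _)
    · exact slope_diff h hvR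
    · intro w hw
      exact slope_ne h hvR hw
  have hgv : g v = 0 := by
    simp only [hg]
    rw [dslope_same, Lf_mul_chi h hvR]
    have := h.deriv_ne v hvR
    field_simp
    ring
  have hgs : DifferentiableOn ℂ (dslope g v) (ball 0 R) :=
    (Complex.differentiableOn_dslope (isOpen_ball.mem_nhds hvR)).mpr hgd
  have hE : ∀ w ∈ ball (0 : ℂ) R, w ≠ v → Ek χ w v = - dslope g v w := by
    intro w hw hne
    rw [dslope_of_ne _ hne, slope_def_field, hgv, sub_zero, Ek]
    simp only [hg]
    have h1 : dslope χ v w = (χ w - χ v) / (w - v) := by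
      rw [dslope_of_ne _ hne, slope_def_field]
    have h2 : χ w - χ v ≠ 0 := by
      rw [sub_ne_zero]
      intro h'
      exact hne (h.inj hw hvR h')
    have h3 : w - v ≠ 0 := sub_ne_zero.mpr hne
    have h4 := chi_ne h hv
    have h5 : (1 - (χ v)⁻¹ * χ w) = -(χ w - χ v) / χ v := by
      field_simp
      ring
    have h6 : 1 - v⁻¹ * w = -(w - v) / v := by
      field_simp
      ring
    rw [h1, h5, h6]
    field_simp
    ring
  have hbd : ∀ w : ℂ, ‖w‖ = 1 → w ≠ v → -(1 / 2) ≤ (- dslope g v w).re := by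
    intro w hw hne
    have hwR : w ∈ ball (0 : ℂ) R := mem_ball_of_norm_le h hw.le
    rw [← hE w hwR hne, Ek, Complex.sub_re]
    have hc := h.conv w v hw hv
    have e1 : Lf χ w / (1 - (χ v)⁻¹ * χ w) = ((1 - χ w / χ v) / Lf χ w)⁻¹ := by
      rw [inv_div]
      congr 2
      ring
    have p1 : 0 ≤ (Lf χ w / (1 - (χ v)⁻¹ * χ w)).re := by
      rw [e1, Complex.inv_re]
      exact div_nonneg hc (Complex.normSq_nonneg _)
    have p2 : (1 / (1 - v⁻¹ * w)).re = 1 / 2 := by
      set q := v⁻¹ * w with hq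
      have hq1 : ‖q‖ = 1 := by rw [hq, norm_mul, norm_inv, hv, hw]; simp
      have hq2 : 1 - q ≠ 0 := one_sub_ne' hv hne
      have hn : Complex.normSq q = 1 := by rw [Complex.normSq_eq_norm_sq, hq1]; norm_num
      have hn2 : Complex.normSq (1 - q) = 2 * (1 - q.re) := by
        rw [Complex.normSq_apply] at hn ⊢
        simp only [Complex.sub_re, Complex.one_re, Complex.sub_im, Complex.one_im]
        nlinarith
      have hn3 : Complex.normSq (1 - q) ≠ 0 := by
        rw [Ne, Complex.normSq_eq_zero]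
        exact hq2
      rw [one_div, Complex.inv_re, Complex.sub_re, Complex.one_re, div_eq_iff hn3, hn2]
      ring
    rw [p2]
    linarith
  have hbd' : ∀ w : ℂ, ‖w‖ = 1 → -(1 / 2) ≤ (- dslope g v w).re := by
    intro w hw
    by_cases hne : w = v
    · subst hne
      have hcont : ContinuousAt (fun t : ℝ => (- dslope g w (w * Complex.exp (t * Complex.I))).re) 0 := by
        apply Complex.continuous_re.continuousAt.comp
        apply ContinuousAt.neg
        have : ContinuousAt (dslope g w) (w * Complex.exp ((0 : ℝ) * Complex.I)) := by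
          simp only [Complex.ofReal_zero, zero_mul, Complex.exp_zero, mul_one]
          exact (hgs.differentiableAt (isOpen_ball.mem_nhds hvR)).continuousAt
        exact ContinuousAt.comp (g := dslope g w) this (by fun_prop)
      have hlim := hcont.tendsto.mono_left (nhdsWithin_le_nhds (s := Ioi (0 : ℝ)))
      simp only [Complex.ofReal_zero, zero_mul, Complex.exp_zero, mul_one] at hlim
      apply ge_of_tendsto hlim
      have hev : ∀ᶠ t : ℝ in nhdsWithin 0 (Ioi 0), t ∈ Ioo (0 : ℝ) 1 :=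
        Ioo_mem_nhdsGT (by norm_num)
      filter_upwards [hev] with t ht
      apply hbd
      · rw [norm_mul, Complex.norm_exp_ofReal_mul_I, hw, mul_one]
      · intro heq
        have hw0 : w ≠ 0 := by rintro rfl; simp at hw
        have h1 : Complex.exp (t * Complex.I) = 1 := by
          have := mul_left_cancel₀ hw0 (heq.trans (mul_one w).symm)
          exact this
        rw [Complex.exp_eq_one_iff] at h1
        obtain ⟨n, hn⟩ := h1
        have h2 : (t : ℂ) = n * (2 * π) := by
          have hI := Complex.I_ne_zero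
          apply mul_right_cancel₀ hI
          rw [hn]
          ring
        have h3 : t = n * (2 * π) := by exact_mod_cast h2
        have hn1 : (0 : ℝ) < n := by
          have : 0 < (n : ℝ) * (2 * π) := by rw [← h3]; exact ht.1
          have h2pi : 0 < 2 * π := by positivity
          exact pos_of_mul_pos_left this h2pi.le
        have hn2 : (1 : ℝ) ≤ n := by exact_mod_cast hn1
        have := Real.pi_gt_three
        have ht2 := ht.2
        nlinarith
    · exact hbd w hw hne
  have hmax : ‖Complex.exp (dslope g v w)‖ ≤ Real.exp (1 / 2) := by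
    apply Complex.norm_le_of_forall_mem_frontier_norm_le (U := ball (0 : ℂ) 1) isBounded_ball
      (f := fun w => Complex.exp (dslope g v w))
    · apply DifferentiableOn.diffContOnCl
      apply DifferentiableOn.cexp
      apply hgs.mono
      intro x hx
      have := closure_ball_subset_closedBall hx
      exact mem_ball_of_norm_le h (by simpa using this)
    · intro z hz
      rw [frontier_ball (0 : ℂ) (by norm_num)] at hz
      have hz' : ‖z‖ = 1 := by simpa using hz
      rw [Complex.norm_exp]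
      apply Real.exp_le_exp.mpr
      have := hbd' z hz'
      rw [Complex.neg_re] at this
      linarith
    · apply subset_closure
      simpa using hw
  rw [Complex.norm_exp, Real.exp_le_exp] at hmax
  rw [hE w (mem_ball_of_norm_le h hw.le) (ne_of_lt hv hw), Complex.neg_re]
  linarith

lemma avg_pow_inv (k n : ℕ) :
    circleAverage (fun u : ℂ => u ^ k * (u⁻¹) ^ n) 0 1 = if k = n then 1 else 0 := by
  split_ifs with hk
  · subst hk
    have : circleAverage (fun u : ℂ => u ^ k * u⁻¹ ^ k) 0 1 = circleAverage (fun u : ℂ => (1 : ℂ)) 0 1 := by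
      apply cavg_congr
      intro u hu
      have hu0 : u ≠ 0 := by rintro rfl; simp at hu
      rw [← mul_pow, mul_inv_cancel₀ hu0, one_pow]
    rw [this, circleAverage_const]
  · rcases lt_or_gt_of_ne hk with hlt | hgt
    · have : circleAverage (fun u : ℂ => u ^ k * u⁻¹ ^ n) 0 1 = circleAverage (fun u : ℂ => (u⁻¹) ^ (n - k)) 0 1 := by
        apply cavg_congr
        intro u hu
        have hu0 : u ≠ 0 := by rintro rfl; simp at hu
        conv_lhs => rw [show n = k + (n - k) by omega]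
        rw [pow_add, ← mul_assoc, ← mul_pow, mul_inv_cancel₀ hu0, one_pow, one_mul]
      rw [this, avg_inv_pow]
      have : n - k ≠ 0 := by omega
      simp [this]
    · have : circleAverage (fun u : ℂ => u ^ k * u⁻¹ ^ n) 0 1 = circleAverage (fun u : ℂ => u ^ (k - n)) 0 1 := by
        apply cavg_congr
        intro u hu
        have hu0 : u ≠ 0 := by rintro rfl; simp at hu
        conv_lhs => rw [show k = (k - n) + n by omega]
        rw [pow_add, mul_assoc, ← mul_pow, mul_inv_cancel₀ hu0, one_pow, mul_one]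
      rw [this, avg_pow]
      have : k - n ≠ 0 := by omega
      simp [this]

/-- trigonometric polynomial -/
noncomputable def tp (s : Finset ℕ) (c : ℕ → ℂ) (u : ℂ) : ℂ := ∑ n ∈ s, c n * (u⁻¹) ^ n

lemma tp_cont (s : Finset ℕ) (c : ℕ → ℂ) : ContinuousOn (tp s c) (sphere 0 1) := by
  unfold tp
  apply continuousOn_finsetSum
  intro n _
  exact continuousOn_const.mul (inv_cont.pow n)

lemma conj_tp (s : Finset ℕ) (c : ℕ → ℂ) {u : ℂ} (hu : ‖u‖ = 1) :
    conj (tp s c u) = ∑ n ∈ s, conj (c n) * u ^ n := by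
  rw [tp, map_sum]
  apply Finset.sum_congr rfl
  intro n _
  rw [map_mul, map_pow, inv_eq_conj hu, Complex.conj_conj]

/-- Parseval -/
lemma parseval (s : Finset ℕ) (c : ℕ → ℂ) :
    circleAverage (fun u : ℂ => ‖tp s c u‖ ^ 2) 0 1 = ∑ n ∈ s, ‖c n‖ ^ 2 := by
  have h1 : circleAverage (fun u : ℂ => ((‖tp s c u‖ ^ 2 : ℝ) : ℂ)) 0 1 =
      ((∑ n ∈ s, ‖c n‖ ^ 2 : ℝ) : ℂ) := by
    have e : circleAverage (fun u : ℂ => ((‖tp s c u‖ ^ 2 : ℝ) : ℂ)) 0 1 =
        circleAverage (fun u : ℂ => ∑ n ∈ s, ∑ m ∈ s, (conj (c n) * c m) * (u ^ n * (u⁻¹) ^ m)) 0 1 := by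
      apply cavg_congr
      intro u hu
      have : ((‖tp s c u‖ ^ 2 : ℝ) : ℂ) = conj (tp s c u) * tp s c u := by
        rw [← Complex.normSq_eq_norm_sq, Complex.normSq_eq_conj_mul_self]
      rw [this, conj_tp s c hu, tp, Finset.sum_mul_sum]
      apply Finset.sum_congr rfl
      intro n _
      apply Finset.sum_congr rfl
      intro m _
      ring
    rw [e, circleAverage_fun_sum]
    · push_cast
      apply Finset.sum_congr rfl
      intro n hn
      rw [circleAverage_fun_sum]
      · simp only [cavg_smul, avg_pow_inv]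
        rw [Finset.sum_eq_single n]
        · simp only [if_true, mul_one]
          rw [← Complex.normSq_eq_conj_mul_self, Complex.normSq_eq_norm_sq]
          push_cast
          rfl
        · intro m _ hm
          simp [hm.symm]
        · intro h'
          exact absurd hn h'
      · intro m _
        apply ci
        exact continuousOn_const.mul ((continuousOn_id.pow n).mul (inv_cont.pow m))
    · intro n _
      apply ci
      apply continuousOn_finsetSum
      intro m _
      exact continuousOn_const.mul ((continuousOn_id.pow n).mul (inv_cont.pow m))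
  rw [ofReal_avg] at h1
  · exact_mod_cast h1
  · exact ((tp_cont s c).norm.pow 2)

lemma ci_avg {E : Type*} [NormedAddCommGroup E] [NormedSpace ℝ E] {F : ℂ → ℂ → E}
    (hF : ContinuousOn (Function.uncurry F) (sphere 0 1 ×ˢ sphere 0 1)) :
    CircleIntegrable (fun v => circleAverage (fun u => F u v) 0 1) 0 1 := by
  have hc : Continuous (Function.uncurry fun x y : ℝ => F (circleMap 0 1 y) (circleMap 0 1 x)) := by
    have : (Function.uncurry fun x y : ℝ => F (circleMap 0 1 y) (circleMap 0 1 x)) =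
        (Function.uncurry F) ∘ (fun p : ℝ × ℝ => (circleMap 0 1 p.2, circleMap 0 1 p.1)) := by
      ext p
      rfl
    rw [this]
    apply hF.comp_continuous
    · fun_prop
    · intro p
      exact ⟨circ_mem _, circ_mem _⟩
  apply Continuous.intervalIntegrable
  unfold circleAverage
  apply Continuous.const_smul
  exact intervalIntegral.continuous_parametric_intervalIntegral_of_continuous' hc _ _

lemma Ek_cont2 (h : Ext χ R) {r : ℝ} (h0 : 0 < r) (h1 : r < 1) :
    ContinuousOn (Function.uncurry fun u v : ℂ => Ek χ (r * u) v) (sphere 0 1 ×ˢ sphere 0 1) := by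
  have hsph : ∀ u : ℂ, ‖u‖ = 1 → ‖(r : ℂ) * u‖ < 1 := by
    intro u hu
    rw [norm_mul, Complex.norm_real, norm_eq_abs, abs_of_pos h0, hu]
    linarith
  have hcr : ContinuousOn (fun u : ℂ => (r : ℂ) * u) (sphere 0 1) := by fun_prop
  have hmap : MapsTo (fun u : ℂ => (r : ℂ) * u) (sphere 0 1) (ball 0 R) := by
    intro u hu
    exact mem_ball_of_norm_le h (hsph u (by simpa using hu)).le
  have hLc : ContinuousOn (fun u : ℂ => Lf χ (r * u)) (sphere 0 1) :=
    (Lf_diff h).continuousOn.comp hcr hmap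
  have hχc : ContinuousOn (fun u : ℂ => χ (r * u)) (sphere 0 1) :=
    h.diff.continuousOn.comp hcr hmap
  have hχv : ContinuousOn (fun v : ℂ => (χ v)⁻¹) (sphere 0 1) := by
    apply ContinuousOn.inv₀ (h.diff.continuousOn.mono (sph_sub h.hR))
    intro v hv
    exact chi_ne h (by simpa using hv)
  have m1 : MapsTo (fun p : ℂ × ℂ => p.1) (sphere (0 : ℂ) 1 ×ˢ sphere (0 : ℂ) 1) (sphere 0 1) :=
    fun p hp => hp.1
  have m2 : MapsTo (fun p : ℂ × ℂ => p.2) (sphere (0 : ℂ) 1 ×ˢ sphere (0 : ℂ) 1) (sphere 0 1) :=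
    fun p hp => hp.2
  have c1 : ContinuousOn (fun p : ℂ × ℂ => p.1) (sphere (0 : ℂ) 1 ×ˢ sphere (0 : ℂ) 1) := by fun_prop
  have c2 : ContinuousOn (fun p : ℂ × ℂ => p.2) (sphere (0 : ℂ) 1 ×ˢ sphere (0 : ℂ) 1) := by fun_prop
  have hL2 : ContinuousOn (fun p : ℂ × ℂ => Lf χ (r * p.1)) (sphere (0 : ℂ) 1 ×ˢ sphere (0 : ℂ) 1) :=
    hLc.comp c1 m1
  have hχ2 : ContinuousOn (fun p : ℂ × ℂ => χ (r * p.1)) (sphere (0 : ℂ) 1 ×ˢ sphere (0 : ℂ) 1) :=
    hχc.comp c1 m1
  have hχv2 : ContinuousOn (fun p : ℂ × ℂ => (χ p.2)⁻¹) (sphere (0 : ℂ) 1 ×ˢ sphere (0 : ℂ) 1) :=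
    hχv.comp c2 m2
  have hv2 : ContinuousOn (fun p : ℂ × ℂ => (p.2)⁻¹) (sphere (0 : ℂ) 1 ×ˢ sphere (0 : ℂ) 1) :=
    inv_cont.comp c2 m2
  unfold Ek
  simp only [Function.uncurry_def]
  apply ContinuousOn.sub
  · apply hL2.div
    · exact continuousOn_const.sub (hχv2.mul hχ2)
    · intro p hp
      have h1' : ‖p.1‖ = 1 := by simpa using hp.1
      have h2' : ‖p.2‖ = 1 := by simpa using hp.2
      exact one_sub_ne h h2' (hmap hp.1) (ne_of_lt h2' (hsph _ h1'))
  · apply continuousOn_const.div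
    · exact continuousOn_const.sub (hv2.mul (continuousOn_const.mul c1))
    · intro p hp
      have h1' : ‖p.1‖ = 1 := by simpa using hp.1
      have h2' : ‖p.2‖ = 1 := by simpa using hp.2
      exact one_sub_ne' h2' (ne_of_lt h2' (hsph _ h1'))

lemma eps_cont (h : Ext χ R) (n : ℕ) : ContinuousOn (eps χ n) (sphere 0 1) := by
  unfold eps
  apply ContinuousOn.sub
  · have hχv : ContinuousOn (fun v : ℂ => (χ v)⁻¹) (sphere 0 1) := by
      apply ContinuousOn.inv₀ (h.diff.continuousOn.mono (sph_sub h.hR))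
      intro v hv
      exact chi_ne h (by simpa using hv)
    exact (Polynomial.continuous _).comp_continuousOn hχv
  · exact inv_cont.pow n

/-- orthogonality of the analytic part -/
lemma orth (h : Ext χ R) (m n : ℕ) : circleAverage (fun v : ℂ => v ^ m * eps χ n v) 0 1 = 0 := by
  have h0 : (0 : ℝ) < 1 / 2 := by norm_num
  have h1 : (1 / 2 : ℝ) < 1 := by norm_num
  have hE := Ek_cont2 h h0 h1
  have e1 : circleAverage (fun v : ℂ => (((1 / 2 : ℝ) : ℂ) ^ n) * (v ^ m * eps χ n v)) 0 1 =
      circleAverage (fun v : ℂ => circleAverage (fun u : ℂ =>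
        v ^ m * (Ek χ (((1 / 2 : ℝ) : ℂ) * u) v * (u⁻¹) ^ n)) 0 1) 0 1 := by
    apply cavg_congr
    intro v hv
    rw [cavg_smul, lemA h hv _ h0 h1]
    ring
  have hF : ContinuousOn (Function.uncurry fun v u : ℂ =>
      v ^ m * (Ek χ (((1 / 2 : ℝ) : ℂ) * u) v * (u⁻¹) ^ n)) (sphere (0 : ℂ) 1 ×ˢ sphere (0 : ℂ) 1) := by
    simp only [Function.uncurry_def]
    apply ContinuousOn.mul
    · fun_prop
    · apply ContinuousOn.mul
      · apply ContinuousOn.comp (g := Function.uncurry fun u v : ℂ => Ek χ (((1 / 2 : ℝ) : ℂ) * u) v)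
          (f := fun p : ℂ × ℂ => (p.2, p.1)) hE
        · fun_prop
        · intro p hp
          exact ⟨hp.2, hp.1⟩
      · apply ContinuousOn.pow
        apply inv_cont.comp (by fun_prop)
        intro p hp
        exact hp.2
  rw [cavg_smul, swap hF] at e1
  have e2 : circleAverage (fun u : ℂ => circleAverage (fun v : ℂ =>
        v ^ m * (Ek χ (((1 / 2 : ℝ) : ℂ) * u) v * (u⁻¹) ^ n)) 0 1) 0 1 = 0 := by
    have : circleAverage (fun u : ℂ => circleAverage (fun v : ℂ =>
        v ^ m * (Ek χ (((1 / 2 : ℝ) : ℂ) * u) v * (u⁻¹) ^ n)) 0 1) 0 1 =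
        circleAverage (fun u : ℂ => (0 : ℂ)) 0 1 := by
      apply cavg_congr
      intro u hu
      have hu0 : u ≠ 0 := by rintro rfl; simp at hu
      have : circleAverage (fun v : ℂ => v ^ m * (Ek χ (((1 / 2 : ℝ) : ℂ) * u) v * (u⁻¹) ^ n)) 0 1 =
          circleAverage (fun v : ℂ => (u⁻¹) ^ n * (v ^ m * Ek χ (((1 / 2 : ℝ) : ℂ) * u) v)) 0 1 := by
        apply cavg_congr
        intro v _
        ring
      rw [this, cavg_smul, lemB h]
      · simp
      · apply mul_ne_zero _ hu0
        norm_num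
      · rw [norm_mul, hu]
        norm_num
    rw [this, circleAverage_const]
  rw [e2] at e1
  rcases mul_eq_zero.mp e1 with h' | h'
  · exfalso
    have : (((1 / 2 : ℝ) : ℂ) ^ n) ≠ 0 := by
      apply pow_ne_zero
      norm_num
    exact this h'
  · exact h'

lemma eps_zero (h : Ext χ R) {v : ℂ} (hv : ‖v‖ = 1) : eps χ 0 v = 0 := by
  have h0 : (0 : ℝ) < 1 / 2 := by norm_num
  have h1 : (1 / 2 : ℝ) < 1 := by norm_num
  have a := lemA h hv (1 / 2) h0 h1 0
  have c := lemC h hv h0 h1 0
  simp only [pow_zero, mul_one, one_mul] at a c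
  rw [← a, c]

/-- the nonnegative kernel -/
noncomputable def kk (χ : ℂ → ℂ) (r : ℝ) (u v : ℂ) : ℝ := 1 + 2 * (Ek χ (r * u) v).re

lemma kk_nonneg (h : Ext χ R) {r : ℝ} (h0 : 0 < r) (h1 : r < 1) {u v : ℂ} (hu : ‖u‖ = 1) (hv : ‖v‖ = 1) :
    0 ≤ kk χ r u v := by
  have := lemD h (v := v) (w := r * u) hv (by
    rw [norm_mul, Complex.norm_real, norm_eq_abs, abs_of_pos h0, hu]
    linarith)
  rw [kk]
  linarith

lemma kk_cont2 (h : Ext χ R) {r : ℝ} (h0 : 0 < r) (h1 : r < 1) :
    ContinuousOn (Function.uncurry fun u v : ℂ => kk χ r u v) (sphere 0 1 ×ˢ sphere 0 1) := by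
  have := Ek_cont2 h h0 h1
  simp only [Function.uncurry_def] at this ⊢
  unfold kk
  apply ContinuousOn.add continuousOn_const
  apply ContinuousOn.mul continuousOn_const
  exact Complex.continuous_re.comp_continuousOn this

lemma Ek_cu (h : Ext χ R) {r : ℝ} (h0 : 0 < r) (h1 : r < 1) {v : ℂ} (hv : ‖v‖ = 1) :
    ContinuousOn (fun u : ℂ => Ek χ (r * u) v) (sphere 0 1) :=
  (Ek_cont_u h hv h0 h1).continuousOn.mono (sph_sub (one_lt_rinv h0 h1))

lemma kk_cu (h : Ext χ R) {r : ℝ} (h0 : 0 < r) (h1 : r < 1) {v : ℂ} (hv : ‖v‖ = 1) :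
    ContinuousOn (fun u : ℂ => kk χ r u v) (sphere 0 1) := by
  unfold kk
  apply ContinuousOn.add continuousOn_const
  apply ContinuousOn.mul continuousOn_const
  exact Complex.continuous_re.comp_continuousOn (Ek_cu h h0 h1 hv)

lemma Ek_cv (h : Ext χ R) {r : ℝ} (h0 : 0 < r) (h1 : r < 1) {u : ℂ} (hu : ‖u‖ = 1) :
    ContinuousOn (fun v : ℂ => Ek χ (r * u) v) (sphere 0 1) := by
  have := Ek_cont2 h h0 h1
  apply ContinuousOn.comp (g := Function.uncurry fun u v : ℂ => Ek χ (r * u) v) (f := fun v : ℂ => (u, v)) this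
  · fun_prop
  · intro v hv
    exact ⟨by simpa using hu, hv⟩

lemma kk_cv (h : Ext χ R) {r : ℝ} (h0 : 0 < r) (h1 : r < 1) {u : ℂ} (hu : ‖u‖ = 1) :
    ContinuousOn (fun v : ℂ => kk χ r u v) (sphere 0 1) := by
  unfold kk
  apply ContinuousOn.add continuousOn_const
  apply ContinuousOn.mul continuousOn_const
  exact Complex.continuous_re.comp_continuousOn (Ek_cv h h0 h1 hu)

lemma cavg_smulR (a : ℝ) (f : ℂ → ℝ) :
    circleAverage (fun u : ℂ => a * f u) 0 1 = a * circleAverage f 0 1 := by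
  have := circleAverage_fun_smul (a := a) (f := f) (c := 0) (R := 1)
  simpa only [smul_eq_mul] using this

lemma kk_avg_u (h : Ext χ R) {r : ℝ} (h0 : 0 < r) (h1 : r < 1) {v : ℂ} (hv : ‖v‖ = 1) :
    circleAverage (fun u : ℂ => kk χ r u v) 0 1 = 1 := by
  unfold kk
  rw [circleAverage_fun_add, circleAverage_const, cavg_smulR, re_avg (Ek_cu h h0 h1 hv)]
  · have := lemC h hv h0 h1 0
    simp only [pow_zero, one_mul] at this
    rw [this]
    simp
  · exact ci continuousOn_const
  · apply ci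
    apply ContinuousOn.mul continuousOn_const
    exact Complex.continuous_re.comp_continuousOn (Ek_cu h h0 h1 hv)

lemma kk_avg_v (h : Ext χ R) {r : ℝ} (h0 : 0 < r) (h1 : r < 1) {u : ℂ} (hu : ‖u‖ = 1) :
    circleAverage (fun v : ℂ => kk χ r u v) 0 1 = 1 := by
  unfold kk
  rw [circleAverage_fun_add, circleAverage_const, cavg_smulR, re_avg (Ek_cv h h0 h1 hu)]
  · have hu0 : u ≠ 0 := by rintro rfl; simp at hu
    have := lemB h (w := r * u) (mul_ne_zero (by exact_mod_cast h0.ne') hu0) (by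
      rw [norm_mul, Complex.norm_real, norm_eq_abs, abs_of_pos h0, hu]
      linarith) 0
    simp only [pow_zero, one_mul] at this
    rw [this]
    simp
  · exact ci continuousOn_const
  · apply ci
    apply ContinuousOn.mul continuousOn_const
    exact Complex.continuous_re.comp_continuousOn (Ek_cv h h0 h1 hu)

/-- the kernel operator on negative frequencies -/
lemma kern_eq (h : Ext χ R) {r : ℝ} (h0 : 0 < r) (h1 : r < 1) {v : ℂ} (hv : ‖v‖ = 1)
    (s : Finset ℕ) (hs : 0 ∉ s) (c : ℕ → ℂ) :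
    circleAverage (fun u : ℂ => tp s c u * (kk χ r u v : ℂ)) 0 1 =
      ∑ n ∈ s, c n * r ^ n * eps χ n v := by
  have hE := Ek_cu h h0 h1 hv
  have ht := tp_cont s c
  have e1 : circleAverage (fun u : ℂ => tp s c u * (kk χ r u v : ℂ)) 0 1 =
      circleAverage (fun u : ℂ => tp s c u + (tp s c u * Ek χ (r * u) v +
        conj (conj (tp s c u) * Ek χ (r * u) v))) 0 1 := by
    apply cavg_congr
    intro u _
    have : (kk χ r u v : ℂ) = 1 + (Ek χ (r * u) v + conj (Ek χ (r * u) v)) := by
      rw [Complex.add_conj, kk]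
      push_cast
      ring
    rw [this, map_mul, Complex.conj_conj]
    ring
  have hconj : ContinuousOn (fun u : ℂ => conj (tp s c u) * Ek χ (r * u) v) (sphere 0 1) :=
    (Complex.continuous_conj.comp_continuousOn ht).mul hE
  rw [e1, circleAverage_fun_add, circleAverage_fun_add, conj_avg hconj]
  · have a1 : circleAverage (fun u : ℂ => tp s c u) 0 1 = 0 := by
      unfold tp
      rw [circleAverage_fun_sum]
      · apply Finset.sum_eq_zero
        intro n hn
        rw [cavg_smul, avg_inv_pow]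
        have : n ≠ 0 := by
          rintro rfl
          exact hs hn
        simp [this]
      · intro n _
        exact ci (continuousOn_const.mul (inv_cont.pow n))
    have a2 : circleAverage (fun u : ℂ => tp s c u * Ek χ (r * u) v) 0 1 =
        ∑ n ∈ s, c n * r ^ n * eps χ n v := by
      have e : circleAverage (fun u : ℂ => tp s c u * Ek χ (r * u) v) 0 1 =
          circleAverage (fun u : ℂ => ∑ n ∈ s, c n * (Ek χ (r * u) v * (u⁻¹) ^ n)) 0 1 := by
        apply cavg_congr
        intro u _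
        rw [tp, Finset.sum_mul]
        apply Finset.sum_congr rfl
        intro n _
        ring
      rw [e, circleAverage_fun_sum]
      · apply Finset.sum_congr rfl
        intro n _
        rw [cavg_smul, lemA h hv r h0 h1]
        ring
      · intro n _
        exact ci (continuousOn_const.mul (hE.mul (inv_cont.pow n)))
    have a3 : circleAverage (fun u : ℂ => conj (tp s c u) * Ek χ (r * u) v) 0 1 = 0 := by
      have e : circleAverage (fun u : ℂ => conj (tp s c u) * Ek χ (r * u) v) 0 1 =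
          circleAverage (fun u : ℂ => ∑ n ∈ s, conj (c n) * (u ^ n * Ek χ (r * u) v)) 0 1 := by
        apply cavg_congr
        intro u hu
        rw [conj_tp s c hu, Finset.sum_mul]
        apply Finset.sum_congr rfl
        intro n _
        ring
      rw [e, circleAverage_fun_sum]
      · apply Finset.sum_eq_zero
        intro n _
        rw [cavg_smul, lemC h hv h0 h1, mul_zero]
      · intro n _
        exact ci (continuousOn_const.mul ((continuousOn_id.pow n).mul hE))
    rw [a1, a2, a3]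
    simp
  · exact ci (ht.mul hE)
  · exact ci (Complex.continuous_conj.comp_continuousOn hconj)
  · exact ci ht
  · exact ci ((ht.mul hE).add (Complex.continuous_conj.comp_continuousOn hconj))

lemma jensen (h : Ext χ R) {r : ℝ} (h0 : 0 < r) (h1 : r < 1) {v : ℂ} (hv : ‖v‖ = 1)
    (s : Finset ℕ) (c : ℕ → ℂ) :
    ‖circleAverage (fun u : ℂ => tp s c u * (kk χ r u v : ℂ)) 0 1‖ ^ 2 ≤
      circleAverage (fun u : ℂ => ‖tp s c u‖ ^ 2 * kk χ r u v) 0 1 := by
  have hk := kk_cu h h0 h1 hv
  have ht := tp_cont s c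
  set K := circleAverage (fun u : ℂ => tp s c u * (kk χ r u v : ℂ)) 0 1 with hK
  have hpos : 0 ≤ circleAverage (fun u : ℂ => ‖tp s c u - K‖ ^ 2 * kk χ r u v) 0 1 := by
    apply circleAverage_nonneg_of_nonneg
    intro u hu
    have hu' : ‖u‖ = 1 := by simpa using hu
    exact mul_nonneg (by positivity) (kk_nonneg h h0 h1 hu' hv)
  have hkC : ContinuousOn (fun u : ℂ => (kk χ r u v : ℂ)) (sphere 0 1) :=
    Complex.continuous_ofReal.comp_continuousOn hk
  have e : circleAverage (fun u : ℂ => ‖tp s c u - K‖ ^ 2 * kk χ r u v) 0 1 =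
      circleAverage (fun u : ℂ => ‖tp s c u‖ ^ 2 * kk χ r u v +
        (-2 * (conj K * (tp s c u * (kk χ r u v : ℂ))).re + ‖K‖ ^ 2 * kk χ r u v)) 0 1 := by
    apply cavg_congr
    intro u _
    have e1 : (conj K * (tp s c u * (kk χ r u v : ℂ))).re = (conj K * tp s c u).re * kk χ r u v := by
      rw [← mul_assoc, Complex.re_mul_ofReal]
    rw [e1]
    have e2 : ‖tp s c u - K‖ ^ 2 = ‖tp s c u‖ ^ 2 - 2 * (conj K * tp s c u).re + ‖K‖ ^ 2 := by
      rw [← Complex.normSq_eq_norm_sq, ← Complex.normSq_eq_norm_sq, ← Complex.normSq_eq_norm_sq,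
        Complex.normSq_sub]
      rw [mul_comm (conj K) (tp s c u)]
      ring
    rw [e2]
    ring
  have hm : ContinuousOn (fun u : ℂ => conj K * (tp s c u * (kk χ r u v : ℂ))) (sphere 0 1) :=
    continuousOn_const.mul (ht.mul hkC)
  rw [e, circleAverage_fun_add, circleAverage_fun_add, cavg_smulR, cavg_smulR, re_avg hm,
    cavg_smul, ← hK, kk_avg_u h h0 h1 hv] at hpos
  · have : (conj K * K).re = ‖K‖ ^ 2 := by
      rw [← Complex.normSq_eq_conj_mul_self, Complex.ofReal_re, Complex.normSq_eq_norm_sq]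
    rw [this] at hpos
    linarith
  · exact ci (continuousOn_const.mul (Complex.continuous_re.comp_continuousOn hm))
  · exact ci (continuousOn_const.mul hk)
  · exact ci ((ht.norm.pow 2).mul hk)
  · exact ci ((continuousOn_const.mul (Complex.continuous_re.comp_continuousOn hm)).add
      (continuousOn_const.mul hk))

lemma kern_le (h : Ext χ R) {r : ℝ} (h0 : 0 < r) (h1 : r < 1)
    (s : Finset ℕ) (hs : 0 ∉ s) (c : ℕ → ℂ) :
    circleAverage (fun v : ℂ => ‖∑ n ∈ s, c n * r ^ n * eps χ n v‖ ^ 2) 0 1 ≤ ∑ n ∈ s, ‖c n‖ ^ 2 := by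
  have ht := tp_cont s c
  have hk2 := kk_cont2 h h0 h1
  have hF : ContinuousOn (Function.uncurry fun u v : ℂ => ‖tp s c u‖ ^ 2 * kk χ r u v)
      (sphere (0 : ℂ) 1 ×ˢ sphere (0 : ℂ) 1) := by
    simp only [Function.uncurry_def] at hk2 ⊢
    apply ContinuousOn.mul _ hk2
    apply ContinuousOn.pow
    apply ContinuousOn.norm
    apply ht.comp (by fun_prop)
    intro p hp
    exact hp.1
  have hF' : ContinuousOn (Function.uncurry fun v u : ℂ => ‖tp s c u‖ ^ 2 * kk χ r u v)
      (sphere (0 : ℂ) 1 ×ˢ sphere (0 : ℂ) 1) := by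
    apply ContinuousOn.comp (g := Function.uncurry fun u v : ℂ => ‖tp s c u‖ ^ 2 * kk χ r u v)
      (f := fun p : ℂ × ℂ => (p.2, p.1)) hF
    · fun_prop
    · intro p hp
      exact ⟨hp.2, hp.1⟩
  calc circleAverage (fun v : ℂ => ‖∑ n ∈ s, c n * r ^ n * eps χ n v‖ ^ 2) 0 1
      ≤ circleAverage (fun v : ℂ => circleAverage (fun u : ℂ => ‖tp s c u‖ ^ 2 * kk χ r u v) 0 1) 0 1 := by
        apply circleAverage_mono
        · apply ci
          apply ContinuousOn.pow
          apply ContinuousOn.norm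
          apply continuousOn_finsetSum
          intro n _
          exact continuousOn_const.mul (eps_cont h n)
        · exact ci_avg hF
        · intro v hv
          have hv' : ‖v‖ = 1 := by simpa using hv
          rw [← kern_eq h h0 h1 hv' s hs c]
          exact jensen h h0 h1 hv' s c
    _ = circleAverage (fun u : ℂ => circleAverage (fun v : ℂ => ‖tp s c u‖ ^ 2 * kk χ r u v) 0 1) 0 1 :=
        swap hF'
    _ = circleAverage (fun u : ℂ => ‖tp s c u‖ ^ 2) 0 1 := by
        apply cavg_congr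
        intro u hu
        rw [cavg_smulR, kk_avg_v h h0 h1 hu, mul_one]
    _ = ∑ n ∈ s, ‖c n‖ ^ 2 := parseval s c

lemma kern_le_one (h : Ext χ R) (s : Finset ℕ) (hs : 0 ∉ s) (c : ℕ → ℂ) :
    circleAverage (fun v : ℂ => ‖∑ n ∈ s, c n * eps χ n v‖ ^ 2) 0 1 ≤ ∑ n ∈ s, ‖c n‖ ^ 2 := by
  have key : ∀ r : ℝ, r ∈ Ioo (0 : ℝ) 1 →
      circleAverage (fun v : ℂ => ‖∑ n ∈ s, c n * eps χ n v‖ ^ 2) 0 1 ≤
        ∑ n ∈ s, ‖c n‖ ^ 2 * (r⁻¹ ^ n) ^ 2 := by
    intro r hr
    have hr0 : (r : ℂ) ≠ 0 := by exact_mod_cast hr.1.ne'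
    have := kern_le h hr.1 hr.2 s hs (fun n => c n * ((r : ℂ)⁻¹) ^ n)
    have e1 : ∀ n, c n * ((r : ℂ)⁻¹) ^ n * (r : ℂ) ^ n = c n := by
      intro n
      rw [mul_assoc, ← mul_pow, inv_mul_cancel₀ hr0, one_pow, mul_one]
    simp only [e1] at this
    refine this.trans (le_of_eq ?_)
    apply Finset.sum_congr rfl
    intro n _
    rw [norm_mul, mul_pow, norm_pow, norm_inv, Complex.norm_real, norm_eq_abs, abs_of_pos hr.1]
  have hcont : ContinuousAt (fun r : ℝ => ∑ n ∈ s, ‖c n‖ ^ 2 * (r⁻¹ ^ n) ^ 2) 1 := by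
    unfold ContinuousAt
    apply tendsto_finsetSum
    intro n _
    have : ContinuousAt (fun r : ℝ => r⁻¹) 1 := continuousAt_inv₀ (by norm_num)
    exact continuousAt_const.mul ((this.pow n).pow 2)
  have hlim := hcont.tendsto.mono_left (nhdsWithin_le_nhds (s := Iio (1 : ℝ)))
  simp only [inv_one, one_pow, mul_one] at hlim
  apply ge_of_tendsto hlim
  have hev : ∀ᶠ t : ℝ in nhdsWithin 1 (Iio 1), t ∈ Ioo (0 : ℝ) 1 :=
    Ioo_mem_nhdsLT (by norm_num)
  filter_upwards [hev] with t ht
  exact key t ht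

end basics

end FL2

open FL2 in
/-- T3: the L² bound for Faber polynomials on the boundary curve. -/
theorem faber_l2 {χ : ℂ → ℂ} {R : ℝ} (h : Ext χ R) (N : ℕ) (c : ℕ → ℂ) :
    Real.circleAverage (fun u : ℂ =>
        ‖∑ n ∈ Finset.range (N + 1), c n * (Phi χ n).eval (χ u)⁻¹‖ ^ 2) 0 1
      ≤ ‖c 0‖ ^ 2 + 2 * ∑ n ∈ Finset.range N, ‖c (n + 1)‖ ^ 2 := by
  set s := Finset.range (N + 1) with hs
  set s' := (Finset.range N).map ⟨fun n => n + 1, fun a b hab => by simpa using hab⟩ with hs'
  have hs0 : 0 ∉ s' := by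
    simp [hs']
  have hP := tp_cont s c
  have hQ : ContinuousOn (fun v : ℂ => ∑ n ∈ s, c n * eps χ n v) (sphere 0 1) := by
    apply continuousOn_finsetSum
    intro n _
    exact continuousOn_const.mul (eps_cont h n)
  have e1 : circleAverage (fun u : ℂ => ‖∑ n ∈ s, c n * (Phi χ n).eval (χ u)⁻¹‖ ^ 2) 0 1 =
      circleAverage (fun u : ℂ => ‖tp s c u‖ ^ 2 + (‖∑ n ∈ s, c n * eps χ n u‖ ^ 2 +
        2 * (conj (tp s c u) * (∑ n ∈ s, c n * eps χ n u)).re)) 0 1 := by
    apply cavg_congr
    intro u _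
    have e : ∑ n ∈ s, c n * (Phi χ n).eval (χ u)⁻¹ = tp s c u + ∑ n ∈ s, c n * eps χ n u := by
      rw [tp, ← Finset.sum_add_distrib]
      apply Finset.sum_congr rfl
      intro n _
      rw [eps]
      ring
    rw [e, ← Complex.normSq_eq_norm_sq, ← Complex.normSq_eq_norm_sq, ← Complex.normSq_eq_norm_sq,
      Complex.normSq_add]
    have : (tp s c u * conj (∑ n ∈ s, c n * eps χ n u)).re =
        (conj (tp s c u) * (∑ n ∈ s, c n * eps χ n u)).re := by
      rw [← Complex.conj_re, map_mul, Complex.conj_conj]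
    rw [this]
    ring
  have hm : ContinuousOn (fun u : ℂ => conj (tp s c u) * (∑ n ∈ s, c n * eps χ n u)) (sphere 0 1) :=
    (Complex.continuous_conj.comp_continuousOn hP).mul hQ
  have hcross : circleAverage (fun u : ℂ => conj (tp s c u) * (∑ n ∈ s, c n * eps χ n u)) 0 1 = 0 := by
    have e : circleAverage (fun u : ℂ => conj (tp s c u) * (∑ n ∈ s, c n * eps χ n u)) 0 1 =
        circleAverage (fun u : ℂ => ∑ n ∈ s, ∑ m ∈ s, (conj (c n) * c m) * (u ^ n * eps χ m u)) 0 1 := by
      apply cavg_congr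
      intro u hu
      rw [conj_tp s c hu, Finset.sum_mul_sum]
      apply Finset.sum_congr rfl
      intro n _
      apply Finset.sum_congr rfl
      intro m _
      ring
    rw [e, circleAverage_fun_sum]
    · apply Finset.sum_eq_zero
      intro n _
      rw [circleAverage_fun_sum]
      · apply Finset.sum_eq_zero
        intro m _
        rw [cavg_smul, orth h, mul_zero]
      · intro m _
        exact ci (continuousOn_const.mul ((continuousOn_id.pow n).mul (eps_cont h m)))
    · intro n _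
      apply ci
      apply continuousOn_finsetSum
      intro m _
      exact continuousOn_const.mul ((continuousOn_id.pow n).mul (eps_cont h m))
  have hQle : circleAverage (fun v : ℂ => ‖∑ n ∈ s, c n * eps χ n v‖ ^ 2) 0 1 ≤
      ∑ n ∈ Finset.range N, ‖c (n + 1)‖ ^ 2 := by
    have := kern_le_one h s' hs0 c
    have e2 : ∑ n ∈ s', ‖c n‖ ^ 2 = ∑ n ∈ Finset.range N, ‖c (n + 1)‖ ^ 2 := by
      rw [hs', Finset.sum_map]
      rfl
    rw [e2] at this
    refine le_trans (le_of_eq ?_) this
    apply cavg_congr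
    intro v hv
    congr 2
    rw [hs, hs', Finset.sum_range_succ', Finset.sum_map, eps_zero h hv]
    simp
  rw [e1, circleAverage_fun_add, circleAverage_fun_add, cavg_smulR, re_avg hm, hcross, parseval]
  · have e3 : ∑ n ∈ s, ‖c n‖ ^ 2 = ‖c 0‖ ^ 2 + ∑ n ∈ Finset.range N, ‖c (n + 1)‖ ^ 2 := by
      rw [hs, Finset.sum_range_succ', add_comm]
    rw [e3]
    simp only [Complex.zero_re, mul_zero, add_zero]
    linarith
  · exact ci (hQ.norm.pow 2)
  · exact ci (continuousOn_const.mul (Complex.continuous_re.comp_continuousOn hm))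
  · exact ci (hP.norm.pow 2)
  · exact ci ((hQ.norm.pow 2).add (continuousOn_const.mul (Complex.continuous_re.comp_continuousOn hm)))

end Crest.Agent.H23
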