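import Crest.Agent.H23.Defs

/-! Auxiliary analysis for the main inequality: Parseval, averages of products. -/

set_option autoImplicit false

open Metric Set Polynomial Filter Topology

namespace Crest.Agent.H23.MainAux

open Real (circleAverage)

lemma avg_mul_analytic {R : ℝ} (hR : 1 < R) {f : ℂ → ℂ}
    (hf : DifferentiableOn ℂ f (ball 0 R)) :
    circleAverage f 0 1 = f 0 := by
  apply DiffContOnCl.circleAverage
  have : closure (ball (0:ℂ) |1|) ⊆ ball 0 R := by
    rw [abs_one]
    exact (closure_ball_subset_closedBall).trans (closedBall_subset_ball hR)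
  exact (hf.mono this).diffContOnCl

lemma ci_of_cont {E : Type*} [NormedAddCommGroup E] {f : ℂ → E}
    (hf : ContinuousOn f (sphere 0 1)) : CircleIntegrable f 0 1 :=
  hf.circleIntegrable zero_le_one

lemma avg_zpow (n : ℤ) : circleAverage (fun u : ℂ => u ^ n) 0 1 = if n = 0 then 1 else 0 := by
  split_ifs with h
  · subst h
    simp [Real.circleAverage_const]
  · rw [Real.circleAverage_eq_circleIntegral one_ne_zero]
    have : (∮ z in C(0, 1), (z - (0:ℂ))⁻¹ • (fun u : ℂ => u ^ n) z)
        = ∮ z in C(0, 1), (z - (0:ℂ)) ^ (n - 1) := by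
      apply circleIntegral.integral_congr zero_le_one
      intro z hz
      have hz0 : z ≠ 0 := by
        rintro rfl
        simp at hz
      simp only [sub_zero, smul_eq_mul]
      rw [zpow_sub_one₀ hz0, mul_comm]
    rw [this, circleIntegral.integral_sub_zpow_of_ne]
    · simp
    · intro h2
      apply h
      omega

lemma avg_orth (n k : ℕ) :
    circleAverage (fun u : ℂ => u ^ n * (u⁻¹) ^ k) 0 1 = if n = k then 1 else 0 := by
  have : circleAverage (fun u : ℂ => u ^ n * (u⁻¹) ^ k) 0 1
      = circleAverage (fun u : ℂ => u ^ ((n : ℤ) - k)) 0 1 := by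
    apply Real.circleAverage_congr_sphere
    intro z hz
    have hz0 : z ≠ 0 := by
      rintro rfl
      simp at hz
    simp only
    rw [zpow_sub₀ hz0]
    simp [div_eq_mul_inv]
  rw [this, avg_zpow]
  congr 1
  simp [sub_eq_zero]

lemma conj_eq_inv {u : ℂ} (hu : u ∈ sphere (0:ℂ) 1) : (starRingEnd ℂ) u = u⁻¹ := by
  have h1 : ‖u‖ = 1 := by simpa using hu
  rw [Complex.inv_def, Complex.normSq_eq_norm_sq, h1]
  simp

/-- real parts of averages -/
lemma avg_re {f : ℂ → ℂ} (hf : ContinuousOn f (sphere 0 1)) :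
    circleAverage (fun u => (f u).re) 0 1 = (circleAverage f 0 1).re := by
  have := ContinuousLinearMap.circleAverage_comp_comm (c := 0) (R := 1) Complex.reCLM (ci_of_cont hf)
  simpa [Function.comp_def] using this

lemma avg_conj {f : ℂ → ℂ} (hf : ContinuousOn f (sphere 0 1)) :
    circleAverage (fun u => (starRingEnd ℂ) (f u)) 0 1 = (starRingEnd ℂ) (circleAverage f 0 1) := by
  have := ContinuousLinearMap.circleAverage_comp_comm (c := 0) (R := 1)
    (Complex.conjCLE : ℂ →L[ℝ] ℂ) (ci_of_cont hf)
  simpa [Function.comp_def] using this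

lemma inv_pow_cont (n : ℕ) : ContinuousOn (fun u : ℂ => (u⁻¹) ^ n) (sphere 0 1) := by
  apply ContinuousOn.pow
  apply ContinuousOn.inv₀ continuousOn_id
  rintro z hz rfl
  simp at hz

/-- Bessel identity -/
lemma bessel {f : ℂ → ℂ} (hf : ContinuousOn f (sphere 0 1)) (N : ℕ) :
    circleAverage (fun u => ‖f u - ∑ n ∈ Finset.range N,
        circleAverage (fun u => (u⁻¹) ^ n * f u) 0 1 * u ^ n‖ ^ 2) 0 1
      = circleAverage (fun u => ‖f u‖ ^ 2) 0 1
        - ∑ n ∈ Finset.range N, ‖circleAverage (fun u => (u⁻¹) ^ n * f u) 0 1‖ ^ 2 := by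
  set c : ℕ → ℂ := fun n => circleAverage (fun u => (u⁻¹) ^ n * f u) 0 1 with hc
  have hfn : ContinuousOn (fun u => ‖f u‖ ^ 2) (sphere 0 1) := (hf.norm).pow 2
  induction N with
  | zero => simp
  | succ N ih =>
    rw [Finset.sum_range_succ _ N, ← sub_sub, ← ih]
    set g : ℂ → ℂ := fun u => f u - ∑ n ∈ Finset.range N, c n * u ^ n with hg
    have hgc : ContinuousOn g (sphere 0 1) := by
      apply hf.sub
      fun_prop
    have h1 : ∀ u, f u - ∑ n ∈ Finset.range (N + 1), c n * u ^ n = g u - c N * u ^ N := by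
      intro u
      rw [Finset.sum_range_succ, hg]
      ring
    have h2 : circleAverage (fun u => (u⁻¹) ^ N * g u) 0 1 = c N := by
      have e1 : (fun u => (u⁻¹) ^ N * g u) = fun u => (u⁻¹) ^ N * f u
          - ∑ n ∈ Finset.range N, c n * (u ^ n * (u⁻¹) ^ N) := by
        funext u
        rw [hg]
        simp only [mul_sub, Finset.mul_sum]
        congr 1
        apply Finset.sum_congr rfl
        intro i _
        ring
      rw [e1, Real.circleAverage_fun_sub, Real.circleAverage_fun_sum]
      · have : ∀ i ∈ Finset.range N,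
            circleAverage (fun u : ℂ => c i * (u ^ i * (u⁻¹) ^ N)) 0 1 = 0 := by
          intro i hi
          have h3 := Real.circleAverage_fun_smul (a := c i) (c := 0) (R := 1)
            (f := fun u : ℂ => (u ^ i * (u⁻¹) ^ N))
          simp only [smul_eq_mul] at h3
          rw [h3, avg_orth, if_neg (Finset.mem_range.1 hi).ne, mul_zero]
        rw [Finset.sum_eq_zero this, sub_zero]
      · intro i _
        apply ci_of_cont
        apply ContinuousOn.mul continuousOn_const
        exact (continuous_pow i).continuousOn.mul (inv_pow_cont N)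
      · exact ci_of_cont ((inv_pow_cont N).mul hf)
      · apply ci_of_cont
        apply continuousOn_finsetSum
        intro i _
        apply ContinuousOn.mul continuousOn_const
        exact (continuous_pow i).continuousOn.mul (inv_pow_cont N)
    have h3 : circleAverage (fun u => ‖f u - ∑ n ∈ Finset.range (N + 1), c n * u ^ n‖ ^ 2) 0 1
        = circleAverage (fun u => ‖g u‖ ^ 2 + (‖c N‖ ^ 2 +
            (-2) * ((starRingEnd ℂ (c N)) * ((u⁻¹) ^ N * g u)).re)) 0 1 := by
      apply Real.circleAverage_congr_sphere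
      intro u hu
      rw [abs_one] at hu
      have hu1 : ‖u‖ = 1 := by simpa using hu
      simp only [h1]
      rw [← Complex.normSq_eq_norm_sq, Complex.normSq_sub, Complex.normSq_eq_norm_sq,
        Complex.normSq_eq_norm_sq]
      have : (starRingEnd ℂ) (c N * u ^ N) = (starRingEnd ℂ) (c N) * (u⁻¹) ^ N := by
        rw [map_mul, map_pow, conj_eq_inv hu]
      rw [this]
      have h4 : ‖c N * u ^ N‖ ^ 2 = ‖c N‖ ^ 2 := by
        rw [norm_mul, norm_pow, hu1]; simp
      rw [h4]
      have h5 : g u * ((starRingEnd ℂ) (c N) * (u⁻¹) ^ N) =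
        (starRingEnd ℂ) (c N) * ((u⁻¹) ^ N * g u) := by ring
      rw [h5]
      ring
    have hci1 : ContinuousOn (fun u => (starRingEnd ℂ (c N)) * ((u⁻¹) ^ N * g u)) (sphere 0 1) :=
      continuousOn_const.mul ((inv_pow_cont N).mul hgc)
    have hci2 : ContinuousOn (fun u => ((starRingEnd ℂ (c N)) * ((u⁻¹) ^ N * g u)).re)
        (sphere 0 1) := Complex.continuous_re.comp_continuousOn hci1
    rw [h3, Real.circleAverage_fun_add, Real.circleAverage_fun_add, Real.circleAverage_const]
    · have h6 := Real.circleAverage_fun_smul (a := (-2 : ℝ)) (c := 0) (R := 1)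
            (f := fun u : ℂ => ((starRingEnd ℂ (c N)) * ((u⁻¹) ^ N * g u)).re)
      simp only [smul_eq_mul] at h6
      rw [h6, avg_re hci1]
      have h7 := Real.circleAverage_fun_smul (a := (starRingEnd ℂ (c N))) (c := 0) (R := 1)
            (f := fun u : ℂ => ((u⁻¹) ^ N * g u))
      simp only [smul_eq_mul] at h7
      rw [h7, h2]
      have h8 : ((starRingEnd ℂ) (c N) * c N).re = ‖c N‖ ^ 2 := by
        rw [mul_comm, Complex.mul_conj, Complex.normSq_eq_norm_sq, Complex.ofReal_re]
      rw [h8]
      ring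
    · exact ci_of_cont continuousOn_const
    · exact ci_of_cont (continuousOn_const.mul hci2)
    · exact ci_of_cont (hgc.norm.pow 2)
    · exact ci_of_cont (continuousOn_const.add (continuousOn_const.mul hci2))

lemma cps_apply (f : ℂ → ℂ) (n : ℕ) (u : ℂ) :
    (cauchyPowerSeries f 0 1 n fun _ => u) = circleAverage (fun u => (u⁻¹) ^ n * f u) 0 1 * u ^ n := by
  rw [cauchyPowerSeries_apply, Real.circleAverage_eq_circleIntegral one_ne_zero]
  rw [smul_mul_assoc]
  congr 1
  rw [mul_comm, ← smul_eq_mul (u ^ n), ← circleIntegral.integral_smul]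
  apply circleIntegral.integral_congr zero_le_one
  intro z hz
  simp only [sub_zero, smul_eq_mul, div_eq_mul_inv, mul_pow]
  ring

lemma parseval {R : ℝ} (hR : 1 < R) {f : ℂ → ℂ} (hf : DifferentiableOn ℂ f (ball 0 R)) :
    Tendsto (fun N => ∑ n ∈ Finset.range N, ‖circleAverage (fun u => (u⁻¹) ^ n * f u) 0 1‖ ^ 2)
      atTop (𝓝 (circleAverage (fun u => ‖f u‖ ^ 2) 0 1)) := by
  obtain ⟨r, hr1, hrR⟩ := exists_between hR
  obtain ⟨s, hs1, hsr⟩ := exists_between hr1
  have hfc : ContinuousOn f (sphere 0 1) := hf.continuousOn.mono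
    (sphere_subset_closedBall.trans (closedBall_subset_ball hR))
  lift r to NNReal using by linarith
  lift s to NNReal using by linarith
  have h1 : HasFPowerSeriesOnBall f (cauchyPowerSeries f 0 r) 0 r :=
    (hf.mono (closedBall_subset_ball hrR)).hasFPowerSeriesOnBall
      (by exact_mod_cast (lt_trans zero_lt_one hr1))
  have h2 : HasFPowerSeriesOnBall f (cauchyPowerSeries f 0 ((1:NNReal):ℝ)) 0 (1:NNReal) := by
    apply DifferentiableOn.hasFPowerSeriesOnBall
    · apply hf.mono
      apply closedBall_subset_ball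
      simpa using hR
    · simp
  have h3 : cauchyPowerSeries f 0 ((1:NNReal):ℝ) = cauchyPowerSeries f 0 r :=
    h2.hasFPowerSeriesAt.eq_formalMultilinearSeries h1.hasFPowerSeriesAt
  rw [← h3] at h1
  have h4 := h1.tendstoUniformlyOn (r' := s) (by exact_mod_cast hsr)
  have h5 : ∀ N u, (cauchyPowerSeries f 0 ((1:NNReal):ℝ)).partialSum N u
      = ∑ n ∈ Finset.range N, circleAverage (fun u => (u⁻¹) ^ n * f u) 0 1 * u ^ n := by
    intro N u
    rw [FormalMultilinearSeries.partialSum]
    apply Finset.sum_congr rfl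
    intro n _
    rw [NNReal.coe_one]
    exact cps_apply f n u
  have h6 : Tendsto (fun N => circleAverage (fun u => ‖f u - ∑ n ∈ Finset.range N,
        circleAverage (fun u => (u⁻¹) ^ n * f u) 0 1 * u ^ n‖ ^ 2) 0 1) atTop (𝓝 0) := by
    rw [Metric.tendstoUniformlyOn_iff] at h4
    rw [Metric.tendsto_atTop]
    intro ε hε
    obtain ⟨N0, hN0⟩ := eventually_atTop.1 (h4 (min 1 (ε / 2)) (lt_min one_pos (by positivity)))
    refine ⟨N0, fun N hN => ?_⟩
    have h7 : 0 ≤ circleAverage (fun u => ‖f u - ∑ n ∈ Finset.range N,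
        circleAverage (fun u => (u⁻¹) ^ n * f u) 0 1 * u ^ n‖ ^ 2) 0 1 :=
      Real.circleAverage_nonneg_of_nonneg (fun x _ => by positivity)
    rw [Real.dist_eq, sub_zero, abs_of_nonneg h7]
    apply lt_of_le_of_lt _ (half_lt_self hε)
    apply Real.circleAverage_mono_on_of_le_circle
    · apply ci_of_cont
      apply ContinuousOn.pow
      apply ContinuousOn.norm
      apply hfc.sub
      fun_prop
    · intro x hx
      rw [abs_one] at hx
      have hx1 : ‖x‖ = 1 := by simpa using hx
      have h8 := hN0 N hN x (by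
        simp only [mem_ball, dist_zero_right, hx1]; exact hs1)
      rw [h5, dist_eq_norm, zero_add] at h8
      have h9 := lt_of_lt_of_le h8 (min_le_left _ _)
      have h10 := lt_of_lt_of_le h8 (min_le_right _ _)
      nlinarith [norm_nonneg (f x - ∑ n ∈ Finset.range N,
        circleAverage (fun u => (u⁻¹) ^ n * f u) 0 1 * x ^ n)]
  have h7 := (tendsto_const_nhds (x := circleAverage (fun u => ‖f u‖ ^ 2) 0 1)).sub h6
  simp only [sub_zero] at h7
  refine h7.congr (fun N => ?_)
  rw [bessel hfc N]
  ring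

end Crest.Agent.H23.MainAux
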