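import Crest.Agent.H23.Defs

/-! Pointwise matrix inequalities for the main inequality. -/

set_option autoImplicit false

open Metric Set Polynomial Filter Topology
open scoped ComplexOrder ComplexConjugate

namespace Crest.Agent.H23.MainAux

variable {E : Type*} [NormedAddCommGroup E] [InnerProductSpace ℂ E]

lemma psd_of_re_nonneg {ι : Type*} [Fintype ι] (T : E →L[ℂ] E)
    (hT : ∀ x, 0 ≤ (inner ℂ x (T x)).re) (z : ι → E) :
    (Matrix.of fun k l => (inner ℂ (z k) (T (z l)) + conj (inner ℂ (z l) (T (z k)))) / 2 :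
      Matrix ι ι ℂ).PosSemidef := by
  apply Matrix.PosSemidef.of_dotProduct_mulVec_nonneg
  · ext k l
    simp only [Matrix.conjTranspose_apply, Matrix.of_apply, RCLike.star_def, map_div₀, map_add,
      Complex.conj_conj, Complex.conj_ofNat]
    rw [add_comm]
  · intro x
    have hw : inner ℂ (∑ k, x k • z k) (T (∑ k, x k • z k))
        = ∑ k, ∑ l, conj (x k) * x l * inner ℂ (z k) (T (z l)) := by
      simp only [map_sum, map_smul, sum_inner, inner_sum, inner_smul_left, inner_smul_right,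
        Finset.mul_sum]
      rw [Finset.sum_comm]
      refine Finset.sum_congr rfl fun k _ => Finset.sum_congr rfl fun l _ => ?_
      ring
    have key : star x ⬝ᵥ (Matrix.of fun k l =>
        (inner ℂ (z k) (T (z l)) + conj (inner ℂ (z l) (T (z k)))) / 2 : Matrix ι ι ℂ).mulVec x
        = (inner ℂ (∑ k, x k • z k) (T (∑ k, x k • z k)) +
          conj (inner ℂ (∑ k, x k • z k) (T (∑ k, x k • z k)))) / 2 := by
      rw [hw]
      simp only [map_sum, map_mul, Complex.conj_conj]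
      rw [Finset.sum_comm (f := fun k l => x k * conj (x l) * conj (inner ℂ (z k) (T (z l))))]
      rw [← Finset.sum_add_distrib, Finset.sum_div]
      simp only [dotProduct, Matrix.mulVec, Matrix.of_apply, Pi.star_apply, RCLike.star_def]
      refine Finset.sum_congr rfl fun k _ => ?_
      rw [← Finset.sum_add_distrib, Finset.sum_div, Finset.mul_sum]
      refine Finset.sum_congr rfl fun l _ => ?_
      ring
    rw [key, Complex.add_conj]
    have h0 : 0 ≤ (inner ℂ (∑ k, x k • z k) (T (∑ k, x k • z k))).re := hT _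
    have : ((2 * (inner ℂ (∑ k, x k • z k) (T (∑ k, x k • z k))).re : ℝ) : ℂ) / 2
      = (((inner ℂ (∑ k, x k • z k) (T (∑ k, x k • z k))).re : ℝ) : ℂ) := by
      push_cast
      ring
    rw [this]
    exact_mod_cast h0

lemma schur_ineq {m : ℕ} (b : Matrix (Fin m ⊕ Fin m) (Fin m ⊕ Fin m) ℂ) (hb : b.PosSemidef) :
    2 * ∑ i, ∑ j, ‖b (Sum.inl i) (Sum.inr j)‖ ^ 2
      ≤ ∑ i, ∑ j, ‖b (Sum.inl i) (Sum.inl j)‖ ^ 2 + ∑ i, ∑ j, ‖b (Sum.inr i) (Sum.inr j)‖ ^ 2 := by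
  have h1 := hb.hadamard hb.transpose
  have h2 := h1.dotProduct_mulVec_nonneg (Sum.elim (fun _ => 1) (fun _ => -1))
  have h3 : ∀ k l, b l k = conj (b k l) := by
    intro k l
    have := hb.isHermitian.apply l k
    rw [← this]
    simp
  have h4 : ∀ k l, b k l * b l k = ((‖b k l‖ ^ 2 : ℝ) : ℂ) := by
    intro k l
    rw [h3 k l, Complex.mul_conj, Complex.normSq_eq_norm_sq]
  have h5 : ∀ k l, ‖b l k‖ = ‖b k l‖ := by
    intro k l
    rw [h3 k l, Complex.norm_conj]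
  simp only [dotProduct, Matrix.mulVec, Fintype.sum_sum_type, Matrix.hadamard_apply,
    Matrix.transpose_apply, Pi.star_apply, Sum.elim_inl, Sum.elim_inr, h4, star_one, star_neg,
    mul_one, one_mul, mul_neg, neg_mul, Finset.sum_neg_distrib, Finset.sum_add_distrib] at h2
  have h6 : ((0:ℝ):ℂ) ≤ (((∑ i, ∑ j, ‖b (Sum.inl i) (Sum.inl j)‖ ^ 2) +
    (- ∑ i, ∑ j, ‖b (Sum.inl i) (Sum.inr j)‖ ^ 2) + -((∑ i, ∑ j, ‖b (Sum.inr i) (Sum.inl j)‖ ^ 2)
     + - ∑ i, ∑ j, ‖b (Sum.inr i) (Sum.inr j)‖ ^ 2) : ℝ) : ℂ) := by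
    push_cast
    convert! h2 using 1
    simp only [Complex.ofReal_pow]
  rw [Complex.real_le_real] at h6
  have h7 : ∑ i, ∑ j, ‖b (Sum.inr i) (Sum.inl j)‖ ^ 2 = ∑ i, ∑ j, ‖b (Sum.inl i) (Sum.inr j)‖ ^ 2 := by
    rw [Finset.sum_comm]
    refine Finset.sum_congr rfl fun k _ => Finset.sum_congr rfl fun l _ => ?_
    rw [h5]
  rw [h7] at h6
  linarith

/-- the bilinear estimate -/
lemma bil {m : ℕ} (F : Matrix (Fin m) (Fin m) ℂ) (M : ℝ)
    (hM : ‖Matrix.toEuclideanCLM (n := Fin m) (𝕜 := ℂ) F‖ ≤ M) (v a : Fin m → Fin m → ℂ) :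
    ‖∑ i, ∑ j, ∑ k, F i k * v k j * a i j‖ ^ 2
      ≤ M ^ 2 * ((∑ i, ∑ j, ‖v i j‖ ^ 2) * (∑ i, ∑ j, ‖a i j‖ ^ 2)) := by
  have hM0 : 0 ≤ M := (norm_nonneg _).trans hM
  -- columns
  have h1 : ∀ j, ∑ i, ‖∑ k, F i k * v k j‖ ^ 2 ≤ M ^ 2 * ∑ k, ‖v k j‖ ^ 2 := by
    intro j
    have h2 := (Matrix.toEuclideanCLM (n := Fin m) (𝕜 := ℂ) F).le_opNorm
      (WithLp.toLp 2 (fun k => v k j))
    have h3 : ‖Matrix.toEuclideanCLM (n := Fin m) (𝕜 := ℂ) F (WithLp.toLp 2 (fun k => v k j))‖ ^ 2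
        = ∑ i, ‖∑ k, F i k * v k j‖ ^ 2 := by
      rw [EuclideanSpace.norm_sq_eq]
      rfl
    have h4 : ‖(WithLp.toLp 2 (fun k => v k j) : EuclideanSpace ℂ (Fin m))‖ ^ 2
        = ∑ k, ‖v k j‖ ^ 2 := by
      rw [EuclideanSpace.norm_sq_eq]
    rw [← h3, ← h4, ← mul_pow]
    apply pow_le_pow_left₀ (norm_nonneg _)
    exact h2.trans (by gcongr)
  have h2 : ∑ i, ∑ j, ‖∑ k, F i k * v k j‖ ^ 2 ≤ M ^ 2 * (∑ i, ∑ j, ‖v i j‖ ^ 2) := by
    rw [Finset.sum_comm, Finset.sum_comm (f := fun i j => ‖v i j‖ ^ 2), Finset.mul_sum]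
    exact Finset.sum_le_sum fun j _ => h1 j
  have h3 : ‖∑ i, ∑ j, ∑ k, F i k * v k j * a i j‖
      ≤ ∑ p : Fin m × Fin m, ‖∑ k, F p.1 k * v k p.2‖ * ‖a p.1 p.2‖ := by
    rw [Fintype.sum_prod_type]
    refine (norm_sum_le _ _).trans (Finset.sum_le_sum fun i _ => ?_)
    refine (norm_sum_le _ _).trans (Finset.sum_le_sum fun j _ => ?_)
    rw [← Finset.sum_mul, norm_mul]
  have h4 := Finset.sum_mul_sq_le_sq_mul_sq (Finset.univ : Finset (Fin m × Fin m))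
    (fun p => ‖∑ k, F p.1 k * v k p.2‖) (fun p => ‖a p.1 p.2‖)
  rw [Fintype.sum_prod_type (f := fun p : Fin m × Fin m => ‖∑ k, F p.1 k * v k p.2‖ ^ 2),
    Fintype.sum_prod_type (f := fun p : Fin m × Fin m => ‖a p.1 p.2‖ ^ 2)] at h4
  calc _ ≤ (∑ p : Fin m × Fin m, ‖∑ k, F p.1 k * v k p.2‖ * ‖a p.1 p.2‖) ^ 2 :=
        pow_le_pow_left₀ (norm_nonneg _) h3 2
    _ ≤ _ := h4
    _ ≤ _ := by
        rw [← mul_assoc]
        apply mul_le_mul_of_nonneg_right h2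
        positivity

end Crest.Agent.H23.MainAux
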