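import Crest.Agent.H23.Defs
import Crest.Agent.H23.MainA
import Crest.Agent.H23.MainB
import Crest.Agent.H23.Calc
import Crest.Agent.H23.FaberL2

/-! T5: main inequality. -/

set_option autoImplicit false

open Metric Set Polynomial Filter Topology
open scoped ComplexOrder ComplexConjugate

namespace Crest.Agent.H23

namespace MainAux

open Real (circleAverage)

lemma norm_avg_le {f : ℂ → ℂ} {g : ℂ → ℝ} (hg : ContinuousOn g (sphere 0 1))
    (h : ∀ u ∈ sphere (0:ℂ) 1, ‖f u‖ ≤ g u) :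
    ‖circleAverage f 0 1‖ ≤ circleAverage g 0 1 := by
  unfold Real.circleAverage
  rw [norm_smul, smul_eq_mul]
  have : ‖(2 * Real.pi)⁻¹‖ = (2 * Real.pi)⁻¹ := by
    rw [Real.norm_eq_abs, abs_of_pos (by positivity)]
  rw [this]
  apply mul_le_mul_of_nonneg_left _ (by positivity)
  apply intervalIntegral.norm_integral_le_of_norm_le (by positivity)
  · filter_upwards with θ _
    apply h
    simp
  · exact ci_of_cont hg

variable {E : Type*} [NormedAddCommGroup E] [InnerProductSpace ℂ E]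

lemma avg_add {V : Type*} [NormedAddCommGroup V] [NormedSpace ℝ V] {f g : ℂ → V}
    (hf : ContinuousOn f (sphere 0 1)) (hg : ContinuousOn g (sphere 0 1)) :
    circleAverage (fun u => f u + g u) 0 1 = circleAverage f 0 1 + circleAverage g 0 1 :=
  Real.circleAverage_fun_add (ci_of_cont hf) (ci_of_cont hg)

lemma avg_sum {V : Type*} [NormedAddCommGroup V] [NormedSpace ℝ V] {ι : Type*} {s : Finset ι}
    {f : ι → ℂ → V}
    (hf : ∀ i ∈ s, ContinuousOn (f i) (sphere 0 1)) :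
    circleAverage (fun u => ∑ i ∈ s, f i u) 0 1 = ∑ i ∈ s, circleAverage (f i) 0 1 :=
  Real.circleAverage_fun_sum (fun i hi => ci_of_cont (hf i hi))

lemma avg_cmul (c : ℝ) (f : ℂ → ℝ) :
    circleAverage (fun u => c * f u) 0 1 = c * circleAverage f 0 1 := by
  have := Real.circleAverage_fun_smul (a := c) (f := f) (c := 0) (R := 1)
  simpa using this

lemma avg_ccmul (c : ℂ) (f : ℂ → ℂ) :
    circleAverage (fun u => c * f u) 0 1 = c * circleAverage f 0 1 := by
  have := Real.circleAverage_fun_smul (a := c) (f := f) (c := 0) (R := 1)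
  simpa using this

lemma avg_mono {f g : ℂ → ℝ} (hf : ContinuousOn f (sphere 0 1)) (hg : ContinuousOn g (sphere 0 1))
    (h : ∀ u ∈ sphere (0:ℂ) 1, f u ≤ g u) : circleAverage f 0 1 ≤ circleAverage g 0 1 := by
  apply Real.circleAverage_mono (ci_of_cont hf) (ci_of_cont hg)
  simpa using h

lemma chi_ne {χ : ℂ → ℂ} {R : ℝ} (h : Ext χ R) {u : ℂ} (hu : u ∈ ball (0:ℂ) R) (hu0 : u ≠ 0) :
    χ u ≠ 0 := by
  intro h0
  apply hu0
  apply h.inj hu (by simp; linarith [h.hR]) 
  rw [h0, h.zero]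

lemma inv_cont {χ : ℂ → ℂ} {R : ℝ} (h : Ext χ R) :
    ContinuousOn (fun u => (χ u)⁻¹) (sphere 0 1) := by
  have hsub : sphere (0:ℂ) 1 ⊆ ball 0 R :=
    sphere_subset_closedBall.trans (closedBall_subset_ball h.hR)
  apply ContinuousOn.inv₀ (h.diff.continuousOn.mono hsub)
  intro u hu
  apply chi_ne h (hsub hu)
  rintro rfl
  simp at hu

lemma amgm {κ M N p q : ℝ} (hκ : 0 < κ) (hp : 0 ≤ p) (hq : 0 ≤ q)
    (h : N ^ 2 ≤ M ^ 2 * (p * q)) : N ≤ (κ * p + M ^ 2 / κ * q) / 2 := by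
  apply abs_le_of_sq_le_sq' _ (by positivity) |>.2
  refine h.trans ?_
  have e1 : ((κ * p + M ^ 2 / κ * q) / 2) ^ 2 = ((κ * p - M ^ 2 / κ * q) / 2) ^ 2
    + M ^ 2 * (p * q) := by
    field_simp
    ring
  rw [e1]
  nlinarith [sq_nonneg ((κ * p - M ^ 2 / κ * q) / 2)]

lemma norm_pair (p q : ℂ) : ‖(p + conj q) / 2‖ ^ 2
    = (1 / 4) * (‖p‖ ^ 2 + ‖q‖ ^ 2) + (1 / 2) * (p * q).re := by
  rw [norm_div, div_pow, ← Complex.normSq_eq_norm_sq (p + conj q), Complex.normSq_add,
    Complex.normSq_eq_norm_sq, Complex.normSq_eq_norm_sq, Complex.conj_conj, Complex.norm_conj]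
  norm_num
  ring

lemma avg_pair {R : ℝ} (hR : 1 < R) {f g : ℂ → ℂ} (hf : DifferentiableOn ℂ f (ball 0 R))
    (hg : DifferentiableOn ℂ g (ball 0 R)) :
    circleAverage (fun u => ‖(f u + conj (g u)) / 2‖ ^ 2) 0 1
      = (1 / 4) * (circleAverage (fun u => ‖f u‖ ^ 2) 0 1 + circleAverage (fun u => ‖g u‖ ^ 2) 0 1)
        + (1 / 2) * (f 0 * g 0).re := by
  have hsub : sphere (0:ℂ) 1 ⊆ ball 0 R :=
    sphere_subset_closedBall.trans (closedBall_subset_ball hR)
  have hfc := hf.continuousOn.mono hsub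
  have hgc := hg.continuousOn.mono hsub
  have h1 : ContinuousOn (fun u => ‖f u‖ ^ 2 + ‖g u‖ ^ 2) (sphere 0 1) :=
    (hfc.norm.pow 2).add (hgc.norm.pow 2)
  have h2 : ContinuousOn (fun u => (f u * g u).re) (sphere 0 1) :=
    Complex.continuous_re.comp_continuousOn (hfc.mul hgc)
  have h3 : ContinuousOn (fun u => (1 / 4 : ℝ) * (‖f u‖ ^ 2 + ‖g u‖ ^ 2)) (sphere 0 1) :=
    continuousOn_const.mul h1
  have h4 : ContinuousOn (fun u => (1 / 2 : ℝ) * (f u * g u).re) (sphere 0 1) :=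
    continuousOn_const.mul h2
  have h5 : ContinuousOn (fun u => f u * g u) (sphere 0 1) := hfc.mul hgc
  have h6 : ContinuousOn (fun u => ‖f u‖ ^ 2) (sphere 0 1) := hfc.norm.pow 2
  have h7 : ContinuousOn (fun u => ‖g u‖ ^ 2) (sphere 0 1) := hgc.norm.pow 2
  simp only [norm_pair]
  rw [avg_add h3 h4, avg_cmul, avg_cmul, avg_add h6 h7, avg_re h5,
    avg_mul_analytic hR (f := fun u => f u * g u) (hf.mul hg)]

/-- `f_{x,y}(u) = ⟨x, R_u y⟩` -/
noncomputable def fxy (χ : ℂ → ℂ) (A : E →L[ℂ] E) (x y : E) (u : ℂ) : ℂ :=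
  inner ℂ x (Res χ A u y)

noncomputable def Lxy (x y : E) : (E →L[ℂ] E) →L[ℂ] ℂ :=
  (innerSL ℂ x).comp (ContinuousLinearMap.apply ℂ E y)

lemma Lxy_apply (x y : E) (T : E →L[ℂ] E) : Lxy x y T = inner ℂ x (T y) := by
  simp [Lxy]

lemma avg_Lxy (x y : E) {f : ℂ → E →L[ℂ] E} [CompleteSpace E]
    (hf : ContinuousOn f (sphere 0 1)) :
    circleAverage (fun u => inner ℂ x (f u y)) 0 1 = inner ℂ x ((circleAverage f 0 1) y) := by
  have := ContinuousLinearMap.circleAverage_comp_comm (c := 0) (R := 1)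
    ((Lxy x y).restrictScalars ℝ) (ci_of_cont hf)
  simpa [Function.comp_def, Lxy_apply] using this

section
variable [CompleteSpace E] {χ : ℂ → ℂ} {R : ℝ} (h : Ext χ R) (A : E →L[ℂ] E)
    (hA : ∀ u ∈ ball (0 : ℂ) R, IsUnit (1 - χ u • A))
include h hA

lemma fxy_diff (x y : E) : DifferentiableOn ℂ (fxy χ A x y) (ball 0 R) := by
  have h1 : fxy χ A x y = (Lxy x y) ∘ (Res χ A) := by
    funext u
    simp [fxy, Lxy_apply]
  rw [h1]
  exact (Lxy x y).differentiable.comp_differentiableOn (res_diff h A hA)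

lemma fxy_zero (x y : E) : fxy χ A x y 0 = inner ℂ x y := by
  rw [fxy, res_zero h A]
  simp

lemma res_cont : ContinuousOn (Res χ A) (sphere 0 1) :=
  (res_diff h A hA).continuousOn.mono
    (sphere_subset_closedBall.trans (closedBall_subset_ball h.hR))

lemma fxy_cont (x y : E) : ContinuousOn (fxy χ A x y) (sphere 0 1) :=
  (fxy_diff h A hA x y).continuousOn.mono
    (sphere_subset_closedBall.trans (closedBall_subset_ball h.hR))

lemma fxy_coeff (x y : E) (n : ℕ) :
    circleAverage (fun u => (u⁻¹) ^ n * fxy χ A x y u) 0 1 = inner ℂ x (aeval A (Phi χ n) y) := by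
  rw [← faber_coeff h A hA n]
  have hc : ContinuousOn (fun u : ℂ => (u⁻¹) ^ n • Res χ A u) (sphere 0 1) :=
    (inv_pow_cont n).smul (res_cont h A hA)
  rw [← avg_Lxy x y hc]
  simp [fxy]

end

section
variable [CompleteSpace E] {χ : ℂ → ℂ} {R : ℝ} (h : Ext χ R) (A : E →L[ℂ] E)
    (hA : ∀ u ∈ ball (0 : ℂ) R, IsUnit (1 - χ u • A))
include h hA

/-- coefficients -/
noncomputable def cf (χ : ℂ → ℂ) (A : E →L[ℂ] E) (x y : E) (n : ℕ) : ℂ :=
  inner ℂ x (aeval A (Phi χ n) y)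

lemma cf_zero (x y : E) : cf χ A x y 0 = inner ℂ x y := by
  rw [cf, ← fxy_coeff h A hA]
  simp only [pow_zero, one_mul]
  rw [avg_mul_analytic h.hR (fxy_diff h A hA x y), fxy_zero h A hA]

lemma hs_id {m : ℕ} (z : Fin m → E) :
    circleAverage (fun u => ∑ i, ∑ j,
      ‖(fxy χ A (z i) (z j) u + conj (fxy χ A (z j) (z i) u)) / 2‖ ^ 2) 0 1
      = ∑ i, ∑ j, ((1 / 2) * ‖inner ℂ (z i) (z j)‖ ^ 2
        + (1 / 2) * circleAverage (fun u => ‖fxy χ A (z i) (z j) u‖ ^ 2) 0 1) := by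
  have hc : ∀ i j, ContinuousOn (fun u =>
      ‖(fxy χ A (z i) (z j) u + conj (fxy χ A (z j) (z i) u)) / 2‖ ^ 2) (sphere 0 1) := by
    intro i j
    apply ContinuousOn.pow
    apply ContinuousOn.norm
    apply ContinuousOn.div_const
    exact (fxy_cont h A hA _ _).add
      (Complex.continuous_conj.comp_continuousOn (fxy_cont h A hA _ _))
  rw [avg_sum (fun i _ => continuousOn_finsetSum _ (fun j _ => hc i j))]
  have h1 : ∀ i, circleAverage (fun u => ∑ j,
      ‖(fxy χ A (z i) (z j) u + conj (fxy χ A (z j) (z i) u)) / 2‖ ^ 2) 0 1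
      = ∑ j, ((1 / 4) * circleAverage (fun u => ‖fxy χ A (z i) (z j) u‖ ^ 2) 0 1
        + (1 / 4) * circleAverage (fun u => ‖fxy χ A (z j) (z i) u‖ ^ 2) 0 1
        + (1 / 2) * ‖inner ℂ (z i) (z j)‖ ^ 2) := by
    intro i
    rw [avg_sum (fun j _ => hc i j)]
    refine Finset.sum_congr rfl fun j _ => ?_
    rw [avg_pair h.hR (fxy_diff h A hA _ _) (fxy_diff h A hA _ _), fxy_zero h A hA,
      fxy_zero h A hA]
    have : (inner ℂ (z i) (z j) * inner ℂ (z j) (z i)).re = ‖inner ℂ (z i) (z j)‖ ^ 2 := by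
      rw [← inner_conj_symm (z j) (z i), Complex.mul_conj, Complex.normSq_eq_norm_sq,
        Complex.ofReal_re]
    rw [this]
    ring
  simp only [h1]
  have h2 : ∑ i, ∑ j, (1 / 4) * circleAverage (fun u => ‖fxy χ A (z j) (z i) u‖ ^ 2) 0 1
      = ∑ i, ∑ j, (1 / 4) * circleAverage (fun u => ‖fxy χ A (z i) (z j) u‖ ^ 2) 0 1 :=
    Finset.sum_comm
  simp only [Finset.sum_add_distrib, h2]
  simp only [← Finset.mul_sum]
  ring

/-- the key dual estimate -/
lemma key {m : ℕ} (z : Fin m → E) (κ M : ℝ) (hκ : 0 < κ) (a : Fin m → Fin m → ℂ → ℂ)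
    (ha : ∀ i j, ContinuousOn (a i j) (sphere 0 1))
    (H : ∀ w : Fin m → Fin m → Polynomial ℂ,
      κ * ‖∑ i, ∑ j, inner ℂ (z i) (aeval A (w i j) (z j))‖ ≤
        circleAverage (fun u => (κ * (∑ i, ∑ j, ‖(w i j).eval (χ u)⁻¹‖ ^ 2)
          + M ^ 2 / κ * ∑ i, ∑ j, ‖a i j u‖ ^ 2) / 2) 0 1) :
    κ ^ 2 * circleAverage (fun u => ∑ i, ∑ j,
      ‖(fxy χ A (z i) (z j) u + conj (fxy χ A (z j) (z i) u)) / 2‖ ^ 2) 0 1
      ≤ M ^ 2 * circleAverage (fun u => ∑ i, ∑ j, ‖a i j u‖ ^ 2) 0 1 := by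
  rw [hs_id h A hA z]
  -- truncations
  have hlim : Tendsto (fun N => κ ^ 2 * ∑ i, ∑ j, ((1 / 2) * ‖inner ℂ (z i) (z j)‖ ^ 2
      + (1 / 2) * ∑ n ∈ Finset.range (N + 1), ‖cf χ A (z i) (z j) n‖ ^ 2)) atTop
      (𝓝 (κ ^ 2 * ∑ i, ∑ j, ((1 / 2) * ‖inner ℂ (z i) (z j)‖ ^ 2
        + (1 / 2) * circleAverage (fun u => ‖fxy χ A (z i) (z j) u‖ ^ 2) 0 1))) := by
    apply Tendsto.const_mul
    apply tendsto_finsetSum
    intro i _
    apply tendsto_finsetSum
    intro j _
    apply Tendsto.const_add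
    apply Tendsto.const_mul
    have := (parseval h.hR (fxy_diff h A hA (z i) (z j)))
    simp only [fxy_coeff h A hA] at this
    exact this.comp (tendsto_add_atTop_nat 1)
  refine le_of_tendsto' hlim fun N => ?_
  -- test polynomials
  set V : Fin m → Fin m → ℕ → ℂ := fun i j n =>
    if n = 0 then conj (cf χ A (z i) (z j) n) else conj (cf χ A (z i) (z j) n) / 2 with hV
  set w : Fin m → Fin m → Polynomial ℂ := fun i j =>
    ∑ n ∈ Finset.range (N + 1), Polynomial.C (V i j n) * Phi χ n with hw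
  set S : ℝ := ∑ i, ∑ j, ((1 / 2) * ‖inner ℂ (z i) (z j)‖ ^ 2
      + (1 / 2) * ∑ n ∈ Finset.range (N + 1), ‖cf χ A (z i) (z j) n‖ ^ 2) with hS
  have hS2 : S = ∑ i, ∑ j, (‖cf χ A (z i) (z j) 0‖ ^ 2
      + (1 / 2) * ∑ n ∈ Finset.range N, ‖cf χ A (z i) (z j) (n + 1)‖ ^ 2) := by
    rw [hS]
    refine Finset.sum_congr rfl fun i _ => Finset.sum_congr rfl fun j _ => ?_
    rw [Finset.sum_range_succ', ← cf_zero h A hA]
    ring
  have hS0 : 0 ≤ S := by
    rw [hS]
    positivity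
  have h1 : ∑ i, ∑ j, inner ℂ (z i) (aeval A (w i j) (z j)) = (S : ℂ) := by
    rw [hS2]
    push_cast
    refine Finset.sum_congr rfl fun i _ => Finset.sum_congr rfl fun j _ => ?_
    have e1 : inner ℂ (z i) (aeval A (w i j) (z j))
        = ∑ n ∈ Finset.range (N + 1), V i j n * cf χ A (z i) (z j) n := by
      rw [hw]
      simp only [map_sum, map_mul, aeval_C, cf]
      rw [ContinuousLinearMap.sum_apply, inner_sum]
      refine Finset.sum_congr rfl fun n _ => ?_
      rw [Algebra.algebraMap_eq_smul_one]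
      simp [inner_smul_right]
    rw [e1, Finset.sum_range_succ', add_comm]
    congr 1
    · simp only [hV, if_true]
      rw [mul_comm, Complex.mul_conj, Complex.normSq_eq_norm_sq]
      push_cast
      rfl
    · rw [Finset.mul_sum]
      refine Finset.sum_congr rfl fun n _ => ?_
      simp only [hV, Nat.succ_ne_zero, if_false]
      have : conj (cf χ A (z i) (z j) (n + 1)) / 2 * cf χ A (z i) (z j) (n + 1)
        = (1 / 2) * (cf χ A (z i) (z j) (n + 1) * conj (cf χ A (z i) (z j) (n + 1))) := by ring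
      rw [this, Complex.mul_conj, Complex.normSq_eq_norm_sq]
      push_cast
      rfl
  have h2 := H w
  rw [h1, Complex.norm_real, Real.norm_eq_abs, abs_of_nonneg hS0] at h2
  have hWc : ∀ i j, ContinuousOn (fun u => ‖(w i j).eval (χ u)⁻¹‖ ^ 2) (sphere 0 1) := by
    intro i j
    exact ((w i j).continuous.comp_continuousOn (inv_cont h)).norm.pow 2
  have hW : circleAverage (fun u => ∑ i, ∑ j, ‖(w i j).eval (χ u)⁻¹‖ ^ 2) 0 1 ≤ S := by
    rw [avg_sum (fun i _ => continuousOn_finsetSum _ (fun j _ => hWc i j)), hS2]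
    refine Finset.sum_le_sum fun i _ => ?_
    rw [avg_sum (fun j _ => hWc i j)]
    refine Finset.sum_le_sum fun j _ => ?_
    have h3 := faber_l2 h N (V i j)
    have h4 : (fun u => ‖(w i j).eval (χ u)⁻¹‖ ^ 2) = fun u =>
        ‖∑ n ∈ Finset.range (N + 1), V i j n * (Phi χ n).eval (χ u)⁻¹‖ ^ 2 := by
      funext u
      rw [hw]
      simp [Polynomial.eval_finset_sum]
    rw [h4]
    refine h3.trans (le_of_eq ?_)
    congr 1
    · simp [hV]
    · rw [Finset.mul_sum, Finset.mul_sum]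
      refine Finset.sum_congr rfl fun n _ => ?_
      simp only [hV, Nat.succ_ne_zero, if_false]
      rw [norm_div, Complex.norm_conj]
      norm_num
      ring
  have hAc : ContinuousOn (fun u => ∑ i, ∑ j, ‖a i j u‖ ^ 2) (sphere 0 1) :=
    continuousOn_finsetSum _ (fun i _ => continuousOn_finsetSum _ (fun j _ =>
      (ha i j).norm.pow 2))
  have hWc2 : ContinuousOn (fun u => ∑ i, ∑ j, ‖(w i j).eval (χ u)⁻¹‖ ^ 2) (sphere 0 1) :=
    continuousOn_finsetSum _ (fun i _ => continuousOn_finsetSum _ (fun j _ => hWc i j))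
  have h5 : circleAverage (fun u => (κ * (∑ i, ∑ j, ‖(w i j).eval (χ u)⁻¹‖ ^ 2)
          + M ^ 2 / κ * ∑ i, ∑ j, ‖a i j u‖ ^ 2) / 2) 0 1
      = (κ / 2) * circleAverage (fun u => ∑ i, ∑ j, ‖(w i j).eval (χ u)⁻¹‖ ^ 2) 0 1
        + (M ^ 2 / (2 * κ)) * circleAverage (fun u => ∑ i, ∑ j, ‖a i j u‖ ^ 2) 0 1 := by
    rw [← avg_cmul, ← avg_cmul]
    have h6 : ContinuousOn (fun u => (κ / 2) * ∑ i, ∑ j, ‖(w i j).eval (χ u)⁻¹‖ ^ 2)
      (sphere 0 1) := continuousOn_const.mul hWc2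
    have h7 : ContinuousOn (fun u => (M ^ 2 / (2 * κ)) * ∑ i, ∑ j, ‖a i j u‖ ^ 2)
      (sphere 0 1) := continuousOn_const.mul hAc
    rw [← avg_add h6 h7]
    congr 1
    funext u
    field_simp
  rw [h5] at h2
  have h8 : κ * S ≤ (κ / 2) * S + (M ^ 2 / (2 * κ)) *
      circleAverage (fun u => ∑ i, ∑ j, ‖a i j u‖ ^ 2) 0 1 := by
    refine h2.trans ?_
    gcongr
  have h9 : (κ / 2) * S ≤ (M ^ 2 / (2 * κ)) *
      circleAverage (fun u => ∑ i, ∑ j, ‖a i j u‖ ^ 2) 0 1 := by linarith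
  have h10 := mul_le_mul_of_nonneg_left h9 (by positivity : (0:ℝ) ≤ 2 * κ)
  have e1 : 2 * κ * ((κ / 2) * S) = κ ^ 2 * S := by ring
  have e2 : 2 * κ * ((M ^ 2 / (2 * κ)) *
      circleAverage (fun u => ∑ i, ∑ j, ‖a i j u‖ ^ 2) 0 1)
      = M ^ 2 * circleAverage (fun u => ∑ i, ∑ j, ‖a i j u‖ ^ 2) 0 1 := by
    field_simp
  rw [e1, e2] at h10
  exact h10

omit h hA in
lemma res_commute (u : ℂ) : Commute (Res χ A u) A := by
  rw [Res]
  apply Commute.smul_left
  have h1 : Commute (1 - χ u • A) A :=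
    Commute.sub_left (Commute.one_left A) ((Commute.refl A).smul_left _)
  by_cases hx : IsUnit (1 - χ u • A)
  · obtain ⟨x, hx⟩ := hx
    rw [← hx] at h1 ⊢
    rw [Ring.inverse_unit]
    exact h1.units_inv_left
  · rw [Ring.inverse_non_unit _ hx]
    exact Commute.zero_left _

omit h hA in
lemma res_commute_aeval (u : ℂ) (w : Polynomial ℂ) : Commute (Res χ A u) (aeval A w) := by
  induction w using Polynomial.induction_on' with
  | add p q hp hq => rw [map_add]; exact hp.add_right hq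
  | monomial n a =>
    rw [aeval_monomial]
    apply Commute.mul_right
    · exact (Algebra.commutes a _).symm
    · exact (res_commute A u).pow_right n

/-- the operators given by the functional calculus commute with polynomials in `A` -/
lemma X_commute (F : ℂ → ℂ) (hF : ContinuousOn F (sphere 0 1)) (X : E →L[ℂ] E)
    (hX : X = circleAverage (fun u : ℂ => F u • Res χ A u) 0 1) (w : Polynomial ℂ) :
    aeval A w * X = X * aeval A w := by
  have hc : ContinuousOn (fun u => F u • Res χ A u) (sphere 0 1) := hF.smul (res_cont h A hA)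
  ext y
  apply ext_inner_left ℂ
  intro x
  change inner ℂ x (aeval A w (X y)) = inner ℂ x (X (aeval A w y))
  rw [hX, ← avg_Lxy x (aeval A w y) hc, ← ContinuousLinearMap.adjoint_inner_left,
    ← avg_Lxy _ y hc]
  congr 1
  funext u
  rw [ContinuousLinearMap.adjoint_inner_left]
  congr 1
  simp only [ContinuousLinearMap.smul_apply, map_smul]
  congr 1
  have := congrArg (fun T => T y) (res_commute_aeval (χ := χ) A u w).eq
  simpa using this.symm

end

end MainAux

open MainAux in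
/-- T5: the main inequality. -/
theorem main_ineq {E : Type*} [NormedAddCommGroup E] [InnerProductSpace ℂ E] [CompleteSpace E]
    [FiniteDimensional ℂ E] {χ : ℂ → ℂ} {R : ℝ} (h : Ext χ R) (A : E →L[ℂ] E)
    (hA : ∀ u ∈ ball (0 : ℂ) R, IsUnit (1 - χ u • A))
    (hpos : ∀ u : ℂ, ‖u‖ = 1 → ∀ x : E, 0 ≤ (inner ℂ x (Res χ A u x)).re)
    (m : ℕ) (F : ℂ → Matrix (Fin m) (Fin m) ℂ) (hF : ∀ i j, ContinuousOn (fun u => F u i j) (sphere 0 1))
    (M : ℝ) (hM : ∀ u : ℂ, ‖u‖ = 1 → ‖Matrix.toEuclideanCLM (n := Fin m) (𝕜 := ℂ) (F u)‖ ≤ M)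
    (X : Fin m → Fin m → E →L[ℂ] E)
    (hX : ∀ i j (w : Polynomial ℂ), X i j * aeval A w
      = Real.circleAverage (fun u : ℂ => (F u i j * w.eval (χ u)⁻¹) • Res χ A u) 0 1)
    (v : Fin m → E) :
    ∑ i, ‖∑ j, X i j (v j)‖ ^ 2 ≤ (2 * M) ^ 2 * ∑ j, ‖v j‖ ^ 2 := by
  classical
  have hM0 : 0 ≤ M := (norm_nonneg _).trans (hM 1 (by simp))
  let Xop : PiLp 2 (fun _ : Fin m => E) →ₗ[ℂ] PiLp 2 (fun _ : Fin m => E) :=
    { toFun := fun y => WithLp.toLp 2 (fun i => ∑ j, X i j (y j))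
      map_add' := by
        intro x y
        ext i
        simp [Finset.sum_add_distrib]
      map_smul' := by
        intro c x
        ext i
        simp [Finset.smul_sum] }
  set T : PiLp 2 (fun _ : Fin m => E) →L[ℂ] PiLp 2 (fun _ : Fin m => E) :=
    LinearMap.toContinuousLinearMap Xop with hTdef
  have hT : ∀ y i, (T y) i = ∑ j, X i j (y j) := fun y i => rfl
  have hnorm : ∀ y : PiLp 2 (fun _ : Fin m => E), ‖y‖ ^ 2 = ∑ i, ‖y i‖ ^ 2 := fun y =>
    PiLp.norm_sq_eq_of_L2 _ y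
  suffices hgoal : ∀ y, ‖T y‖ ≤ 2 * M * ‖y‖ by
    have h1 := hgoal (WithLp.toLp 2 v)
    have h2 := pow_le_pow_left₀ (norm_nonneg _) h1 2
    rw [hnorm, mul_pow, hnorm] at h2
    simpa [hT] using h2
  by_cases htriv : ∀ y : PiLp 2 (fun _ : Fin m => E), y = 0
  · intro y
    rw [htriv y]
    simp
  rw [not_forall] at htriv
  obtain ⟨y0, hy0⟩ := htriv
  have : Nontrivial (PiLp 2 (fun _ : Fin m => E)) := ⟨y0, 0, hy0⟩
  have : ProperSpace (PiLp 2 (fun _ : Fin m => E)) := FiniteDimensional.proper ℂ _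
  obtain ⟨η, hη, hmax⟩ := (isCompact_sphere (0 : PiLp 2 (fun _ : Fin m => E)) 1).exists_isMaxOn
    (NormedSpace.sphere_nonempty.2 zero_le_one) (f := fun y => ‖T y‖) T.continuous.norm.continuousOn
  have hη1 : ‖η‖ = 1 := by simpa using hη
  set κ : ℝ := ‖T η‖ with hκdef
  have hκ0 : 0 ≤ κ := norm_nonneg _
  have hle : ∀ y, ‖T y‖ ≤ κ * ‖y‖ := by
    intro y
    by_cases hy : y = 0
    · simp [hy]
    have hy' : ‖y‖ ≠ 0 := norm_ne_zero_iff.2 hy
    have h1 : (((‖y‖ : ℂ)⁻¹) • y) ∈ sphere (0 : PiLp 2 (fun _ : Fin m => E)) 1 := by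
      simp [norm_smul, hy']
    have h2 : ‖T (((‖y‖ : ℂ)⁻¹) • y)‖ ≤ κ := hmax h1
    rw [map_smul, norm_smul] at h2
    have h3 : ‖((‖y‖ : ℂ)⁻¹)‖ = ‖y‖⁻¹ := by simp
    rw [h3, inv_mul_le_iff₀ (by positivity)] at h2
    linarith
  suffices hκM : κ ≤ 2 * M by
    intro y
    exact (hle y).trans (mul_le_mul_of_nonneg_right hκM (norm_nonneg _))
  rcases hκ0.eq_or_lt with hκz | hκ
  · rw [← hκz]; positivity
  -- top singular vectors
  set ξ : PiLp 2 (fun _ : Fin m => E) := ((κ : ℂ)⁻¹) • T η with hξ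
  have hκc : (κ : ℂ) ≠ 0 := by exact_mod_cast hκ.ne'
  have hTη : T η = (κ : ℂ) • ξ := by
    rw [hξ, smul_smul, mul_inv_cancel₀ hκc, one_smul]
  have hξ1 : ‖ξ‖ = 1 := by
    rw [hξ, norm_smul, ← hκdef]
    simp [hκ.ne', abs_of_pos hκ]
  have hTn : ‖T‖ ≤ κ := T.opNorm_le_bound hκ0 hle
  have hadj : ∀ y, inner ℂ ξ (T y) = κ * inner ℂ η y := by
    have h1 : ContinuousLinearMap.adjoint T ξ = (κ : ℂ) • η := by
      rw [← sub_eq_zero, ← norm_eq_zero, ← sq_eq_zero_iff]
      apply le_antisymm _ (sq_nonneg _)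
      rw [@norm_sub_sq ℂ]
      have h2 : inner ℂ (ContinuousLinearMap.adjoint T ξ) ((κ : ℂ) • η) = (κ : ℂ) ^ 2 := by
        rw [ContinuousLinearMap.adjoint_inner_left, map_smul, hTη, inner_smul_right,
          inner_smul_right, inner_self_eq_norm_sq_to_K, hξ1]
        simp
        ring
      rw [h2]
      have h3 : ‖ContinuousLinearMap.adjoint T ξ‖ ≤ κ := by
        refine (ContinuousLinearMap.le_opNorm _ _).trans ?_
        rw [hξ1, mul_one, LinearIsometryEquiv.norm_map]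
        exact hTn
      have h4 : ‖((κ : ℂ) • η)‖ = κ := by
        rw [norm_smul, hη1]; simp [abs_of_pos hκ]
      rw [h4]
      have h5 : RCLike.re ((κ : ℂ) ^ 2) = κ ^ 2 := by
        rw [← Complex.ofReal_pow]
        exact Complex.ofReal_re _
      rw [h5]
      have := pow_le_pow_left₀ (norm_nonneg _) h3 2
      linarith
    intro y
    rw [← ContinuousLinearMap.adjoint_inner_left, h1, inner_smul_left]
    simp
  have hadj2 : ∀ y : PiLp 2 (fun _ : Fin m => E),
      ∑ i, inner ℂ (ξ i) (∑ k, X i k (y k)) = κ * ∑ i, inner ℂ (η i) (y i) := by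
    intro y
    have := hadj y
    rw [PiLp.inner_apply, PiLp.inner_apply] at this
    exact this
  have hξη : ∀ j, (κ : ℂ) • ξ j = ∑ k, X j k (η k) := by
    intro j
    rw [← hT, hTη]
    simp
  -- the function a
  set a : Fin m → Fin m → ℂ → ℂ := fun i j => fxy χ A (ξ i) (η j) with ha
  have hac : ∀ i j, ContinuousOn (a i j) (sphere 0 1) := fun i j => fxy_cont h A hA _ _
  have hGc : ∀ (w : Polynomial ℂ), ContinuousOn (fun u => w.eval (χ u)⁻¹) (sphere 0 1) :=
    fun w => w.continuous.comp_continuousOn (inv_cont h)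
  have hXav : ∀ i j (w : Polynomial ℂ) (x y : E), inner ℂ x ((X i j) (aeval A w y))
      = Real.circleAverage (fun u => F u i j * w.eval (χ u)⁻¹ * fxy χ A x y u) 0 1 := by
    intro i j w x y
    have h1 : (X i j) (aeval A w y) = (X i j * aeval A w) y := rfl
    rw [h1, hX, ← avg_Lxy]
    · congr 1
      funext u
      rw [ContinuousLinearMap.smul_apply, inner_smul_right]
      rfl
    · exact ((hF i j).mul (hGc w)).smul (res_cont h A hA)
  have hXcomm : ∀ i j (w : Polynomial ℂ), aeval A w * X i j = X i j * aeval A w := by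
    intro i j w
    apply X_commute h A hA (fun u => F u i j) (hF i j)
    have := hX i j 1
    simpa using this
  have hbil : ∀ (c d : Fin m → Fin m → ℂ) (u : ℂ), ‖u‖ = 1 →
      ‖∑ i, ∑ j, ∑ k, F u i k * c k j * d i j‖ ≤
        (κ * (∑ i, ∑ j, ‖c i j‖ ^ 2) + M ^ 2 / κ * (∑ i, ∑ j, ‖d i j‖ ^ 2)) / 2 := by
    intro c d u hu
    exact amgm hκ (by positivity) (by positivity) (bil (F u) M (hM u hu) c d)
  have hbil' : ∀ (c d : Fin m → Fin m → ℂ) (u : ℂ), ‖u‖ = 1 →
      ‖∑ i, ∑ j, ∑ k, F u i k * c k j * d i j‖ ≤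
        (κ * (∑ i, ∑ j, ‖d j i‖ ^ 2) + M ^ 2 / κ * (∑ i, ∑ j, ‖c j i‖ ^ 2)) / 2 := by
    intro c d u hu
    apply amgm hκ (by positivity) (by positivity)
    have := bil (F u) M (hM u hu) c d
    rw [Finset.sum_comm (f := fun i j => ‖d j i‖ ^ 2), Finset.sum_comm (f := fun i j => ‖c j i‖ ^ 2),
      mul_comm (∑ i, ∑ j, ‖d i j‖ ^ 2)]
    exact this
  have hAc : ContinuousOn (fun u => ∑ i, ∑ j, ‖a i j u‖ ^ 2) (sphere 0 1) :=
    continuousOn_finsetSum _ (fun i _ => continuousOn_finsetSum _ (fun j _ =>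
      (hac i j).norm.pow 2))
  -- first estimate
  have hP := key h A hA (fun i => η i) κ M hκ a hac (by
    intro w
    have e1 : κ * ‖∑ i, ∑ j, inner ℂ (η i) (aeval A (w i j) (η j))‖
      = ‖∑ i, inner ℂ (ξ i) (∑ k, X i k (∑ j, aeval A (w k j) (η j)))‖ := by
      have := hadj2 (WithLp.toLp 2 (fun i => ∑ j, aeval A (w i j) (η j)))
      simp only at this
      rw [this, norm_mul]
      simp only [inner_sum]
      simp [abs_of_pos hκ]
    have e2 : ∑ i, inner ℂ (ξ i) (∑ k, X i k (∑ j, aeval A (w k j) (η j)))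
      = Real.circleAverage (fun u => ∑ i, ∑ j, ∑ k, F u i k * (w k j).eval (χ u)⁻¹ * a i j u)
        0 1 := by
      have hc : ∀ i j k, ContinuousOn (fun u => F u i k * (w k j).eval (χ u)⁻¹ * a i j u)
        (sphere 0 1) := fun i j k => ((hF i k).mul (hGc _)).mul (hac i j)
      rw [avg_sum (fun i _ => continuousOn_finsetSum _ (fun j _ => continuousOn_finsetSum _
        (fun k _ => hc i j k)))]
      refine Finset.sum_congr rfl fun i _ => ?_
      rw [avg_sum (fun j _ => continuousOn_finsetSum _ (fun k _ => hc i j k))]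
      simp only [map_sum, inner_sum]
      rw [Finset.sum_comm]
      refine Finset.sum_congr rfl fun j _ => ?_
      rw [avg_sum (fun k _ => hc i j k)]
      refine Finset.sum_congr rfl fun k _ => ?_
      rw [hXav]
    rw [e1, e2]
    apply norm_avg_le
    · apply ContinuousOn.div_const
      apply ContinuousOn.add
      · apply ContinuousOn.mul continuousOn_const
        exact continuousOn_finsetSum _ (fun i _ => continuousOn_finsetSum _ (fun j _ =>
          (hGc _).norm.pow 2))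
      · exact continuousOn_const.mul hAc
    · intro u hu
      exact hbil (fun k j => (w k j).eval (χ u)⁻¹) (fun i j => a i j u) u (by simpa using hu))
  have hQ := key h A hA (fun i => ξ i) κ M hκ a hac (by
    intro w
    have e1 : κ * ‖∑ i, ∑ j, inner ℂ (ξ i) (aeval A (w i j) (ξ j))‖
      = ‖∑ i, ∑ j, inner ℂ (ξ i) (aeval A (w i j) (∑ k, X j k (η k)))‖ := by
      simp only [← hξη, map_smul, inner_smul_right, ← Finset.mul_sum]
      rw [norm_mul]
      simp [abs_of_pos hκ]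
    have e2 : ∑ i, ∑ j, inner ℂ (ξ i) (aeval A (w i j) (∑ k, X j k (η k)))
      = Real.circleAverage (fun u => ∑ j, ∑ i, ∑ k, F u j k * a i k u * (w i j).eval (χ u)⁻¹)
        0 1 := by
      have hc : ∀ i j k, ContinuousOn (fun u => F u j k * a i k u * (w i j).eval (χ u)⁻¹)
        (sphere 0 1) := fun i j k => ((hF j k).mul (hac i k)).mul (hGc _)
      rw [avg_sum (fun j _ => continuousOn_finsetSum _ (fun i _ => continuousOn_finsetSum _
        (fun k _ => hc i j k)))]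
      rw [Finset.sum_comm]
      refine Finset.sum_congr rfl fun j _ => ?_
      rw [avg_sum (fun i _ => continuousOn_finsetSum _ (fun k _ => hc i j k))]
      refine Finset.sum_congr rfl fun i _ => ?_
      rw [avg_sum (fun k _ => hc i j k)]
      simp only [map_sum, inner_sum]
      refine Finset.sum_congr rfl fun k _ => ?_
      have h1 : aeval A (w i j) (X j k (η k)) = X j k (aeval A (w i j) (η k)) := by
        have := congrArg (fun T => T (η k)) (hXcomm j k (w i j))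
        simpa using this
      rw [h1, hXav]
      congr 1
      funext u
      ring
    rw [e1, e2]
    apply norm_avg_le
    · apply ContinuousOn.div_const
      apply ContinuousOn.add
      · apply ContinuousOn.mul continuousOn_const
        exact continuousOn_finsetSum _ (fun i _ => continuousOn_finsetSum _ (fun j _ =>
          (hGc _).norm.pow 2))
      · exact continuousOn_const.mul hAc
    · intro u hu
      exact hbil' (fun k i => a i k u) (fun j i => (w i j).eval (χ u)⁻¹) u (by simpa using hu))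
  -- combination
  set P := Real.circleAverage (fun u => ∑ i, ∑ j,
      ‖(fxy χ A (η i) (η j) u + conj (fxy χ A (η j) (η i) u)) / 2‖ ^ 2) 0 1 with hPdef
  set Q := Real.circleAverage (fun u => ∑ i, ∑ j,
      ‖(fxy χ A (ξ i) (ξ j) u + conj (fxy χ A (ξ j) (ξ i) u)) / 2‖ ^ 2) 0 1 with hQdef
  set Aa := Real.circleAverage (fun u => ∑ i, ∑ j, ‖a i j u‖ ^ 2) 0 1 with hAa
  have hcc : ∀ x y : E, ContinuousOn (fun u =>
      ‖(fxy χ A x y u + conj (fxy χ A y x u)) / 2‖ ^ 2) (sphere 0 1) := by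
    intro x y
    apply ContinuousOn.pow
    apply ContinuousOn.norm
    apply ContinuousOn.div_const
    exact (fxy_cont h A hA _ _).add
      (Complex.continuous_conj.comp_continuousOn (fxy_cont h A hA _ _))
  have hcc2 : ∀ x y : Fin m → E, ContinuousOn (fun u => ∑ i, ∑ j,
      ‖(fxy χ A (x i) (y j) u + conj (fxy χ A (y j) (x i) u)) / 2‖ ^ 2) (sphere 0 1) := fun x y =>
    continuousOn_finsetSum _ (fun i _ => continuousOn_finsetSum _ (fun j _ => hcc _ _))
  set C := Real.circleAverage (fun u => ∑ i, ∑ j,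
      ‖(fxy χ A (ξ i) (η j) u + conj (fxy χ A (η j) (ξ i) u)) / 2‖ ^ 2) 0 1 with hC
  have hCPQ : 2 * C ≤ Q + P := by
    rw [hC, hPdef, hQdef, ← avg_cmul,
      ← avg_add (hcc2 (fun i => ξ i) (fun i => ξ i)) (hcc2 (fun i => η i) (fun i => η i))]
    apply avg_mono (continuousOn_const.mul (hcc2 (fun i => ξ i) (fun i => η i)))
      ((hcc2 (fun i => ξ i) (fun i => ξ i)).add (hcc2 (fun i => η i) (fun i => η i)))
    intro u hu
    have h1 := schur_ineq _ (psd_of_re_nonneg (Res χ A u) (hpos u (by simpa using hu))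
      (Sum.elim (fun i => ξ i) (fun i => η i)))
    simpa [fxy] using h1
  have hCA : (1 / 4) * Aa ≤ C := by
    rw [hC, hAa]
    have hac2 : ∀ i j, ContinuousOn (fun u => ‖a i j u‖ ^ 2) (sphere 0 1) := fun i j =>
      (hac i j).norm.pow 2
    rw [avg_sum (fun i _ => continuousOn_finsetSum _ (fun j _ => hcc _ _)),
      avg_sum (fun i _ => continuousOn_finsetSum _ (fun j _ => hac2 i j)),
      Finset.mul_sum]
    refine Finset.sum_le_sum fun i _ => ?_
    rw [avg_sum (fun j _ => hcc _ _), avg_sum (fun j _ => hac2 i j), Finset.mul_sum]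
    refine Finset.sum_le_sum fun j _ => ?_
    rw [avg_pair h.hR (fxy_diff h A hA _ _) (fxy_diff h A hA _ _), fxy_zero h A hA,
      fxy_zero h A hA]
    have h1 : 0 ≤ Real.circleAverage (fun u => ‖fxy χ A (η j) (ξ i) u‖ ^ 2) 0 1 :=
      Real.circleAverage_nonneg_of_nonneg (fun _ _ => by positivity)
    have h2 : (inner ℂ (ξ i) (η j) * inner ℂ (η j) (ξ i)).re = ‖inner ℂ (ξ i) (η j)‖ ^ 2 := by
      rw [← inner_conj_symm (η j) (ξ i), Complex.mul_conj, Complex.normSq_eq_norm_sq,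
        Complex.ofReal_re]
    rw [h2]
    have h3 := sq_nonneg (‖inner ℂ (ξ i) (η j)‖)
    have h4 : Real.circleAverage (fun u => ‖fxy χ A (ξ i) (η j) u‖ ^ 2) 0 1
      = Real.circleAverage (fun u => ‖a i j u‖ ^ 2) 0 1 := rfl
    rw [h4]
    linarith
  have hPpos : 0 < P := by
    rw [hPdef, hs_id h A hA (fun i => η i)]
    obtain ⟨i0, hi0⟩ : ∃ i, η i ≠ 0 := by
      by_contra hcon
      simp only [not_exists, not_not] at hcon
      have : ‖η‖ ^ 2 = 0 := by
        rw [hnorm]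
        simp [hcon]
      rw [hη1] at this
      norm_num at this
    have hterm : ∀ i j, 0 ≤ ((1 / 2) * ‖inner ℂ (η i) (η j)‖ ^ 2
        + (1 / 2) * Real.circleAverage (fun u => ‖fxy χ A (η i) (η j) u‖ ^ 2) 0 1) := by
      intro i j
      have : 0 ≤ Real.circleAverage (fun u => ‖fxy χ A (η i) (η j) u‖ ^ 2) 0 1 :=
        Real.circleAverage_nonneg_of_nonneg (fun _ _ => by positivity)
      positivity
    apply Finset.sum_pos' (fun i _ => Finset.sum_nonneg (fun j _ => hterm i j))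
    refine ⟨i0, Finset.mem_univ _, ?_⟩
    apply Finset.sum_pos' (fun j _ => hterm i0 j)
    refine ⟨i0, Finset.mem_univ _, ?_⟩
    have h1 : 0 ≤ Real.circleAverage (fun u => ‖fxy χ A (η i0) (η i0) u‖ ^ 2) 0 1 :=
        Real.circleAverage_nonneg_of_nonneg (fun _ _ => by positivity)
    have h2 : 0 < ‖inner ℂ (η i0) (η i0)‖ := by
      rw [norm_pos_iff]
      simpa using hi0
    positivity
  have hAapos : 0 < Aa := by
    by_contra hcon
    rw [not_lt] at hcon
    have h1 : M ^ 2 * Aa ≤ 0 := mul_nonpos_of_nonneg_of_nonpos (sq_nonneg _) hcon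
    have h2 : 0 < κ ^ 2 * P := by positivity
    linarith
  have hfin : κ ^ 2 ≤ (2 * M) ^ 2 := by
    have h1 : κ ^ 2 * (2 * C) ≤ κ ^ 2 * (Q + P) := by gcongr
    have h2 : κ ^ 2 * ((1 / 4) * Aa) ≤ κ ^ 2 * C := by gcongr
    have h3 : κ ^ 2 * Aa ≤ (2 * M) ^ 2 * Aa := by nlinarith
    exact le_of_mul_le_mul_right h3 hAapos
  exact abs_le_of_sq_le_sq' hfin (by positivity) |>.2

end Crest.Agent.H23
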