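import Crest.Agent.H23.Defs

/-! Row 132, T6: the Toeplitz–Hausdorff theorem. -/

set_option autoImplicit false

open Metric Set

namespace Crest.Agent.H23

section TH
variable {E : Type*} [NormedAddCommGroup E] [InnerProductSpace ℂ E]

namespace TH

/-- phase choice -/
theorem exists_phase (p q : ℂ) : ∃ c : ℂ, ‖c‖ = 1 ∧ (c * p + (starRingEnd ℂ) c * q).im = 0 := by
  by_cases h : p - (starRingEnd ℂ) q = 0
  · refine ⟨1, by simp, ?_⟩
    have h1 : p = (starRingEnd ℂ) q := sub_eq_zero.mp h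
    rw [h1]
    simp
  · refine ⟨(starRingEnd ℂ) (p - (starRingEnd ℂ) q) / ‖p - (starRingEnd ℂ) q‖, ?_, ?_⟩
    · rw [norm_div, RCLike.norm_conj]
      simp only [Complex.norm_real, norm_norm]
      exact div_self (norm_ne_zero_iff.mpr h)
    · have key : ∀ c : ℂ, (c * p + (starRingEnd ℂ) c * q).im =
          (c * (p - (starRingEnd ℂ) q)).im := by
        intro c
        simp only [Complex.add_im, Complex.mul_im, Complex.conj_re, Complex.conj_im,
          Complex.sub_im, Complex.sub_re]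
        ring
      rw [key, div_mul_eq_mul_div, ← Complex.normSq_eq_conj_mul_self]
      rw [← Complex.ofReal_div]
      exact Complex.ofReal_im _

/-- the normalised case -/
theorem normalised (B : E →L[ℂ] E) (x y : E) (hx : ‖x‖ = 1) (hy : ‖y‖ = 1)
    (h0 : inner ℂ x (B x) = (0 : ℂ)) (h1 : inner ℂ y (B y) = (1 : ℂ)) (b : ℝ) (hb0 : 0 ≤ b)
    (hb1 : b ≤ 1) : ∃ z : E, ‖z‖ = 1 ∧ inner ℂ z (B z) = (b : ℂ) := by
  obtain ⟨c, hc, him⟩ := exists_phase (inner ℂ x (B y)) (inner ℂ y (B x))
  have hcc : (starRingEnd ℂ) c * c = 1 := by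
    rw [Complex.conj_mul', hc]
    simp
  set y' : E := c • y with hy'
  have hy'1 : inner ℂ y' (B y') = (1 : ℂ) := by
    rw [hy', map_smul, inner_smul_left, inner_smul_right, h1, mul_one, hcc]
  have hcross : (inner ℂ x (B y') + inner ℂ y' (B x) : ℂ).im = 0 := by
    rw [hy', map_smul, inner_smul_left, inner_smul_right]
    exact him
  let zt : ℝ → E := fun t => ((1 - t : ℝ) : ℂ) • x + ((t : ℝ) : ℂ) • y'
  have hQ : ∀ t : ℝ, inner ℂ (zt t) (B (zt t)) =
      ((t ^ 2 + (1 - t) * t * (inner ℂ x (B y') + inner ℂ y' (B x) : ℂ).re : ℝ) : ℂ) := by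
    intro t
    have e1 : inner ℂ (zt t) (B (zt t)) = ((t : ℂ)) ^ 2 + (1 - (t : ℂ)) * t *
        (inner ℂ x (B y') + inner ℂ y' (B x) : ℂ) := by
      simp only [zt, map_add, map_smul, inner_add_left, inner_add_right, inner_smul_left,
        inner_smul_right, h0, hy'1, Complex.conj_ofReal]
      push_cast
      ring
    have e2 : (inner ℂ x (B y') + inner ℂ y' (B x) : ℂ) =
        (((inner ℂ x (B y') + inner ℂ y' (B x) : ℂ).re : ℝ) : ℂ) := by
      apply Complex.ext
      · simp
      · rw [hcross]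
        simp
    rw [e1]
    conv_lhs => rw [e2]
    push_cast
    ring
  have hne : ∀ t : ℝ, zt t ≠ 0 := by
    intro t ht
    have e1 : ((1 - t : ℝ) : ℂ) • x = -(((t : ℝ) : ℂ) • y') := eq_neg_of_add_eq_zero_left ht
    have hy'n : ‖y'‖ = 1 := by rw [hy', norm_smul, hc, hy, one_mul]
    have e2 : |1 - t| = |t| := by
      have := congrArg norm e1
      rw [norm_neg, norm_smul, norm_smul, hx, hy'n, mul_one, mul_one, Complex.norm_real,
        Complex.norm_real, Real.norm_eq_abs, Real.norm_eq_abs] at this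
      exact this
    have e3 : t = 1 / 2 := by
      rcases abs_eq_abs.mp e2 with h | h
      · linarith
      · linarith
    have e4 : x = -y' := by
      rw [e3] at e1
      have e5 : ((1 - 1 / 2 : ℝ) : ℂ) = (1 / 2 : ℂ) := by push_cast; norm_num
      have e6 : ((1 / 2 : ℝ) : ℂ) = (1 / 2 : ℂ) := by push_cast; rfl
      rw [e5, e6, ← smul_neg] at e1
      exact smul_right_injective E (by norm_num : (1 / 2 : ℂ) ≠ 0) e1
    have e7 : inner ℂ x (B x) = (1 : ℂ) := by
      rw [e4, map_neg, inner_neg_left, inner_neg_right, neg_neg, hy'1]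
    rw [h0] at e7
    exact zero_ne_one e7
  have hcont : Continuous zt := by
    apply Continuous.add
    · exact (Complex.continuous_ofReal.comp (continuous_const.sub continuous_id)).smul
        continuous_const
    · exact Complex.continuous_ofReal.smul continuous_const
  let g : ℝ → ℝ := fun t =>
    (t ^ 2 + (1 - t) * t * (inner ℂ x (B y') + inner ℂ y' (B x) : ℂ).re) / ‖zt t‖ ^ 2
  have hg : ContinuousOn g (Icc 0 1) := by
    apply Continuous.continuousOn
    apply Continuous.div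
    · fun_prop
    · exact (continuous_norm.comp hcont).pow 2
    · intro t
      exact pow_ne_zero 2 (norm_ne_zero_iff.mpr (hne t))
  have hg0 : g 0 = 0 := by simp [g]
  have hg1 : g 1 = 1 := by
    have hy'n : ‖y'‖ = 1 := by rw [hy', norm_smul, hc, hy, one_mul]
    simp [g, zt, hy'n]
  have hmem : b ∈ Icc (g 0) (g 1) := by
    rw [hg0, hg1]
    exact ⟨hb0, hb1⟩
  obtain ⟨t, _, ht⟩ := intermediate_value_Icc (zero_le_one) hg hmem
  have hnt : (‖zt t‖ : ℝ) ≠ 0 := norm_ne_zero_iff.mpr (hne t)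
  refine ⟨((‖zt t‖⁻¹ : ℝ) : ℂ) • zt t, ?_, ?_⟩
  · rw [norm_smul, Complex.norm_real, Real.norm_eq_abs, abs_inv, abs_norm]
    exact inv_mul_cancel₀ hnt
  · rw [map_smul, inner_smul_left, inner_smul_right, hQ t, Complex.conj_ofReal, ← ht]
    simp only [g]
    rw [← Complex.ofReal_mul, ← Complex.ofReal_mul]
    congr 1
    field_simp

end TH

/-- T6: Toeplitz–Hausdorff. -/
theorem toeplitz_hausdorff (A : E →L[ℂ] E) :
    Convex ℝ {z : ℂ | ∃ x : E, ‖x‖ = 1 ∧ z = inner ℂ x (A x)} := by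
  intro z₁ hz₁ z₂ hz₂ a b ha hb hab
  obtain ⟨x, hx, hxz⟩ := hz₁
  obtain ⟨y, hy, hyz⟩ := hz₂
  by_cases h : z₂ = z₁
  · refine ⟨x, hx, ?_⟩
    rw [h, ← add_smul, hab, one_smul, hxz]
  · have hne : z₂ - z₁ ≠ 0 := sub_ne_zero.mpr h
    let B : E →L[ℂ] E := (z₂ - z₁)⁻¹ • (A - z₁ • (1 : E →L[ℂ] E))
    have hB : ∀ u : E, inner ℂ u (B u) = (z₂ - z₁)⁻¹ * (inner ℂ u (A u) - z₁ * (‖u‖ : ℂ) ^ 2) := by
      intro u
      simp only [B]
      rw [ContinuousLinearMap.smul_apply, ContinuousLinearMap.sub_apply,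
        ContinuousLinearMap.smul_apply, ContinuousLinearMap.one_apply, inner_smul_right,
        inner_sub_right, inner_smul_right, inner_self_eq_norm_sq_to_K]
      rfl
    have h0 : inner ℂ x (B x) = (0 : ℂ) := by
      rw [hB, ← hxz, hx]
      simp
    have h1 : inner ℂ y (B y) = (1 : ℂ) := by
      rw [hB, ← hyz, hy]
      simp only [Complex.ofReal_one, one_pow, mul_one]
      exact inv_mul_cancel₀ hne
    obtain ⟨z, hz, hzb⟩ := TH.normalised B x y hx hy h0 h1 b hb (by linarith)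
    refine ⟨z, hz, ?_⟩
    rw [hB, hz] at hzb
    simp only [Complex.ofReal_one, one_pow, mul_one] at hzb
    have e1 : inner ℂ z (A z) - z₁ = (z₂ - z₁) * b := by
      rw [← hzb, ← mul_assoc, mul_inv_cancel₀ hne, one_mul]
    have e2 : inner ℂ z (A z) = z₁ + (z₂ - z₁) * b := by
      rw [← e1]
      ring
    rw [e2]
    have ha' : (a : ℂ) = 1 - b := by
      have : a = 1 - b := by linarith
      rw [this]
      push_cast
      rfl
    rw [Complex.real_smul, Complex.real_smul, ha']
    ring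

end TH

end Crest.Agent.H23
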