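import Crest.Agent.H23.Defs
import Crest.Agent.H23.Calc
import Crest.Agent.H23.ExtOp
import Crest.Agent.H23.TH
import Crest.Agent.H23.Level
import Crest.Agent.H23.Main

set_option autoImplicit false
set_option linter.unusedSectionVars false

open Metric Set Polynomial

namespace Crest.Agent.H23

namespace Asm179

/-- the polynomial entries of `P(z) = ∑ z^k B_k`. -/
noncomputable def ent {m d : ℕ} (B : Fin (d + 1) → Matrix (Fin m) (Fin m) ℂ) (i j : Fin m) :
    Polynomial ℂ := ∑ k : Fin (d + 1), C (B k i j) * X ^ (k : ℕ)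

lemma ent_eval {m d : ℕ} (B : Fin (d + 1) → Matrix (Fin m) (Fin m) ℂ) (z : ℂ) :
    (Matrix.of fun i j => (ent B i j).eval z) = ∑ k : Fin (d + 1), z ^ (k : ℕ) • B k := by
  ext i j
  simp only [ent, Matrix.of_apply, eval_finsetSum, eval_mul, eval_C, eval_pow, eval_X,
    Matrix.sum_apply, Matrix.smul_apply, smul_eq_mul]
  exact Finset.sum_congr rfl fun k _ => mul_comm _ _

section
variable {E : Type*} [NormedAddCommGroup E] [InnerProductSpace ℂ E] [CompleteSpace E]

lemma ent_aeval {m d : ℕ} (B : Fin (d + 1) → Matrix (Fin m) (Fin m) ℂ) (A : E →L[ℂ] E)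
    (i j : Fin m) (x : E) :
    (aeval A (ent B i j)) x = ∑ k : Fin (d + 1), B k i j • (A ^ (k : ℕ)) x := by
  simp only [ent, map_sum, map_mul, aeval_C, map_pow, aeval_X, Algebra.algebraMap_eq_smul_one,
    smul_mul_assoc, one_mul, sum_apply, smul_apply]

/-- finite dimensional version with epsilon -/
theorem fd_eps [FiniteDimensional ℂ E] [Nontrivial E] (A : E →L[ℂ] E) (m d : ℕ)
    (B : Fin (d + 1) → Matrix (Fin m) (Fin m) ℂ) (M : ℝ)
    (hM : ∀ x : E, ‖x‖ = 1 →
      ‖Matrix.toEuclideanCLM (n := Fin m) (𝕜 := ℂ)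
          (∑ k : Fin (d + 1), (inner ℂ x (A x)) ^ (k : ℕ) • B k)‖ ≤ M)
    (v : Fin m → E) (ε : ℝ) (hε : 0 < ε) :
    ∑ i, ‖∑ j, ∑ k : Fin (d + 1), B k i j • (A ^ (k : ℕ)) (v j)‖ ^ 2
      ≤ (2 * (M + ε)) ^ 2 * ∑ j, ‖v j‖ ^ 2 := by
  classical
  set W : Set ℂ := {z : ℂ | ∃ x : E, ‖x‖ = 1 ∧ z = inner ℂ x (A x)} with hWdef
  have hWc : Convex ℝ W := toeplitz_hausdorff A
  have hWimg : W = (fun x : E => inner ℂ x (A x)) '' sphere 0 1 := by
    ext z
    simp only [hWdef, mem_ofPred_eq, mem_image, mem_sphere_zero_iff_norm]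
    constructor
    · rintro ⟨x, hx, rfl⟩; exact ⟨x, hx, rfl⟩
    · rintro ⟨x, hx, rfl⟩; exact ⟨x, hx, rfl⟩
  have : ProperSpace E := FiniteDimensional.proper ℂ E
  have hWk : IsCompact W := by
    rw [hWimg]
    refine (isCompact_sphere (0 : E) 1).image ?_
    exact continuous_id.inner A.continuous
  have hWne : W.Nonempty := by
    obtain ⟨x, hx⟩ := exists_norm_eq E (zero_le_one)
    exact ⟨_, x, hx, rfl⟩
  obtain ⟨c, hcW⟩ := hWne
  set Fz : ℂ → ℝ := fun z => ‖Matrix.toEuclideanCLM (n := Fin m) (𝕜 := ℂ)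
    (∑ k : Fin (d + 1), z ^ (k : ℕ) • B k)‖ with hFz
  have hFc : Continuous Fz := by
    have h1 : Continuous fun z : ℂ => (∑ k : Fin (d + 1), z ^ (k : ℕ) •
        Matrix.toEuclideanCLM (n := Fin m) (𝕜 := ℂ) (B k)) := by fun_prop
    have h2 : Fz = fun z => ‖(∑ k : Fin (d + 1), z ^ (k : ℕ) •
        Matrix.toEuclideanCLM (n := Fin m) (𝕜 := ℂ) (B k))‖ := by
      funext z
      simp only [hFz, map_sum, map_smul]
    rw [h2]
    exact h1.norm
  set V : Set ℂ := {z | Fz z < M + ε} with hV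
  have hVo : IsOpen V := isOpen_lt hFc continuous_const
  have hWV : W ⊆ V := by
    rintro z ⟨x, hx, rfl⟩
    show Fz _ < M + ε
    have := hM x hx
    simp only [hFz]
    linarith
  obtain ⟨δ, hδ, hδV⟩ := hWk.exists_cthickening_subset_open hVo hWV
  set K : Set ℂ := (fun z => z + c) ⁻¹' (cthickening δ W) with hK
  have hKc : IsCompact K := by
    have h1 : IsCompact (cthickening δ W) := hWk.cthickening
    have h2 : K = (fun z => z - c) '' (cthickening δ W) := by
      ext z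
      simp only [hK, mem_preimage, mem_image]
      constructor
      · intro h; exact ⟨z + c, h, by ring⟩
      · rintro ⟨y, hy, rfl⟩; simpa using hy
    rw [h2]
    exact h1.image (by fun_prop)
  have hKconv : Convex ℝ K := by
    have h1 : Convex ℝ (cthickening δ W) := hWc.cthickening δ
    exact h1.translate_preimage_left c
  have hK0 : (0 : ℂ) ∈ interior K := by
    have h1 : c ∈ thickening δ W := self_subset_thickening hδ W hcW
    have h2 : (fun z => z + c) ⁻¹' (thickening δ W) ⊆ K :=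
      preimage_mono (thickening_subset_cthickening δ W)
    have h3 : IsOpen ((fun z : ℂ => z + c) ⁻¹' (thickening δ W)) :=
      isOpen_thickening.preimage (by fun_prop)
    exact interior_maximal h2 h3 (by simpa using h1)
  set V' : Set ℂ := (fun z => z + c) ⁻¹' V with hV'
  have hVo' : IsOpen V' := hVo.preimage (by fun_prop)
  have hKV : K ⊆ V' := preimage_mono hδV
  obtain ⟨χ, R, hext, hK1, hV1, hK2⟩ := exists_ext K V' hKc hKconv hK0 hVo' hKV
  set A' : E →L[ℂ] E := A - c • 1 with hA'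
  have hW' : ∀ x : E, ‖x‖ = 1 → inner ℂ x (A' x) ∈ K := by
    intro x hx
    have h1 : inner ℂ x (A' x) + c = inner ℂ x (A x) := by
      simp only [hA', sub_apply, smul_apply,
        one_apply_eq_self, inner_sub_right, inner_smul_right,
        inner_self_eq_norm_sq_to_K, hx]
      simp
    show inner ℂ x (A' x) + c ∈ cthickening δ W
    rw [h1]
    exact self_subset_cthickening W ⟨x, hx, rfl⟩
  obtain ⟨hunit, hpos⟩ := ext_op hext hK1 hK2 A' hW'
  set w : Fin m → Fin m → Polynomial ℂ := fun i j => (ent B i j).comp (X + C c) with hw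
  have hAc : aeval A' (X + C c : Polynomial ℂ) = A := by
    rw [map_add, aeval_X, aeval_C, Algebra.algebraMap_eq_smul_one, hA']
    abel
  have hwA : ∀ i j, aeval A' (w i j) = aeval A (ent B i j) := by
    intro i j
    rw [hw, aeval_comp, hAc]
  have hmain := main_ineq hext A' hunit hpos m
    (fun u => Matrix.of fun i j => (w i j).eval (χ u)⁻¹)
    (by
      intro i j
      have hinvχ : ContinuousOn (fun u => (χ u)⁻¹) (sphere 0 1) := fun u hu =>
        (CalcAux.inv_chi_diffAt hext hu).continuousAt.continuousWithinAt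
      exact (w i j).continuous.comp_continuousOn hinvχ)
    (M + ε)
    (by
      intro u hu
      have h1 := hV1 u hu
      have h2 : Fz ((χ u)⁻¹ + c) < M + ε := h1
      have h3 : (Matrix.of fun i j => (w i j).eval (χ u)⁻¹)
          = ∑ k : Fin (d + 1), ((χ u)⁻¹ + c) ^ (k : ℕ) • B k := by
        rw [← ent_eval]
        ext i j
        simp [hw, eval_comp]
      rw [h3]
      exact h2.le)
    (fun i j => aeval A' (w i j))
    (by
      intro i j q
      rw [← map_mul, ← poly_calc hext A' hunit]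
      simp [eval_mul])
    v
  simp only [hwA, ent_aeval] at hmain
  exact hmain

/-- finite dimensional version. -/
theorem fd [FiniteDimensional ℂ E] (A : E →L[ℂ] E) (m d : ℕ)
    (B : Fin (d + 1) → Matrix (Fin m) (Fin m) ℂ) (M : ℝ)
    (hM : ∀ x : E, ‖x‖ = 1 →
      ‖Matrix.toEuclideanCLM (n := Fin m) (𝕜 := ℂ)
          (∑ k : Fin (d + 1), (inner ℂ x (A x)) ^ (k : ℕ) • B k)‖ ≤ M)
    (v : Fin m → E) :
    ∑ i, ‖∑ j, ∑ k : Fin (d + 1), B k i j • (A ^ (k : ℕ)) (v j)‖ ^ 2
      ≤ (2 * M) ^ 2 * ∑ j, ‖v j‖ ^ 2 := by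
  rcases subsingleton_or_nontrivial E with h | h
  · have hv : ∀ x : E, x = 0 := fun x => Subsingleton.elim _ _
    simp [hv]
  · have hlim : Filter.Tendsto (fun ε : ℝ => (2 * (M + ε)) ^ 2 * ∑ j, ‖v j‖ ^ 2)
        (nhdsWithin 0 (Ioi 0)) (nhds ((2 * (M + 0)) ^ 2 * ∑ j, ‖v j‖ ^ 2)) := by
      apply Filter.Tendsto.mono_left _ nhdsWithin_le_nhds
      have : Continuous fun ε : ℝ => (2 * (M + ε)) ^ 2 * ∑ j, ‖v j‖ ^ 2 := by fun_prop
      exact this.tendsto 0
    rw [add_zero] at hlim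
    refine ge_of_tendsto hlim ?_
    filter_upwards [self_mem_nhdsWithin] with ε hε
    exact fd_eps A m d B M hM v ε hε

end

/-- S0179 in general. -/
theorem main {H : Type*} [NormedAddCommGroup H] [InnerProductSpace ℂ H] [CompleteSpace H]
    (A : H →L[ℂ] H) (m d : ℕ) (B : Fin (d + 1) → Matrix (Fin m) (Fin m) ℂ) (M : ℝ)
    (hM : ∀ x : H, ‖x‖ = 1 →
      ‖Matrix.toEuclideanCLM (n := Fin m) (𝕜 := ℂ)
          (∑ k : Fin (d + 1), (inner ℂ x (A x)) ^ (k : ℕ) • B k)‖ ≤ M)
    (v : PiLp 2 (fun _ : Fin m => H)) :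
    ‖(WithLp.toLp 2 (fun i : Fin m => ∑ j : Fin m, ∑ k : Fin (d + 1), B k i j • (A ^ (k : ℕ)) (v j))
        : PiLp 2 (fun _ : Fin m => H))‖ ≤ 2 * M * ‖v‖ := by
  classical
  rcases subsingleton_or_nontrivial H with h | h
  · have hv : ∀ x : H, x = 0 := fun x => Subsingleton.elim _ _
    have hv0 : v = 0 := by
      ext i; exact hv _
    have h0 : (fun i : Fin m => ∑ j : Fin m, ∑ k : Fin (d + 1), B k i j • (A ^ (k : ℕ)) (v j)) = 0 := by
      funext i; exact hv _
    rw [h0, hv0]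
    simp
  have hM0 : 0 ≤ M := by
    obtain ⟨x, hx⟩ := exists_norm_eq H (zero_le_one)
    exact le_trans (norm_nonneg _) (hM x hx)
  -- the finite dimensional subspace
  set S : Set H := range (fun p : Fin (d + 1) × Fin m => (A ^ (p.1 : ℕ)) (v p.2)) with hS
  set E : Submodule ℂ H := Submodule.span ℂ S with hE
  have hfin : FiniteDimensional ℂ E := FiniteDimensional.span_of_finite ℂ (finite_range _)
  have hcomp : CompleteSpace E := FiniteDimensional.complete ℂ E
  have hmem : ∀ (k : ℕ) (j : Fin m), k ≤ d → (A ^ k) (v j) ∈ E := by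
    intro k j hk
    exact Submodule.subset_span ⟨(⟨k, by omega⟩, j), rfl⟩
  set P : H →L[ℂ] E := E.orthogonalProjectionOnto with hP
  set AE : E →L[ℂ] E := P ∘L (A ∘L E.subtypeL) with hAE
  have hPE : ∀ (y : H) (hy : y ∈ E), P y = ⟨y, hy⟩ := by
    intro y hy
    exact Submodule.orthogonalProjectionOnto_mem_subspace_eq_self (⟨y, hy⟩ : E)
  set v' : Fin m → E := fun j => ⟨v j, by simpa using hmem 0 j (Nat.zero_le d)⟩ with hv'
  have hpow : ∀ (k : ℕ) (j : Fin m) (hk : k ≤ d), ((AE ^ k) (v' j) : H) = (A ^ k) (v j) := by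
    intro k j
    induction k with
    | zero => intro _; simp [hv']
    | succ k ih =>
      intro hk
      have h1 := ih (by omega)
      have h2 : (AE ^ (k + 1)) (v' j) = AE ((AE ^ k) (v' j)) := by
        rw [pow_succ']; rfl
      have h3 : AE ((AE ^ k) (v' j)) = P (A ((AE ^ k) (v' j) : H)) := rfl
      rw [h2, h3, h1]
      have h4 : A ((A ^ k) (v j)) = (A ^ (k + 1)) (v j) := by
        rw [pow_succ']; rfl
      rw [h4, hPE _ (hmem (k + 1) j hk)]
  have hMW : ∀ x : E, ‖x‖ = 1 →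
      ‖Matrix.toEuclideanCLM (n := Fin m) (𝕜 := ℂ)
          (∑ k : Fin (d + 1), (inner ℂ x (AE x)) ^ (k : ℕ) • B k)‖ ≤ M := by
    intro x hx
    have h1 : inner ℂ x (AE x) = inner ℂ (x : H) (A (x : H)) := by
      have h2 : AE x = P (A (x : H)) := rfl
      rw [h2]
      exact Submodule.inner_orthogonalProjectionOnto_eq_of_mem_left x (A (x : H))
    rw [h1]
    exact hM (x : H) (by simpa using hx)
  have hfd := fd AE m d B M hMW v'
  have hsq : ‖(WithLp.toLp 2 (fun i : Fin m => ∑ j : Fin m, ∑ k : Fin (d + 1),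
      B k i j • (A ^ (k : ℕ)) (v j)) : PiLp 2 (fun _ : Fin m => H))‖ ^ 2 ≤ (2 * M * ‖v‖) ^ 2 := by
    rw [PiLp.norm_sq_eq_of_L2, mul_pow, PiLp.norm_sq_eq_of_L2]
    calc ∑ i, ‖(WithLp.toLp 2 (fun i : Fin m => ∑ j : Fin m, ∑ k : Fin (d + 1),
          B k i j • (A ^ (k : ℕ)) (v j)) : PiLp 2 (fun _ : Fin m => H)) i‖ ^ 2
        = ∑ i, ‖∑ j, ∑ k : Fin (d + 1), B k i j • (AE ^ (k : ℕ)) (v' j)‖ ^ 2 := by
          apply Finset.sum_congr rfl
          intro i _
          congr 1
          rw [← Submodule.norm_coe]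
          congr 1
          rw [Submodule.coe_sum]
          show ∑ j : Fin m, ∑ k : Fin (d + 1), B k i j • (A ^ (k : ℕ)) (v j) = _
          apply Finset.sum_congr rfl
          intro j _
          rw [Submodule.coe_sum]
          apply Finset.sum_congr rfl
          intro k _
          rw [Submodule.coe_smul, hpow k j (by omega)]
      _ ≤ (2 * M) ^ 2 * ∑ j, ‖v' j‖ ^ 2 := hfd
      _ = (2 * M) ^ 2 * ∑ j, ‖v j‖ ^ 2 := rfl
  exact (sq_le_sq₀ (norm_nonneg _) (by positivity)).1 hsq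

end Asm179

end Crest.Agent.H23
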