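import Mathlib

/-! T7a, second part: isometric factorisation and transfer functions. -/

set_option autoImplicit false

open Matrix
open scoped ComplexOrder InnerProductSpace

namespace Crest.Agent.H23

lemma dual_douglas {E : Type*} [NormedAddCommGroup E] [InnerProductSpace ℂ E]
    {ι : Type*} [Fintype ι] [DecidableEq ι] (a b : ι → E)
    (h : ∀ x : E, ∑ i, ‖⟪a i, x⟫_ℂ‖ ^ 2 = ∑ i, ‖⟪b i, x⟫_ℂ‖ ^ 2) :
    ∃ w : Matrix ι ι ℂ, (∀ i, a i = ∑ j, w i j • b j) ∧
      ∀ y : EuclideanSpace ℂ ι, ‖Matrix.toEuclideanCLM (n := ι) (𝕜 := ℂ) w y‖ = ‖y‖ := by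
  let α : E →ₗ[ℂ] EuclideanSpace ℂ ι :=
    { toFun := fun x => WithLp.toLp 2 fun i => ⟪a i, x⟫_ℂ
      map_add' := by intro x y; ext i; simp
      map_smul' := by intro c x; ext i; simp }
  let β : E →ₗ[ℂ] EuclideanSpace ℂ ι :=
    { toFun := fun x => WithLp.toLp 2 fun i => ⟪b i, x⟫_ℂ
      map_add' := by intro x y; ext i; simp
      map_smul' := by intro c x; ext i; simp }
  have hα : ∀ x i, α x i = ⟪a i, x⟫_ℂ := fun x i => rfl
  have hβ : ∀ x i, β x i = ⟪b i, x⟫_ℂ := fun x i => rfl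
  have hn : ∀ x, ‖α x‖ = ‖β x‖ := by
    intro x
    rw [EuclideanSpace.norm_eq, EuclideanSpace.norm_eq]
    congr 1
    simp only [hα, hβ]
    exact h x
  obtain ⟨s, hs⟩ := β.rangeRestrict.exists_rightInverse_of_surjective β.range_rangeRestrict
  have hs' : ∀ y : LinearMap.range β, β (s y) = y := by
    intro y
    have := LinearMap.congr_fun hs y
    exact congrArg Subtype.val this
  let V0 : LinearMap.range β →ₗᵢ[ℂ] EuclideanSpace ℂ ι :=
    { toLinearMap := α ∘ₗ s
      norm_map' := by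
        intro y
        change ‖α (s y)‖ = ‖y‖
        rw [hn, hs']; rfl }
  have hV0 : ∀ x, V0 ⟨β x, LinearMap.mem_range_self β x⟩ = α x := by
    intro x
    change α (s _) = α x
    rw [← sub_eq_zero, ← map_sub, ← norm_eq_zero, hn, map_sub, hs']
    simp
  let V := V0.extend
  have hV : ∀ x, V (β x) = α x := by
    intro x
    rw [← hV0 x]
    exact LinearIsometry.extend_apply V0 ⟨β x, LinearMap.mem_range_self β x⟩
  have hVe : ∀ y : EuclideanSpace ℂ ι, ∀ i, V y i = ∑ j, V (EuclideanSpace.single j 1) i * y j := by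
    intro y i
    conv_lhs => rw [← (EuclideanSpace.basisFun ι ℂ).sum_repr y]
    simp [mul_comm]
  refine ⟨Matrix.of fun i j => star (V (EuclideanSpace.single j 1) i), ?_, ?_⟩
  · intro i
    apply ext_inner_right ℂ
    intro x
    rw [sum_inner]
    simp only [inner_smul_left, of_apply]
    rw [← hα, ← hV, hVe]
    refine Finset.sum_congr rfl fun j _ => ?_
    rw [hβ]
    simp
  · intro y
    have h1 : ‖V (WithLp.toLp 2 fun i => star (y i))‖ = ‖y‖ := by
      rw [V.norm_map, EuclideanSpace.norm_eq, EuclideanSpace.norm_eq]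
      simp
    rw [← h1, EuclideanSpace.norm_eq, EuclideanSpace.norm_eq]
    congr 1
    refine Finset.sum_congr rfl fun i _ => ?_
    congr 1
    rw [hVe, ← norm_star]
    congr 1
    rw [Matrix.ofLp_toEuclideanCLM]
    simp only [Matrix.mulVec, dotProduct, of_apply, star_sum, star_mul', star_star]

lemma dual_transfer {V : Type*} [NormedAddCommGroup V] [NormedSpace ℂ V]
    (A B D F : V →L[ℂ] V)
    (hiso : ∀ x y, ‖A x + B y‖ ^ 2 + ‖D x + F y‖ ^ 2 = ‖x‖ ^ 2 + ‖y‖ ^ 2)
    (ζ : ℂ) (r : ℝ) (hr0 : 0 ≤ r) (hr : r < 1) (hζ : ‖ζ‖ ≤ r) (K : ℕ) (y : V) :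
    ‖F y + ∑ k ∈ Finset.range K, ζ ^ (k + 1) • D ((A ^ k) (B y))‖ ^ 2
      ≤ (1 + r ^ (2 * K) / (1 - r ^ 2)) * ‖y‖ ^ 2 := by
  have hA : ∀ x, ‖A x‖ ≤ ‖x‖ := by
    intro x
    have := hiso x 0
    simp only [map_zero, add_zero] at this
    apply le_of_sq_le_sq _ (norm_nonneg _)
    have h2 := sq_nonneg ‖D x‖
    simp at this
    linarith
  have hB : ∀ x, ‖B x‖ ≤ ‖x‖ := by
    intro x
    have := hiso 0 x
    simp only [map_zero, zero_add] at this
    apply le_of_sq_le_sq _ (norm_nonneg _)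
    have h2 := sq_nonneg ‖F x‖
    simp at this
    linarith
  have hAk : ∀ k x, ‖(A ^ k) x‖ ≤ ‖x‖ := by
    intro k
    induction k with
    | zero => intro x; simp
    | succ k ih =>
      intro x
      rw [pow_succ']
      exact (hA _).trans (ih x)
  let s : ℕ → V := fun k => ∑ j ∈ Finset.range k, ζ ^ j • (A ^ j) (B y)
  have hs1 : s (K + 1) = s K + ζ ^ K • (A ^ K) (B y) := Finset.sum_range_succ _ _
  have hs2 : A (ζ • s K) + B y = s (K + 1) := by
    simp only [s]
    rw [Finset.sum_range_succ', map_smul, map_sum, Finset.smul_sum]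
    simp only [pow_zero, one_smul, one_apply_eq_self]
    congr 1
    refine Finset.sum_congr rfl fun k _ => ?_
    rw [map_smul, smul_smul, ← pow_succ', pow_succ' A]
    rfl
  have hs3 : D (ζ • s K) + F y = F y + ∑ k ∈ Finset.range K, ζ ^ (k + 1) • D ((A ^ k) (B y)) := by
    simp only [s]
    rw [map_smul, map_sum, Finset.smul_sum, add_comm]
    congr 1
    refine Finset.sum_congr rfl fun k _ => ?_
    rw [map_smul, smul_smul, ← pow_succ']
  have h1 := hiso (ζ • s K) y
  rw [hs2, hs3, norm_smul] at h1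
  set e := ‖ζ ^ K • (A ^ K) (B y)‖ with he
  have he1 : e ≤ r ^ K * ‖y‖ := by
    rw [he, norm_smul, norm_pow]
    exact mul_le_mul (pow_le_pow_left₀ (norm_nonneg _) hζ K) ((hAk K _).trans (hB y))
      (norm_nonneg _) (pow_nonneg hr0 K)
  have he0 : 0 ≤ e := norm_nonneg _
  have h2 : (‖s K‖ - e) ^ 2 ≤ ‖s (K + 1)‖ ^ 2 := by
    rw [hs1]
    apply sq_le_sq'
    · have := norm_sub_norm_le (ζ ^ K • (A ^ K) (B y)) (-(s K))
      rw [norm_neg, sub_neg_eq_add, add_comm (ζ ^ K • (A ^ K) (B y))] at this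
      linarith
    · have := norm_sub_norm_le (s K) (-(ζ ^ K • (A ^ K) (B y)))
      rw [norm_neg, sub_neg_eq_add] at this
      linarith
  have hr2 : 0 < 1 - r ^ 2 := by nlinarith
  have h3 : (‖ζ‖ * ‖s K‖) ^ 2 ≤ r ^ 2 * ‖s K‖ ^ 2 := by
    rw [mul_pow]
    exact mul_le_mul_of_nonneg_right (pow_le_pow_left₀ (norm_nonneg _) hζ 2) (sq_nonneg _)
  have h4 : e ^ 2 ≤ r ^ (2 * K) * ‖y‖ ^ 2 := by
    rw [mul_comm 2 K, pow_mul, ← mul_pow]
    exact pow_le_pow_left₀ he0 he1 2
  have h5 : r ^ 2 * ‖s K‖ ^ 2 - (‖s K‖ - e) ^ 2 ≤ e ^ 2 / (1 - r ^ 2) := by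
    rw [le_div_iff₀ hr2]
    have : (r ^ 2 * ‖s K‖ ^ 2 - (‖s K‖ - e) ^ 2) * (1 - r ^ 2)
        = e ^ 2 - (‖s K‖ * (1 - r ^ 2) - e) ^ 2 - (1 - r ^ 2) * e ^ 2 := by ring
    rw [this]
    nlinarith [sq_nonneg (‖s K‖ * (1 - r ^ 2) - e), mul_nonneg hr2.le (sq_nonneg e)]
  have h6 : e ^ 2 / (1 - r ^ 2) ≤ r ^ (2 * K) / (1 - r ^ 2) * ‖y‖ ^ 2 := by
    rw [div_mul_eq_mul_div]
    exact div_le_div_of_nonneg_right h4 hr2.le
  nlinarith

/-- action of a scalar matrix on a family of vectors -/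
def dact {n : ℕ} {E : Type*} [AddCommGroup E] [Module ℂ E] (M : Matrix (Fin n) (Fin n) ℂ)
    (v : Fin n → E) : Fin n → E := fun i => ∑ j, M i j • v j

section
variable {n : ℕ} {E : Type*} [NormedAddCommGroup E] [NormedSpace ℂ E]

lemma dact_mul (M N : Matrix (Fin n) (Fin n) ℂ) (v : Fin n → E) :
    dact (M * N) v = dact M (dact N v) := by
  ext i
  simp only [dact, mul_apply, Finset.sum_smul, Finset.smul_sum, smul_smul]
  rw [Finset.sum_comm]

lemma dact_add (M : Matrix (Fin n) (Fin n) ℂ) (v v' : Fin n → E) :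
    dact M (v + v') = dact M v + dact M v' := by
  ext i
  simp [dact, Finset.sum_add_distrib]

lemma dact_one (v : Fin n → E) : dact (1 : Matrix (Fin n) (Fin n) ℂ) v = v := by
  ext i
  simp [dact, Matrix.one_apply, ite_smul]

lemma dact_clm (M : Matrix (Fin n) (Fin n) ℂ) (S : E →L[ℂ] E) (v : Fin n → E) :
    (fun i => S (dact M v i)) = dact M (fun i => S (v i)) := by
  ext i
  simp [dact, map_sum]

lemma dact_norm_le (M : Matrix (Fin n) (Fin n) ℂ) (hM : ∀ i j, ‖M i j‖ ≤ 1) (v : Fin n → E)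
    (i : Fin n) : ‖dact M v i‖ ≤ ∑ j, ‖v j‖ := by
  refine (norm_sum_le _ _).trans (Finset.sum_le_sum fun j _ => ?_)
  rw [norm_smul]
  exact mul_le_of_le_one_left (norm_nonneg _) (hM i j)

lemma dual_iter (w11 w12 : Matrix (Fin n) (Fin n) ℂ) (R : E →L[ℂ] E) (l η : Fin n → E)
    (hl : l = dact w11 (fun i => R (l i)) + dact w12 η) (K : ℕ) :
    l = ∑ k ∈ Finset.range K, dact (w11 ^ k * w12) (fun j => (R ^ k) (η j))
      + dact (w11 ^ K) (fun j => (R ^ K) (l j)) := by
  induction K with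
  | zero => simp [dact_one]
  | succ K ih =>
    rw [Finset.sum_range_succ]
    conv_lhs => rw [ih]
    rw [add_assoc]
    congr 1
    have h1 : (fun j => (R ^ K) (l j)) = dact w11 (fun j => (R ^ (K + 1)) (l j))
        + dact w12 (fun j => (R ^ K) (η j)) := by
      rw [← dact_clm w12]
      have : dact w11 (fun j => (R ^ (K + 1)) (l j))
          = fun j => (R ^ K) (dact w11 (fun i => R (l i)) j) := by
        rw [dact_clm]
        simp only [pow_succ]
        rfl
      rw [this]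
      ext j
      conv_lhs => rw [hl]
      simp
    rw [h1, dact_add, ← dact_mul, ← dact_mul, add_comm, pow_succ w11]

end

open Polynomial in
lemma dual_model {n : ℕ} (T : Matrix (Fin n) (Fin n) ℂ)
    (hT : Filter.Tendsto (fun k : ℕ => T ^ k) Filter.atTop (nhds 0)) (C : ℝ)
    (hcb : ∀ (m : ℕ) (q : Fin m → Fin m → Polynomial ℂ),
      (∀ z : ℂ, ‖z‖ ≤ 1 → ‖Matrix.toEuclideanCLM (n := Fin m) (𝕜 := ℂ)
          (Matrix.of fun i j => (q i j).eval z)‖ ≤ 1) →
      ∀ v : Fin m → EuclideanSpace ℂ (Fin n),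
        ∑ i, ‖∑ j, Matrix.toEuclideanCLM (n := Fin n) (𝕜 := ℂ) (aeval T (q i j)) (v j)‖ ^ 2
          ≤ C * ∑ j, ‖v j‖ ^ 2)
    (r : ℝ) (hr0 : 0 ≤ r) (hr : r < 1) (l ξ η : Fin n → EuclideanSpace ℂ (Fin n))
    (h : ∀ x : EuclideanSpace ℂ (Fin n), ∑ i, ‖⟪l i, x⟫_ℂ‖ ^ 2 + ∑ i, ‖⟪ξ i, x⟫_ℂ‖ ^ 2
      = ∑ i, ‖⟪(r : ℂ) • Matrix.toEuclideanCLM (n := Fin n) (𝕜 := ℂ) T (l i), x⟫_ℂ‖ ^ 2
        + ∑ i, ‖⟪η i, x⟫_ℂ‖ ^ 2) :
    ∑ i, ‖ξ i‖ ^ 2 ≤ C * ∑ j, ‖η j‖ ^ 2 := by
  set S := Matrix.toEuclideanCLM (n := Fin n) (𝕜 := ℂ) T with hS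
  obtain ⟨w, hw1, hw2⟩ := dual_douglas (Sum.elim l ξ)
    (Sum.elim (fun i => (r : ℂ) • S (l i)) η) (by
      intro x
      simp only [Fintype.sum_sum_type, Sum.elim_inl, Sum.elim_inr]
      exact h x)
  let w11 : Matrix (Fin n) (Fin n) ℂ := Matrix.of fun i j => w (Sum.inl i) (Sum.inl j)
  let w12 : Matrix (Fin n) (Fin n) ℂ := Matrix.of fun i j => w (Sum.inl i) (Sum.inr j)
  let w21 : Matrix (Fin n) (Fin n) ℂ := Matrix.of fun i j => w (Sum.inr i) (Sum.inl j)
  let w22 : Matrix (Fin n) (Fin n) ℂ := Matrix.of fun i j => w (Sum.inr i) (Sum.inr j)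
  let A := Matrix.toEuclideanCLM (n := Fin n) (𝕜 := ℂ) w11
  let B := Matrix.toEuclideanCLM (n := Fin n) (𝕜 := ℂ) w12
  let D := Matrix.toEuclideanCLM (n := Fin n) (𝕜 := ℂ) w21
  let F := Matrix.toEuclideanCLM (n := Fin n) (𝕜 := ℂ) w22
  let R : EuclideanSpace ℂ (Fin n) →L[ℂ] EuclideanSpace ℂ (Fin n) := (r : ℂ) • S
  have hiso : ∀ x y : EuclideanSpace ℂ (Fin n),
      ‖A x + B y‖ ^ 2 + ‖D x + F y‖ ^ 2 = ‖x‖ ^ 2 + ‖y‖ ^ 2 := by
    intro x y
    have h1 := hw2 (WithLp.toLp 2 (Sum.elim x y))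
    have h2 := congrArg (· ^ 2) h1
    simp only [EuclideanSpace.norm_sq_eq, Fintype.sum_sum_type, Sum.elim_inl, Sum.elim_inr] at h2
    simp only [EuclideanSpace.norm_sq_eq]
    rw [← h2]
    congr 1
    · refine Finset.sum_congr rfl fun i _ => ?_
      congr 2
      simp only [A, B, PiLp.add_apply, Matrix.ofLp_toEuclideanCLM, Matrix.mulVec, dotProduct, w11, w12,
        of_apply, Fintype.sum_sum_type, Sum.elim_inl, Sum.elim_inr]
    · refine Finset.sum_congr rfl fun i _ => ?_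
      congr 2
      simp only [D, F, PiLp.add_apply, Matrix.ofLp_toEuclideanCLM, Matrix.mulVec, dotProduct, w21, w22,
        of_apply, Fintype.sum_sum_type, Sum.elim_inl, Sum.elim_inr]
  have hl : l = dact w11 (fun i => R (l i)) + dact w12 η := by
    ext1 i
    have := hw1 (Sum.inl i)
    simp only [Fintype.sum_sum_type, Sum.elim_inl, Sum.elim_inr] at this
    rw [this]
    simp only [dact, w11, w12, of_apply, Pi.add_apply, R]
    rfl
  have hξ : ξ = dact w21 (fun i => R (l i)) + dact w22 η := by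
    ext1 i
    have := hw1 (Sum.inr i)
    simp only [Fintype.sum_sum_type, Sum.elim_inl, Sum.elim_inr] at this
    rw [this]
    simp only [dact, w21, w22, of_apply, Pi.add_apply, R]
    rfl
  have hξK : ∀ K, ξ = dact w22 η
      + ∑ k ∈ Finset.range K, dact (w21 * w11 ^ k * w12) (fun j => (R ^ (k + 1)) (η j))
      + dact (w21 * w11 ^ K) (fun j => (R ^ (K + 1)) (l j)) := by
    intro K
    have e : (fun i => R (l i))
        = ∑ k ∈ Finset.range K, dact (w11 ^ k * w12) (fun j => (R ^ (k + 1)) (η j))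
          + dact (w11 ^ K) (fun j => (R ^ (K + 1)) (l j)) := by
      have e1 : (fun i => R (l i)) = fun i => R ((∑ k ∈ Finset.range K, dact (w11 ^ k * w12)
          (fun j => (R ^ k) (η j)) + dact (w11 ^ K) (fun j => (R ^ K) (l j))) i) := by
        rw [← dual_iter w11 w12 R l η hl K]
      rw [e1]
      ext1 i
      simp only [Pi.add_apply, Finset.sum_apply, map_add, map_sum]
      congr 1
      · refine Finset.sum_congr rfl fun k _ => ?_
        have := congrFun (dact_clm (w11 ^ k * w12) R (fun j => (R ^ k) (η j))) i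
        rw [this]
        simp only [pow_succ']
        rfl
      · have := congrFun (dact_clm (w11 ^ K) R (fun j => (R ^ K) (l j))) i
        rw [this]
        simp only [pow_succ']
        rfl
    have e2 : ∀ (M : Matrix (Fin n) (Fin n) ℂ) (s : Finset ℕ)
        (g : ℕ → Fin n → EuclideanSpace ℂ (Fin n)),
        dact M (∑ k ∈ s, g k) = ∑ k ∈ s, dact M (g k) := by
      intro M s g
      ext1 i
      simp only [dact, Finset.sum_apply, Finset.smul_sum]
      rw [Finset.sum_comm]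
    conv_lhs => rw [hξ, e, dact_add, e2, ← dact_mul]
    simp only [← dact_mul, Matrix.mul_assoc]
    abel
  let q : ℕ → Fin n → Fin n → Polynomial ℂ := fun K i j =>
    Polynomial.C (w22 i j) + ∑ k ∈ Finset.range K,
      Polynomial.C ((r : ℂ) ^ (k + 1) * (w21 * w11 ^ k * w12) i j) * Polynomial.X ^ (k + 1)
  have hSae : ∀ p : Polynomial ℂ, Matrix.toEuclideanCLM (n := Fin n) (𝕜 := ℂ) (aeval T p)
      = aeval S p := by
    intro p
    exact (Polynomial.aeval_algHom_apply
      ((Matrix.toEuclideanCLM (n := Fin n) (𝕜 := ℂ)).toAlgEquiv.toAlgHom) T p).symm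
  have hRk : ∀ k v, (R ^ k) v = (r : ℂ) ^ k • (S ^ k) v := by
    intro k v
    rw [show R = (r : ℂ) • S from rfl, _root_.smul_pow]
    rfl
  have hq1 : ∀ K i, ∑ j, Matrix.toEuclideanCLM (n := Fin n) (𝕜 := ℂ) (aeval T (q K i j)) (η j)
      = dact w22 η i + ∑ k ∈ Finset.range K,
        dact (w21 * w11 ^ k * w12) (fun j => (R ^ (k + 1)) (η j)) i := by
    intro K i
    simp only [hSae, q, dact]
    rw [Finset.sum_comm, ← Finset.sum_add_distrib]
    refine Finset.sum_congr rfl fun j _ => ?_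
    simp only [map_add, map_sum, map_mul, aeval_C, aeval_X, map_pow]
    rw [_root_.add_apply, _root_.sum_apply]
    congr 1
    refine Finset.sum_congr rfl fun k _ => ?_
    rw [← map_pow (algebraMap ℂ _), ← map_mul (algebraMap ℂ _), ← Algebra.smul_def,
      _root_.smul_apply, hRk, smul_smul, mul_comm ((w21 * w11 ^ k * w12) i j)]
  have hq2 : ∀ K (z : ℂ), ‖z‖ ≤ 1 → ∀ y, ‖Matrix.toEuclideanCLM (n := Fin n) (𝕜 := ℂ)
      (Matrix.of fun i j => (q K i j).eval z) y‖ ^ 2
        ≤ (1 + r ^ (2 * K) / (1 - r ^ 2)) * ‖y‖ ^ 2 := by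
    intro K z hz y
    have e : (Matrix.of fun i j => (q K i j).eval z)
        = w22 + ∑ k ∈ Finset.range K, ((r : ℂ) * z) ^ (k + 1) • (w21 * w11 ^ k * w12) := by
      ext i j
      simp only [of_apply, q, eval_add, eval_C, eval_finsetSum, eval_mul, eval_pow, eval_X,
        Matrix.add_apply, Matrix.sum_apply, Matrix.smul_apply, smul_eq_mul]
      congr 1
      refine Finset.sum_congr rfl fun k _ => ?_
      ring
    have e2 : Matrix.toEuclideanCLM (n := Fin n) (𝕜 := ℂ)
        (Matrix.of fun i j => (q K i j).eval z) y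
        = F y + ∑ k ∈ Finset.range K, ((r : ℂ) * z) ^ (k + 1) • D ((A ^ k) (B y)) := by
      rw [e, map_add, map_sum]
      simp only [map_smul, map_mul, map_pow]
      rw [_root_.add_apply, _root_.sum_apply]
      rfl
    rw [e2]
    apply dual_transfer A B D F hiso _ r hr0 hr
    rw [norm_mul, Complex.norm_real, Real.norm_of_nonneg hr0]
    exact mul_le_of_le_one_right hr0 hz
  have hr2 : 0 < 1 - r ^ 2 := by nlinarith
  have hmain : ∀ K, ∑ i, ‖ξ i - dact (w21 * w11 ^ K) (fun j => (R ^ (K + 1)) (l j)) i‖ ^ 2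
      ≤ C * (1 + r ^ (2 * K) / (1 - r ^ 2)) * ∑ j, ‖η j‖ ^ 2 := by
    intro K
    set δ := 1 + r ^ (2 * K) / (1 - r ^ 2) with hδ
    have hδ0 : 0 < δ := by
      have : 0 ≤ r ^ (2 * K) / (1 - r ^ 2) := div_nonneg (pow_nonneg hr0 _) hr2.le
      linarith
    have hsδ : 0 < Real.sqrt δ := Real.sqrt_pos.mpr hδ0
    have h1 := hcb n (fun i j => Polynomial.C (((Real.sqrt δ)⁻¹ : ℝ) : ℂ) * q K i j) (by
      intro z hz
      apply ContinuousLinearMap.opNorm_le_bound _ zero_le_one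
      intro y
      have e : (Matrix.of fun i j => (Polynomial.C (((Real.sqrt δ)⁻¹ : ℝ) : ℂ) * q K i j).eval z)
          = (((Real.sqrt δ)⁻¹ : ℝ) : ℂ) • (Matrix.of fun i j => (q K i j).eval z) := by
        ext i j
        simp
      rw [e, map_smul, _root_.smul_apply, norm_smul, Complex.norm_real,
        Real.norm_of_nonneg (inv_nonneg.mpr hsδ.le), one_mul]
      rw [inv_mul_le_iff₀ hsδ]
      apply le_of_sq_le_sq _ (by positivity)
      rw [mul_pow, Real.sq_sqrt hδ0.le]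
      exact hq2 K z hz y) η
    have h2 : ∀ i, ∑ j, Matrix.toEuclideanCLM (n := Fin n) (𝕜 := ℂ)
        (aeval T (Polynomial.C (((Real.sqrt δ)⁻¹ : ℝ) : ℂ) * q K i j)) (η j)
        = (((Real.sqrt δ)⁻¹ : ℝ) : ℂ) •
          (ξ i - dact (w21 * w11 ^ K) (fun j => (R ^ (K + 1)) (l j)) i) := by
      intro i
      have h3 : ξ i - dact (w21 * w11 ^ K) (fun j => (R ^ (K + 1)) (l j)) i
          = ∑ j, Matrix.toEuclideanCLM (n := Fin n) (𝕜 := ℂ) (aeval T (q K i j)) (η j) := by
        rw [hq1]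
        conv_lhs => rw [hξK K]
        simp only [Pi.add_apply, Finset.sum_apply]
        abel
      rw [h3, Finset.smul_sum]
      refine Finset.sum_congr rfl fun j _ => ?_
      rw [map_mul, aeval_C, ← Algebra.smul_def, map_smul]
      rfl
    simp only [h2, norm_smul, Complex.norm_real, Real.norm_of_nonneg (inv_nonneg.mpr hsδ.le),
      mul_pow, inv_pow, Real.sq_sqrt hδ0.le] at h1
    rw [← Finset.mul_sum, inv_mul_le_iff₀ hδ0] at h1
    linarith
  have herr : ∀ i, Filter.Tendsto (fun K : ℕ => dact (w21 * w11 ^ K) (fun j => (R ^ (K + 1)) (l j)) i)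
      Filter.atTop (nhds 0) := by
    intro i
    have hA : ∀ x, ‖A x‖ ≤ ‖x‖ := by
      intro x
      have := hiso x 0
      simp only [map_zero, add_zero] at this
      apply le_of_sq_le_sq _ (norm_nonneg _)
      have h2 := sq_nonneg ‖D x‖
      simp at this
      linarith
    have hD : ∀ x, ‖D x‖ ≤ ‖x‖ := by
      intro x
      have := hiso x 0
      simp only [map_zero, add_zero] at this
      apply le_of_sq_le_sq _ (norm_nonneg _)
      have h2 := sq_nonneg ‖A x‖
      simp at this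
      linarith
    have hAk : ∀ k x, ‖(A ^ k) x‖ ≤ ‖x‖ := by
      intro k
      induction k with
      | zero => intro x; simp
      | succ k ih =>
        intro x
        rw [pow_succ']
        exact (hA _).trans (ih x)
    have hent : ∀ K i j, ‖(w21 * w11 ^ K) i j‖ ≤ 1 := by
      intro K i j
      have e : (w21 * w11 ^ K) i j = (D ((A ^ K) (EuclideanSpace.single j 1))) i := by
        have : D ((A ^ K) (EuclideanSpace.single j 1))
            = Matrix.toEuclideanCLM (n := Fin n) (𝕜 := ℂ) (w21 * w11 ^ K)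
              (EuclideanSpace.single j 1) := by
          rw [map_mul, map_pow]; rfl
        rw [this, Matrix.ofLp_toEuclideanCLM]
        simp
      rw [e]
      calc ‖(D ((A ^ K) (EuclideanSpace.single j 1))) i‖
          ≤ ‖D ((A ^ K) (EuclideanSpace.single j 1))‖ := PiLp.norm_apply_le _ i
        _ ≤ ‖(EuclideanSpace.single j (1 : ℂ) : EuclideanSpace ℂ (Fin n))‖ := (hD _).trans (hAk _ _)
        _ = 1 := by simp
    have hRk0 : ∀ v, Filter.Tendsto (fun K : ℕ => (R ^ (K + 1)) v) Filter.atTop (nhds 0) := by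
      intro v
      have h1 : Filter.Tendsto (fun K : ℕ => (S ^ K) v) Filter.atTop (nhds 0) := by
        have h2 : ∀ K, (S ^ K) v = WithLp.toLp 2 ((T ^ K) *ᵥ v.ofLp) := by
          intro K
          rw [hS, ← map_pow]
          rfl
        simp only [h2]
        have h3 : Filter.Tendsto (fun K : ℕ => (T ^ K) *ᵥ v.ofLp) Filter.atTop
            (nhds ((0 : Matrix (Fin n) (Fin n) ℂ) *ᵥ v.ofLp)) := by
          have hc : Continuous fun M : Matrix (Fin n) (Fin n) ℂ => M *ᵥ v.ofLp := by fun_prop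
          exact (hc.tendsto 0).comp hT
        rw [zero_mulVec] at h3
        exact ((PiLp.continuous_toLp 2 (fun _ : Fin n => ℂ)).tendsto 0).comp h3
      have h2 : Filter.Tendsto (fun K : ℕ => ((r : ℂ) ^ (K + 1))) Filter.atTop (nhds 0) := by
        apply (tendsto_pow_atTop_nhds_zero_of_norm_lt_one _).comp (Filter.tendsto_add_atTop_nat 1)
        rwa [Complex.norm_real, Real.norm_of_nonneg hr0]
      have h4 := h2.smul (h1.comp (Filter.tendsto_add_atTop_nat 1))
      simp only [Function.comp_def, smul_zero] at h4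
      refine h4.congr fun K => ?_
      rw [hRk]
    apply squeeze_zero_norm (fun K => dact_norm_le _ (hent K) _ i)
    have := tendsto_finsetSum (Finset.univ : Finset (Fin n)) fun j _ => (hRk0 (l j)).norm
    simpa using this
  have hlim1 : Filter.Tendsto (fun K : ℕ => ∑ i, ‖ξ i - dact (w21 * w11 ^ K)
      (fun j => (R ^ (K + 1)) (l j)) i‖ ^ 2) Filter.atTop (nhds (∑ i, ‖ξ i - 0‖ ^ 2)) := by
    apply tendsto_finsetSum
    intro i _
    exact ((tendsto_const_nhds.sub (herr i)).norm).pow 2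
  have hlim2 : Filter.Tendsto (fun K : ℕ => C * (1 + r ^ (2 * K) / (1 - r ^ 2)) * ∑ j, ‖η j‖ ^ 2)
      Filter.atTop (nhds (C * (1 + 0 / (1 - r ^ 2)) * ∑ j, ‖η j‖ ^ 2)) := by
    apply Filter.Tendsto.mul_const
    apply Filter.Tendsto.const_mul
    apply Filter.Tendsto.const_add
    apply Filter.Tendsto.div_const
    have : ∀ K : ℕ, r ^ (2 * K) = (r ^ 2) ^ K := fun K => pow_mul r 2 K
    simp only [this]
    apply tendsto_pow_atTop_nhds_zero_of_lt_one (by positivity)
    nlinarith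
  have := le_of_tendsto_of_tendsto' hlim1 hlim2 hmain
  simpa using this


end Crest.Agent.H23
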