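import Crest.Agent.H23.DualA
import Crest.Agent.H23.DualB
import Crest.Prelude.Def_NumRangeMetric

/-! T7a: metric from the complete bound (SDP duality / Paulsen in finite dimension). -/

set_option autoImplicit false

open Matrix Polynomial
open scoped ComplexOrder InnerProductSpace

namespace Crest.Agent.H23

/-- columns as Euclidean vectors -/
noncomputable def dcol {n : ℕ} (M : Matrix (Fin n) (Fin n) ℂ) (i : Fin n) :
    EuclideanSpace ℂ (Fin n) := WithLp.toLp 2 fun k => M k i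

lemma dcol_inner {n : ℕ} (M : Matrix (Fin n) (Fin n) ℂ) (x : EuclideanSpace ℂ (Fin n)) :
    ∑ i, ‖⟪dcol M i, x⟫_ℂ‖ ^ 2 = (star x.ofLp ⬝ᵥ ((M * Mᴴ) *ᵥ x.ofLp)).re := by
  have h1 : ∀ i, ⟪dcol M i, x⟫_ℂ = (Mᴴ *ᵥ x.ofLp) i := by
    intro i
    simp [dcol, PiLp.inner_apply, mulVec, dotProduct, mul_comm]
  rw [← mulVec_mulVec, dotProduct_mulVec]
  have h2 : star x.ofLp ᵥ* M = star (Mᴴ *ᵥ x.ofLp) := by
    rw [star_mulVec, conjTranspose_conjTranspose]
  rw [h2]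
  simp only [dotProduct, Complex.re_sum, h1]
  refine Finset.sum_congr rfl fun i _ => ?_
  rw [Pi.star_apply, Complex.star_def, ← Complex.normSq_eq_conj_mul_self, Complex.ofReal_re,
    Complex.normSq_eq_norm_sq]

lemma dcol_norm {n : ℕ} (M : Matrix (Fin n) (Fin n) ℂ) :
    ∑ i, ‖dcol M i‖ ^ 2 = (trace (M * Mᴴ)).re := by
  simp only [EuclideanSpace.norm_sq_eq, trace, diag_apply, mul_apply, Complex.re_sum,
    conjTranspose_apply]
  rw [Finset.sum_comm]
  refine Finset.sum_congr rfl fun i _ => Finset.sum_congr rfl fun j _ => ?_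
  rw [mul_comm, Complex.star_def, ← Complex.normSq_eq_conj_mul_self, Complex.ofReal_re,
    Complex.normSq_eq_norm_sq]
  rfl

open scoped MatrixOrder in
lemma exists_sqrt {n : ℕ} (Z : Matrix (Fin n) (Fin n) ℂ) (hZ : Z.PosSemidef) :
    ∃ L : Matrix (Fin n) (Fin n) ℂ, Z = L * Lᴴ :=
  CStarAlgebra.nonneg_iff_eq_mul_star_self.mp hZ.nonneg

lemma trace_mul_nonneg {n : ℕ} (P Q : Matrix (Fin n) (Fin n) ℂ) (hP : P.PosSemidef)
    (hQ : Q.PosSemidef) : 0 ≤ (trace (P * Q)).re := by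
  obtain ⟨L, rfl⟩ := exists_sqrt P hP
  rw [Matrix.mul_assoc, trace_mul_comm, Matrix.mul_assoc, ← Matrix.mul_assoc]
  have := (hQ.conjTranspose_mul_mul_same L).trace_nonneg
  exact (Complex.le_def.mp this).1

/-- T7a: metric from the complete bound (SDP duality / Paulsen in finite dimension). -/
theorem metric_of_cb {n : ℕ} (T : Matrix (Fin n) (Fin n) ℂ)
    (hT : Filter.Tendsto (fun k : ℕ => T ^ k) Filter.atTop (nhds 0)) (C : ℝ) (hC : 0 < C)
    (hcb : ∀ (m : ℕ) (q : Fin m → Fin m → Polynomial ℂ),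
      (∀ z : ℂ, ‖z‖ ≤ 1 → ‖Matrix.toEuclideanCLM (n := Fin m) (𝕜 := ℂ)
          (Matrix.of fun i j => (q i j).eval z)‖ ≤ 1) →
      ∀ v : Fin m → EuclideanSpace ℂ (Fin n),
        ∑ i, ‖∑ j, Matrix.toEuclideanCLM (n := Fin n) (𝕜 := ℂ) (aeval T (q i j)) (v j)‖ ^ 2
          ≤ C * ∑ j, ‖v j‖ ^ 2) :
    ∃ H : Matrix (Fin n) (Fin n) ℂ, Crest.AnalysisR.NumRange.MetricFeasible T H C := by
  by_contra hno
  have hn : 1 ≤ n := by
    by_contra hn
    obtain rfl : n = 0 := by omega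
    exact hno ⟨0, by
      have h0 : ∀ P : Matrix (Fin 0) (Fin 0) ℂ, P.PosSemidef := by
        intro P
        rw [Subsingleton.elim P 0]
        exact PosSemidef.zero
      exact ⟨h0 _, h0 _, h0 _⟩⟩
  have hC1 : 1 ≤ C := by
    have h1 := hcb 1 (fun _ _ => 1) (by
      intro z _
      apply ContinuousLinearMap.opNorm_le_bound _ zero_le_one
      intro y
      have : (Matrix.of fun (_ _ : Fin 1) => (1 : Polynomial ℂ).eval z) = 1 := by
        ext i j
        rw [Subsingleton.elim i j, of_apply, eval_one, one_apply_eq]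
      rw [this, map_one, one_mul]
      exact le_of_eq rfl) (fun _ => EuclideanSpace.single ⟨0, hn⟩ 1)
    simpa using h1
  obtain ⟨Z, ε, hZ, hε, hsep⟩ := dual_sep T C (by
    rintro ⟨H, h1, h2, h3⟩
    exact hno ⟨H, h1, h2, h3⟩)
  obtain ⟨L, rfl⟩ := exists_sqrt Z hZ
  set t := (trace (T * (L * Lᴴ) * Tᴴ)).re with ht
  have hTZ : (T * (L * Lᴴ) * Tᴴ).PosSemidef := hZ.mul_mul_conjTranspose_same T
  have ht0 : 0 ≤ t := (Complex.le_def.mp hTZ.trace_nonneg).1
  obtain ⟨r, hr0, hr1, hr2⟩ : ∃ r : ℝ, 0 ≤ r ∧ r < 1 ∧ (1 - r ^ 2) * (C * t) < ε := by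
    have hc : ContinuousAt (fun r : ℝ => (1 - r ^ 2) * (C * t)) 1 := by fun_prop
    have h1 : ∀ᶠ r in nhds (1 : ℝ), (1 - r ^ 2) * (C * t) < ε := by
      apply hc.eventually_lt continuousAt_const
      simpa using hε
    have h2 : ∀ᶠ r in nhdsWithin (1 : ℝ) (Set.Iio 1), (1 - r ^ 2) * (C * t) < ε :=
      h1.filter_mono nhdsWithin_le_nhds
    have h3 : ∀ᶠ r in nhdsWithin (1 : ℝ) (Set.Iio 1), r ∈ Set.Ioo (0:ℝ) 1 :=
      Ioo_mem_nhdsLT zero_lt_one
    obtain ⟨r, hr, hr'⟩ := (h2.and h3).exists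
    exact ⟨r, hr'.1.le, hr'.2, hr⟩
  set W : Matrix (Fin n) (Fin n) ℂ := ((r : ℂ) ^ 2) • (T * (L * Lᴴ) * Tᴴ) - L * Lᴴ with hW
  have hWh : W.IsHermitian := by
    apply IsHermitian.sub _ hZ.isHermitian
    have : ((r : ℂ) ^ 2) • (T * (L * Lᴴ) * Tᴴ) = (r ^ 2 : ℝ) • (T * (L * Lᴴ) * Tᴴ) := by
      ext i j
      simp
    rw [this]
    exact (PosSemidef.smul hTZ (sq_nonneg r)).isHermitian
  obtain ⟨ξ, η, hWd, hlt⟩ := dual_split W hWh C hC1 (by
    intro H h1 h2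
    have e1 : trace (W * H) = (r : ℂ) ^ 2 * trace (T * (L * Lᴴ) * Tᴴ * H)
        - trace (L * Lᴴ * H) := by
      rw [hW, sub_mul, trace_sub, smul_mul, trace_smul, smul_eq_mul]
    have e2 := hsep H h1 h2
    rw [mul_sub, trace_sub] at e2
    have e3 : trace (L * Lᴴ * (Tᴴ * H * T)) = trace (T * (L * Lᴴ) * Tᴴ * H) := by
      rw [← Matrix.mul_assoc (L * Lᴴ), trace_mul_comm]
      simp only [Matrix.mul_assoc]
    rw [e3] at e2
    have e4 := trace_mul_nonneg _ _ hTZ h2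
    rw [mul_sub, trace_sub, Matrix.mul_smul, Matrix.mul_one, trace_smul, smul_eq_mul] at e4
    have e5 := trace_mul_nonneg _ _ hTZ (show H.PosSemidef by
      have := h1.add (PosSemidef.one (n := Fin n) (R := ℂ))
      simpa using this)
    rw [e1]
    have e6 : ((r : ℂ) ^ 2 * trace (T * (L * Lᴴ) * Tᴴ * H)).re
        = r ^ 2 * (trace (T * (L * Lᴴ) * Tᴴ * H)).re := by
      rw [← Complex.ofReal_pow, Complex.re_ofReal_mul]
    rw [Complex.sub_re, e6]
    rw [Complex.sub_re, Complex.re_ofReal_mul, ← ht] at e4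
    rw [Complex.sub_re] at e2
    have hr3 : 0 ≤ 1 - r ^ 2 := by nlinarith
    have := mul_le_mul_of_nonneg_left (sub_nonneg.mp e4) hr3
    nlinarith)
  have hrel : L * Lᴴ + ξ * ξᴴ = (((r : ℂ) • (T * L)) * ((r : ℂ) • (T * L))ᴴ) + η * ηᴴ := by
    have e1 : ((r : ℂ) • (T * L)) * ((r : ℂ) • (T * L))ᴴ = ((r : ℂ) ^ 2) • (T * (L * Lᴴ) * Tᴴ) := by
      rw [conjTranspose_smul, conjTranspose_mul, Matrix.smul_mul, Matrix.mul_smul, smul_smul]
      simp only [Matrix.mul_assoc, Complex.star_def, Complex.conj_ofReal, sq]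
    rw [e1, ← sub_eq_iff_eq_add', ← sub_eq_zero]
    rw [hW] at hWd
    rw [sub_eq_zero]
    have : ((r : ℂ) ^ 2) • (T * (L * Lᴴ) * Tᴴ) = L * Lᴴ + (ξ * ξᴴ - η * ηᴴ) := by
      rw [← hWd]; abel
    rw [this]
    abel
  have hfin := dual_model T hT C hcb r hr0 hr1 (dcol L) (dcol ξ) (dcol η) (by
    intro x
    have e2 : ∀ i, (r : ℂ) • Matrix.toEuclideanCLM (n := Fin n) (𝕜 := ℂ) T (dcol L i)
        = dcol ((r : ℂ) • (T * L)) i := by
      intro i
      ext k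
      simp [dcol, mulVec, dotProduct, mul_apply]
    simp only [e2]
    rw [dcol_inner, dcol_inner, dcol_inner, dcol_inner, ← Complex.add_re, ← Complex.add_re,
      ← dotProduct_add, ← dotProduct_add, ← add_mulVec, ← add_mulVec, hrel])
  rw [dcol_norm, dcol_norm] at hfin
  linarith

end Crest.Agent.H23
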