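import Crest.Agent.H23.Defs
import Crest.Prelude.Def_NumRangeMetric

set_option autoImplicit false

open scoped ComplexOrder Matrix
open Matrix

namespace Crest.Agent.H23

namespace Opt

variable {n : ℕ}

lemma dot_self (x : Fin n → ℂ) : (star x ⬝ᵥ x) = ((∑ i, ‖x i‖ ^ 2 : ℝ) : ℂ) := by
  simp only [dotProduct, Pi.star_apply, Complex.ofReal_sum, Complex.ofReal_pow]
  refine Finset.sum_congr rfl fun i _ => ?_
  rw [Complex.star_def, Complex.conj_mul']

lemma dot_bound (M : Matrix (Fin n) (Fin n) ℂ) (b : ℝ) (hb : ∀ i j, ‖M i j‖ ≤ b)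
    (x : Fin n → ℂ) : ‖star x ⬝ᵥ (M *ᵥ x)‖ ≤ n * b * ∑ i, ‖x i‖ ^ 2 := by
  have h1 : ‖star x ⬝ᵥ (M *ᵥ x)‖ ≤ ∑ i, ∑ j, b * ((‖x i‖ ^ 2 + ‖x j‖ ^ 2) / 2) := by
    simp only [dotProduct, Pi.star_apply, mulVec, Finset.mul_sum]
    refine (norm_sum_le _ _).trans (Finset.sum_le_sum fun i _ => ?_)
    refine (norm_sum_le _ _).trans (Finset.sum_le_sum fun j _ => ?_)
    rw [norm_mul, norm_mul, norm_star]
    have hb0 : 0 ≤ b := (norm_nonneg _).trans (hb i j)
    have h2 : ‖x i‖ * ‖x j‖ ≤ (‖x i‖ ^ 2 + ‖x j‖ ^ 2) / 2 := by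
      nlinarith [sq_nonneg (‖x i‖ - ‖x j‖)]
    calc ‖x i‖ * (‖M i j‖ * ‖x j‖) = ‖M i j‖ * (‖x i‖ * ‖x j‖) := by ring
      _ ≤ b * ((‖x i‖ ^ 2 + ‖x j‖ ^ 2) / 2) := by
        apply mul_le_mul (hb i j) h2 (by positivity) hb0
  refine h1.trans (le_of_eq ?_)
  have : ∀ i : Fin n, ∑ j : Fin n, b * ((‖x i‖ ^ 2 + ‖x j‖ ^ 2) / 2)
      = b / 2 * (n * ‖x i‖ ^ 2 + ∑ j, ‖x j‖ ^ 2) := by
    intro i
    rw [← Finset.mul_sum, ← Finset.sum_div, Finset.sum_add_distrib]
    simp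
    ring
  simp only [this]
  rw [← Finset.mul_sum, Finset.sum_add_distrib, ← Finset.mul_sum]
  simp
  ring

lemma posDef_of_bound (M : Matrix (Fin n) (Fin n) ℂ) (hM : M.IsHermitian) (b τ : ℝ)
    (hb : ∀ i j, ‖M i j‖ ≤ b) (hτ : n * b < τ) :
    ((τ : ℂ) • (1 : Matrix (Fin n) (Fin n) ℂ) - M).PosDef := by
  have hH : ((τ : ℂ) • (1 : Matrix (Fin n) (Fin n) ℂ) - M).IsHermitian := by
    apply IsHermitian.sub _ hM
    unfold IsHermitian
    rw [conjTranspose_smul]
    simp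
  refine PosDef.of_dotProduct_mulVec_pos hH fun x hx => ?_
  have him := hH.im_star_dotProduct_mulVec_self x
  have hre : 0 < (star x ⬝ᵥ (((τ : ℂ) • (1 : Matrix (Fin n) (Fin n) ℂ) - M) *ᵥ x)).re := by
    rw [sub_mulVec, dotProduct_sub, smul_mulVec, dotProduct_smul, one_mulVec, dot_self]
    have hs : 0 < ∑ i, ‖x i‖ ^ 2 := by
      obtain ⟨i, hi⟩ := Function.ne_iff.mp hx
      refine Finset.sum_pos' (fun j _ => by positivity) ⟨i, Finset.mem_univ i, ?_⟩
      have : 0 < ‖x i‖ := norm_pos_iff.mpr hi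
      positivity
    have h1 := dot_bound M b hb x
    have h2 := (Complex.re_le_norm (star x ⬝ᵥ (M *ᵥ x))).trans h1
    simp only [smul_eq_mul, Complex.sub_re, ← Complex.ofReal_mul, Complex.ofReal_re]
    nlinarith
  rw [Complex.lt_def]
  exact ⟨hre, by simpa using him.symm⟩

lemma tendsto_quad (T : Matrix (Fin n) (Fin n) ℂ)
    (hT : Filter.Tendsto (fun k : ℕ => T ^ k) Filter.atTop (nhds 0)) :
    Filter.Tendsto (fun k : ℕ => (T ^ k)ᴴ * T ^ k) Filter.atTop (nhds 0) := by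
  have h1 : Filter.Tendsto (fun k : ℕ => (T ^ k)ᴴ) Filter.atTop (nhds 0) := by
    have : Continuous (fun M : Matrix (Fin n) (Fin n) ℂ => Mᴴ) := continuous_id.matrix_conjTranspose
    have h2 := (this.tendsto 0).comp hT
    rw [conjTranspose_zero] at h2
    exact h2
  have := h1.mul hT
  simpa using this

lemma exists_pow_small (T : Matrix (Fin n) (Fin n) ℂ)
    (hT : Filter.Tendsto (fun k : ℕ => T ^ k) Filter.atTop (nhds 0)) :
    ∃ N : ℕ, 1 ≤ N ∧ (1 - (T ^ N)ᴴ * T ^ N).PosDef := by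
  have h := tendsto_quad T hT
  have hε : (0 : ℝ) < 1 / (2 * (n + 1)) := by positivity
  have h2 : ∀ᶠ k : ℕ in Filter.atTop, ∀ i j, ‖((T ^ k)ᴴ * T ^ k) i j‖ < 1 / (2 * (n + 1)) := by
    rw [Filter.eventually_all]
    intro i
    rw [Filter.eventually_all]
    intro j
    have h3 : Filter.Tendsto (fun k : ℕ => ((T ^ k)ᴴ * T ^ k) i j) Filter.atTop (nhds 0) := by
      have h4 := (tendsto_pi_nhds.mp ((tendsto_pi_nhds.mp h) i)) j
      simpa using h4
    have h5 := h3.norm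
    rw [norm_zero] at h5
    exact (tendsto_order.mp h5).2 _ hε
  obtain ⟨N, hN1, hN2⟩ := (h2.and (Filter.eventually_ge_atTop 1)).exists
  refine ⟨N, hN2, ?_⟩
  have h6 := posDef_of_bound ((T ^ N)ᴴ * T ^ N)
    (isHermitian_conjTranspose_mul_self _) (1 / (2 * (n + 1))) 1
    (fun i j => (hN1 i j).le) (by
      have hn : (0:ℝ) ≤ n := Nat.cast_nonneg n
      rw [mul_one_div, div_lt_one (by positivity)]
      linarith)
  simpa using h6

lemma exists_strict (T : Matrix (Fin n) (Fin n) ℂ)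
    (hT : Filter.Tendsto (fun k : ℕ => T ^ k) Filter.atTop (nhds 0)) :
    ∃ (H : Matrix (Fin n) (Fin n) ℂ) (τ : ℝ),
      Crest.AnalysisR.NumRange.MetricStrictlyFeasible T H τ := by
  obtain ⟨N, hN1, hN2⟩ := exists_pow_small T hT
  set f : ℕ → Matrix (Fin n) (Fin n) ℂ := fun k => (T ^ k)ᴴ * T ^ k with hf
  have hfp : ∀ k, (f k).PosSemidef := fun k => posSemidef_conjTranspose_mul_self _
  set S : Matrix (Fin n) (Fin n) ℂ := ∑ k ∈ Finset.range N, f k with hS
  have hSp : S.PosSemidef := posSemidef_sum _ fun k _ => hfp k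
  have hHH : (S + S).IsHermitian := (hSp.add hSp).isHermitian
  have hf0 : f 0 = 1 := by simp [hf]
  have hfs : ∀ k, Tᴴ * f k * T = f (k + 1) := by
    intro k
    simp only [hf, pow_succ, conjTranspose_mul]
    simp only [mul_assoc]
  obtain ⟨B, hB⟩ : ∃ B : ℝ, ∀ i j, ‖(S + S) i j‖ ≤ B := by
    refine ⟨∑ i, ∑ j, ‖(S + S) i j‖, fun i j => ?_⟩
    calc ‖(S + S) i j‖ ≤ ∑ j, ‖(S + S) i j‖ :=
          Finset.single_le_sum (f := fun j => ‖(S + S) i j‖) (fun _ _ => norm_nonneg _)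
            (Finset.mem_univ j)
      _ ≤ ∑ i, ∑ j, ‖(S + S) i j‖ :=
          Finset.single_le_sum (f := fun i => ∑ j, ‖(S + S) i j‖)
            (fun _ _ => Finset.sum_nonneg fun _ _ => norm_nonneg _) (Finset.mem_univ i)
  refine ⟨S + S, n * B + 1, ?_, ?_, ?_⟩
  · -- `2S - 1 = 1 + (S' + S')`
    obtain ⟨M, rfl⟩ : ∃ M, N = M + 1 := ⟨N - 1, by omega⟩
    have h1 : S = 1 + ∑ k ∈ Finset.range M, f (k + 1) := by
      rw [hS, Finset.sum_range_succ', hf0, add_comm]
    have h2 : S + S - 1 = 1 + (∑ k ∈ Finset.range M, f (k + 1) + ∑ k ∈ Finset.range M, f (k + 1)) := by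
      rw [h1]; abel
    rw [h2]
    have h3 : (∑ k ∈ Finset.range M, f (k + 1)).PosSemidef :=
      posSemidef_sum _ fun k _ => hfp _
    exact PosDef.add_posSemidef PosDef.one (h3.add h3)
  · exact posDef_of_bound _ hHH B _ hB (by linarith)
  · have h1 : Tᴴ * S * T = ∑ k ∈ Finset.range N, f (k + 1) := by
      rw [hS, Finset.mul_sum, Finset.sum_mul]
      exact Finset.sum_congr rfl fun k _ => hfs k
    have h2 : S - Tᴴ * S * T = 1 - f N := by
      rw [h1, hS, ← Finset.sum_sub_distrib, Finset.sum_range_sub', hf0]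
    have h3 : S + S - Tᴴ * (S + S) * T = (1 - f N) + (1 - f N) := by
      rw [← h2, mul_add, add_mul]; abel
    rw [h3]
    exact PosDef.add_posSemidef hN2 hN2.posSemidef

lemma isClosed_posSemidef : IsClosed {M : Matrix (Fin n) (Fin n) ℂ | M.PosSemidef} := by
  have : {M : Matrix (Fin n) (Fin n) ℂ | M.PosSemidef}
      = {M | Mᴴ = M} ∩ ⋂ x : Fin n → ℂ, {M | 0 ≤ star x ⬝ᵥ (M *ᵥ x)} := by
    ext M
    simp only [Set.mem_ofPred_eq, Set.mem_inter_iff, Set.mem_iInter]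
    rw [posSemidef_iff_dotProduct_mulVec]
    rfl
  rw [this]
  apply IsClosed.inter
  · exact isClosed_eq continuous_id.matrix_conjTranspose continuous_id
  · refine isClosed_iInter fun x => ?_
    apply isClosed_le continuous_const
    exact Continuous.dotProduct continuous_const (Continuous.matrix_mulVec continuous_id continuous_const)

lemma psd_entry (M : Matrix (Fin n) (Fin n) ℂ) (hM : M.PosSemidef) (i j : Fin n) :
    2 * ‖M i j‖ ≤ (M i i).re + (M j j).re := by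
  obtain ⟨c, hc1, hc2⟩ : ∃ c : ℂ, ‖c‖ = 1 ∧ c * M i j = -(‖M i j‖ : ℂ) := by
    by_cases h : M i j = 0
    · exact ⟨1, by simp, by simp [h]⟩
    · refine ⟨-(starRingEnd ℂ (M i j)) / ‖M i j‖, ?_, ?_⟩
      · rw [norm_div, norm_neg, RCLike.norm_conj]
        simp [h]
      · have h2 : (‖M i j‖ : ℂ) ≠ 0 := by
          simpa using h
        rw [div_mul_eq_mul_div, neg_mul, Complex.conj_mul']
        field_simp
  have hx := hM.re_dotProduct_nonneg (Pi.single i 1 + Pi.single j c)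
  have hji : M j i = starRingEnd ℂ (M i j) := (hM.isHermitian.apply j i).symm
  have hexp : star (Pi.single i 1 + Pi.single j c : Fin n → ℂ) ⬝ᵥ
      (M *ᵥ (Pi.single i 1 + Pi.single j c)) =
      M i i + c * M i j + starRingEnd ℂ c * M j i + starRingEnd ℂ c * c * M j j := by
    have hs : star (Pi.single i 1 + Pi.single j c : Fin n → ℂ)
        = Pi.single i 1 + Pi.single j (starRingEnd ℂ c) := by
      rw [star_add, Pi.star_single, Pi.star_single]
      simp
    rw [hs, mulVec_add, add_dotProduct, dotProduct_add, dotProduct_add, mulVec_single,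
      mulVec_single]
    simp [single_dotProduct]
    ring
  rw [hexp, hji] at hx
  have h1 : starRingEnd ℂ c * starRingEnd ℂ (M i j) = -(‖M i j‖ : ℂ) := by
    rw [← map_mul, hc2]; simp
  have h2 : starRingEnd ℂ c * c = 1 := by
    rw [Complex.conj_mul', hc1]; simp
  rw [h1, hc2, h2] at hx
  simp at hx
  linarith

/-- entries of a matrix with `1 ≤ H ≤ τ` are bounded by `τ`. -/
lemma entry_bound (H : Matrix (Fin n) (Fin n) ℂ) (τ : ℝ) (h1 : (H - 1).PosSemidef)
    (h2 : ((τ : ℂ) • (1 : Matrix (Fin n) (Fin n) ℂ) - H).PosSemidef) (i j : Fin n) :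
    ‖H i j‖ ≤ τ := by
  have hH : H.PosSemidef := by
    have := h1.add (PosSemidef.one (n := Fin n) (R := ℂ))
    simpa using this
  have h3 := psd_entry H hH i j
  have h4 : ∀ i, (H i i).re ≤ τ := by
    intro i
    have := h2.diag_nonneg (i := i)
    have h5 := (Complex.le_def.mp this).1
    simp at h5
    linarith
  linarith [h4 i, h4 j]

lemma one_le_tau (hn : 1 ≤ n) (T H : Matrix (Fin n) (Fin n) ℂ) (τ : ℝ)
    (h : Crest.AnalysisR.NumRange.MetricFeasible T H τ) : 1 ≤ τ := by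
  obtain ⟨h1, h2, -⟩ := h
  have h3 := (h1.add h2).diag_nonneg (i := ⟨0, hn⟩)
  have h5 := (Complex.le_def.mp h3).1
  simp at h5
  linarith

end Opt

theorem metric_exists {n : ℕ} (hn : 1 ≤ n) (T : Matrix (Fin n) (Fin n) ℂ)
    (hT : Filter.Tendsto (fun k : ℕ => T ^ k) Filter.atTop (nhds 0)) :
    (∃ (H : Matrix (Fin n) (Fin n) ℂ) (τ : ℝ),
      Crest.AnalysisR.NumRange.MetricStrictlyFeasible T H τ) ∧
    ∃ (H : Matrix (Fin n) (Fin n) ℂ) (κsq : ℝ),
      Crest.AnalysisR.NumRange.IsOptimalMetric T H κsq ∧ 1 ≤ κsq := by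
  refine ⟨Opt.exists_strict T hT, ?_⟩
  obtain ⟨H₀, τ₀, hH₀⟩ := Opt.exists_strict T hT
  have hF₀ : Crest.AnalysisR.NumRange.MetricFeasible T H₀ τ₀ :=
    ⟨hH₀.1.posSemidef, hH₀.2.1.posSemidef, hH₀.2.2.posSemidef⟩
  have h1τ₀ := Opt.one_le_tau hn T H₀ τ₀ hF₀
  set K : Set (Matrix (Fin n) (Fin n) ℂ × ℝ) :=
    {p | Crest.AnalysisR.NumRange.MetricFeasible T p.1 p.2 ∧ p.2 ≤ τ₀} with hK
  have hKc : IsCompact K := by
    have hbig : IsCompact ((Set.pi Set.univ (fun _ : Fin n => Set.pi Set.univ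
        (fun _ : Fin n => Metric.closedBall (0 : ℂ) τ₀)) : Set (Matrix (Fin n) (Fin n) ℂ)) ×ˢ
        Set.Icc (1 : ℝ) τ₀) := by
      apply IsCompact.prod _ isCompact_Icc
      exact isCompact_univ_pi fun _ => isCompact_univ_pi fun _ => isCompact_closedBall _ _
    refine hbig.of_isClosed_subset ?_ ?_
    · have e : K = {p : Matrix (Fin n) (Fin n) ℂ × ℝ | (p.1 - 1).PosSemidef} ∩
          ({p | ((p.2 : ℂ) • (1 : Matrix (Fin n) (Fin n) ℂ) - p.1).PosSemidef} ∩
          ({p | (p.1 - T.conjTranspose * p.1 * T).PosSemidef} ∩ {p | p.2 ≤ τ₀})) := by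
        ext p
        simp only [hK, Set.mem_ofPred_eq, Set.mem_inter_iff,
          Crest.AnalysisR.NumRange.MetricFeasible, and_assoc]
      rw [e]
      apply IsClosed.inter
      · exact Opt.isClosed_posSemidef.preimage (f := fun p : Matrix (Fin n) (Fin n) ℂ × ℝ => p.1 - 1)
          (by fun_prop)
      apply IsClosed.inter
      · refine Opt.isClosed_posSemidef.preimage (f := fun p : Matrix (Fin n) (Fin n) ℂ × ℝ =>
          (p.2 : ℂ) • (1 : Matrix (Fin n) (Fin n) ℂ) - p.1) ?_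
        apply Continuous.sub _ continuous_fst
        exact (Complex.continuous_ofReal.comp continuous_snd).smul continuous_const
      apply IsClosed.inter
      · refine Opt.isClosed_posSemidef.preimage (f := fun p : Matrix (Fin n) (Fin n) ℂ × ℝ =>
          p.1 - T.conjTranspose * p.1 * T) ?_
        apply Continuous.sub continuous_fst
        exact Continuous.matrix_mul (Continuous.matrix_mul continuous_const continuous_fst)
          continuous_const
      · exact isClosed_le continuous_snd continuous_const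
    · rintro ⟨H, τ⟩ ⟨hf, hle⟩
      refine ⟨?_, Opt.one_le_tau hn T H τ hf, hle⟩
      intro i _ j _
      rw [mem_closedBall_zero_iff]
      exact (Opt.entry_bound H τ hf.1 hf.2.1 i j).trans hle
  obtain ⟨⟨H, κ⟩, hmem, hmin⟩ := hKc.exists_isMinOn ⟨(H₀, τ₀), hF₀, le_rfl⟩
    (f := fun p => p.2) continuous_snd.continuousOn
  refine ⟨H, κ, ⟨hmem.1, fun H' τ' h' => ?_⟩, Opt.one_le_tau hn T H κ hmem.1⟩
  by_cases hc : τ' ≤ τ₀
  · exact hmin (show (H', τ') ∈ K from ⟨h', hc⟩)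
  · exact (hmem.2).trans (not_le.mp hc).le

end Crest.Agent.H23
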