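import Crest.Agent.H23.Defs
import Crest.Prelude.Def_NumRangeMetric

set_option autoImplicit false

open Metric Set Polynomial Filter Topology
open scoped ComplexOrder ENNReal NNReal

namespace Crest.Agent.H23

namespace SpecAux

/-- peel off the linear factors. -/
lemma peel {Ω : Set ℂ} (hΩ : IsOpen Ω) (s : Multiset ℂ) (hs : ∀ a ∈ s, a ∈ Ω) :
    ∀ r : ℂ → ℂ, DifferentiableOn ℂ r Ω → (∀ a ∈ s, ((s.count a : ℕ) : ℕ∞) ≤ analyticOrderAt r a) →
      ∃ g : ℂ → ℂ, DifferentiableOn ℂ g Ω ∧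
        ∀ z ∈ Ω, r z = (s.map fun a => z - a).prod * g z := by
  induction s using Multiset.induction_on with
  | empty =>
    intro r hr _
    exact ⟨r, hr, fun z _ => by simp⟩
  | cons a t ih =>
    intro r hr ho
    have haΩ : a ∈ Ω := hs a (Multiset.mem_cons_self a t)
    have hra : AnalyticAt ℂ r a := hr.analyticAt (hΩ.mem_nhds haΩ)
    have h1 := ho a (Multiset.mem_cons_self a t)
    have hr0 : r a = 0 := by
      apply apply_eq_zero_of_analyticOrderAt_ne_zero (𝕜 := ℂ)
      intro h0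
      rw [h0, Multiset.count_cons_self] at h1
      simp at h1
    have hg1 : DifferentiableOn ℂ (dslope r a) Ω :=
      (Complex.differentiableOn_dslope (hΩ.mem_nhds haΩ)).2 hr
    have hfac : ∀ z, r z = (z - a) * dslope r a z := by
      intro z
      have := sub_smul_dslope r a z
      rw [hr0, sub_zero, smul_eq_mul] at this
      exact this.symm
    have hfun : r = (fun z => z - a) * dslope r a := funext hfac
    have hord : ∀ b ∈ t, ((t.count b : ℕ) : ℕ∞) ≤ analyticOrderAt (dslope r a) b := by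
      intro b hb
      have hbΩ : b ∈ Ω := hs b (Multiset.mem_cons_of_mem hb)
      have hgb : AnalyticAt ℂ (dslope r a) b := hg1.analyticAt (hΩ.mem_nhds hbΩ)
      have h2 := ho b (Multiset.mem_cons_of_mem hb)
      have h3 : analyticOrderAt r b = analyticOrderAt (fun z : ℂ => z - a) b
          + analyticOrderAt (dslope r a) b := by
        conv_lhs => rw [hfun]
        exact analyticOrderAt_mul (by fun_prop) hgb
      by_cases hba : b = a
      · subst hba
        rw [h3, analyticOrderAt_id_sub_const_self, Multiset.count_cons_self, add_comm 1] at h2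
        push_cast at h2
        exact (ENat.add_le_add_iff_right (by simp)).1 h2
      · rw [h3, analyticOrderAt_id_sub_const_of_ne hba, zero_add,
          Multiset.count_cons_of_ne hba] at h2
        exact h2
    obtain ⟨g, hg, hgz⟩ := ih (fun b hb => hs b (Multiset.mem_cons_of_mem hb)) _ hg1 hord
    refine ⟨g, hg, fun z hz => ?_⟩
    rw [hfac z, hgz z hz, Multiset.map_cons, Multiset.prod_cons, mul_assoc]

lemma mem_spectrum_of_charpoly_root {n : ℕ} (A : Matrix (Fin n) (Fin n) ℂ) {μ : ℂ}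
    (h : μ ∈ A.charpoly.roots) : μ ∈ spectrum ℂ A := by
  rw [Matrix.mem_spectrum_iff_isRoot_charpoly]
  exact (mem_roots'.1 h).2

/-- powers of an element of spectral radius `< 1` tend to zero -/
lemma pow_norm_tendsto {B : Type*} [NormedRing B] [NormedAlgebra ℂ B] [CompleteSpace B]
    [Nontrivial B] (a : B) (h : ∀ z ∈ spectrum ℂ a, ‖z‖ < 1) :
    Tendsto (fun k : ℕ => a ^ k) atTop (𝓝 0) := by
  have h1 : spectralRadius ℂ a < ((1 : ℝ≥0) : ℝ≥0∞) :=
    spectrum.spectralRadius_lt_of_forall_lt a (fun z hz => by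
      have := h z hz
      exact_mod_cast this)
  obtain ⟨q, hq1, hq2⟩ := exists_between h1
  have hqtop : q ≠ ∞ := ne_top_of_lt hq2
  lift q to ℝ≥0 using hqtop
  have hq3 : q < 1 := by exact_mod_cast hq2
  have h2 := (spectrum.pow_nnnorm_pow_one_div_tendsto_nhds_spectralRadius a).eventually
    (gt_mem_nhds hq1)
  rw [tendsto_zero_iff_norm_tendsto_zero]
  have h3 : Tendsto (fun k : ℕ => (q : ℝ) ^ k) atTop (𝓝 0) :=
    tendsto_pow_atTop_nhds_zero_of_lt_one q.2 (by exact_mod_cast hq3)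
  refine squeeze_zero' (Eventually.of_forall fun k => norm_nonneg _) ?_ h3
  filter_upwards [h2, eventually_gt_atTop 0] with k hk hk0
  have hk1 : (0 : ℝ) < k := by exact_mod_cast hk0
  have h4 : ((‖a ^ k‖₊ : ℝ≥0∞) ^ (1 / k : ℝ)) ^ (k : ℝ) ≤ (q : ℝ≥0∞) ^ (k : ℝ) :=
    ENNReal.rpow_le_rpow hk.le hk1.le
  rw [← ENNReal.rpow_mul, one_div_mul_cancel hk1.ne', ENNReal.rpow_one,
    ENNReal.rpow_natCast] at h4
  have h5 : ‖a ^ k‖₊ ≤ q ^ k := by exact_mod_cast h4
  exact_mod_cast h5

end SpecAux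

/-- T7b: division lemma: f - p = charpoly · h on Ω. -/
theorem agrees_factor {n : ℕ} (A : Matrix (Fin n) (Fin n) ℂ) (Ω : Set ℂ) (hΩ : IsOpen Ω)
    (hσ : spectrum ℂ A ⊆ Ω) (f : ℂ → ℂ) (hf : DifferentiableOn ℂ f Ω) (p : Polynomial ℂ)
    (hp : Crest.AnalysisR.NumRange.AgreesOnSpectrum A f p) :
    ∃ g : ℂ → ℂ, DifferentiableOn ℂ g Ω ∧ ∀ z ∈ Ω, f z - p.eval z = A.charpoly.eval z * g z := by
  have hroots : ∀ a ∈ A.charpoly.roots, a ∈ Ω := fun a ha =>
    hσ (SpecAux.mem_spectrum_of_charpoly_root A ha)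
  have hpd : DifferentiableOn ℂ (fun z => p.eval z) Ω := p.differentiable.differentiableOn
  have hmonic := A.charpoly_monic
  obtain ⟨g, hg, hgz⟩ := SpecAux.peel hΩ A.charpoly.roots hroots (fun z => f z - p.eval z)
    (hf.sub hpd) (by
      intro a ha
      have haΩ := hroots a ha
      have hfa : AnalyticAt ℂ f a := hf.analyticAt (hΩ.mem_nhds haΩ)
      have hpa : AnalyticAt ℂ (fun z => p.eval z) a := hpd.analyticAt (hΩ.mem_nhds haΩ)
      have hcount : A.charpoly.roots.count a ≤ n := by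
        calc A.charpoly.roots.count a ≤ Multiset.card A.charpoly.roots :=
              Multiset.count_le_card _ _
          _ ≤ A.charpoly.natDegree := card_roots' _
          _ = n := by rw [Matrix.charpoly_natDegree_eq_dim, Fintype.card_fin]
      have han : AnalyticAt ℂ (fun z => f z - p.eval z) a := hfa.sub hpa
      refine le_trans (Nat.cast_le.2 hcount) ?_
      rw [natCast_le_analyticOrderAt_iff_iteratedDeriv_eq_zero han]
      intro j hj
      have h1 := hp a (SpecAux.mem_spectrum_of_charpoly_root A ha) j hj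
      have h2 : iteratedDeriv j (fun z => f z - p.eval z) a
          = iteratedDeriv j f a - iteratedDeriv j (fun z => p.eval z) a :=
        iteratedDeriv_fun_sub (hfa.contDiffAt) (hpa.contDiffAt)
      rw [h2, h1, sub_self])
  refine ⟨g, hg, fun z hz => ?_⟩
  rw [hgz z hz]
  congr 1
  have hsplit : A.charpoly = (A.charpoly.roots.map fun a => X - C a).prod := by
    have := (IsAlgClosed.splits A.charpoly).eq_prod_roots
    rw [hmonic.leadingCoeff, C_1, one_mul] at this
    exact this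
  conv_rhs => rw [hsplit]
  rw [eval_multiset_prod, Multiset.map_map]
  congr 1
  apply Multiset.map_congr rfl
  intro a _
  simp

/-- T7d: T = f(A) has powers tending to zero. -/
theorem pow_tendsto {n : ℕ} (A : Matrix (Fin n) (Fin n) ℂ) (Ω : Set ℂ) (hΩ : IsOpen Ω)
    (hσ : spectrum ℂ A ⊆ Ω) (f : ℂ → ℂ) (hf : DifferentiableOn ℂ f Ω)
    (hf1 : ∀ z ∈ Ω, ‖f z‖ < 1) (p : Polynomial ℂ) (hn : 1 ≤ n)
    (hp : Crest.AnalysisR.NumRange.AgreesOnSpectrum A f p) :
    Filter.Tendsto (fun k : ℕ => (aeval A p) ^ k) Filter.atTop (nhds 0) := by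
  have : Nonempty (Fin n) := ⟨⟨0, hn⟩⟩
  set T := aeval A p with hT
  let Φ := Matrix.toEuclideanCLM (n := Fin n) (𝕜 := ℂ)
  have : Nontrivial (EuclideanSpace ℂ (Fin n)) := inferInstance
  have hne : (spectrum ℂ A).Nonempty := by
    have h1 : (spectrum ℂ (Φ A)).Nonempty := spectrum.nonempty _
    rwa [AlgEquiv.spectrum_eq Φ] at h1
  have hspT : ∀ z ∈ spectrum ℂ T, ‖z‖ < 1 := by
    intro z hz
    rw [hT, spectrum.map_polynomial_aeval_of_nonempty A p hne] at hz
    obtain ⟨μ, hμ, rfl⟩ := hz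
    have h0 := hp μ hμ 0 (by omega)
    simp only [iteratedDeriv_zero] at h0
    show ‖p.eval μ‖ < 1
    rw [h0]
    exact hf1 μ (hσ hμ)
  have hΦ : Tendsto (fun k : ℕ => (Φ T) ^ k) atTop (𝓝 0) := by
    apply SpecAux.pow_norm_tendsto
    intro z hz
    rw [AlgEquiv.spectrum_eq Φ] at hz
    exact hspT z hz
  refine tendsto_pi_nhds.2 fun i => tendsto_pi_nhds.2 fun j => ?_
  have h2 : Tendsto (fun k : ℕ => ((Φ T) ^ k) (EuclideanSpace.single j 1)) atTop
      (𝓝 ((0 : EuclideanSpace ℂ (Fin n) →L[ℂ] EuclideanSpace ℂ (Fin n)) (EuclideanSpace.single j 1))) :=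
    ((ContinuousLinearMap.apply ℂ _ (EuclideanSpace.single j (1 : ℂ))).continuous.tendsto _).comp hΦ
  have h3 : Tendsto (fun k : ℕ => (((Φ T) ^ k) (EuclideanSpace.single j 1)) i) atTop
      (𝓝 (((0 : EuclideanSpace ℂ (Fin n) →L[ℂ] EuclideanSpace ℂ (Fin n))
        (EuclideanSpace.single j 1)) i)) :=
    ((EuclideanSpace.proj (𝕜 := ℂ) i).continuous.tendsto _).comp h2
  have h4 : (fun k : ℕ => (((Φ T) ^ k) (EuclideanSpace.single j 1)) i) = fun k => (T ^ k) i j := by
    funext k
    rw [← map_pow]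
    generalize T ^ k = M
    simp only [Φ]
    have h5 : (Matrix.toEuclideanCLM (n := Fin n) (𝕜 := ℂ) M) (EuclideanSpace.single j 1)
        = WithLp.toLp 2 (M.mulVec (Pi.single j 1)) := by
      rw [← Matrix.toEuclideanCLM_toLp]
      rfl
    rw [h5]
    simp
  rw [h4] at h3
  simpa using h3

/-- the numerical range contains the spectrum. -/
theorem spectrum_subset_numRange {n : ℕ} (A : Matrix (Fin n) (Fin n) ℂ) :
    spectrum ℂ A ⊆ Crest.AnalysisR.NumRange.numRange A := by
  intro μ hμ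
  have h1 : Module.End.HasEigenvalue (Matrix.toEuclideanLin A) μ := by
    rw [Module.End.hasEigenvalue_iff_mem_spectrum]
    have h2 : spectrum ℂ ((Matrix.toLpLin 2 2) A) = spectrum ℂ A := Matrix.spectrum_toLpLin 2
    have h3 : Matrix.toEuclideanLin A = (Matrix.toLpLin 2 2) A := rfl
    rw [h3, h2]
    exact hμ
  obtain ⟨x, hx⟩ := h1.exists_hasEigenvector
  have hx0 : x ≠ 0 := hx.2
  have hxe : Matrix.toEuclideanLin A x = μ • x := hx.apply_eq_smul
  refine ⟨((‖x‖ : ℂ)⁻¹) • x, ?_, ?_⟩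
  · rw [norm_smul, norm_inv, Complex.norm_real, norm_norm, inv_mul_cancel₀ (norm_ne_zero_iff.2 hx0)]
  · rw [map_smul, hxe, smul_comm, inner_smul_right, inner_self_eq_norm_sq_to_K]
    have : ‖((‖x‖ : ℂ)⁻¹) • x‖ = 1 := by
      rw [norm_smul, norm_inv, Complex.norm_real, norm_norm,
        inv_mul_cancel₀ (norm_ne_zero_iff.2 hx0)]
    rw [this]
    simp

end Crest.Agent.H23
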