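import Crest.Agent.H23.Defs
import Crest.Agent.H23.Calc
import Crest.Agent.H23.ExtOp
import Crest.Agent.H23.TH
import Crest.Agent.H23.Main
import Crest.Agent.H23.Level
import Crest.Agent.H23.Spec
import Crest.Agent.H23.Opt
import Crest.Agent.H23.Dual
import Crest.Prelude.Def_NumRangeMetric

set_option autoImplicit false

open Metric Set Polynomial
open Crest.AnalysisR.NumRange

namespace Crest.Agent.H23

namespace Asm180

/-- `q(f) - q(p)` is divisible by whatever divides `f - p`. -/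
lemma div_comp {Ω : Set ℂ} {f g : ℂ → ℂ} (c p : Polynomial ℂ)
    (hf : DifferentiableOn ℂ f Ω) (hg : DifferentiableOn ℂ g Ω)
    (h : ∀ z ∈ Ω, f z - p.eval z = c.eval z * g z) (q : Polynomial ℂ) :
    ∃ g' : ℂ → ℂ, DifferentiableOn ℂ g' Ω ∧
      ∀ z ∈ Ω, q.eval (f z) - (q.comp p).eval z = c.eval z * g' z := by
  induction q using Polynomial.induction_on' with
  | add q1 q2 h1 h2 =>
    obtain ⟨g1, hg1, e1⟩ := h1
    obtain ⟨g2, hg2, e2⟩ := h2
    refine ⟨fun z => g1 z + g2 z, hg1.add hg2, fun z hz => ?_⟩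
    have e1' := e1 z hz
    have e2' := e2 z hz
    simp only [eval_add, add_comp]
    linear_combination e1' + e2'
  | monomial n a =>
    have hn : ∃ g' : ℂ → ℂ, DifferentiableOn ℂ g' Ω ∧
        ∀ z ∈ Ω, (f z) ^ n - (p.eval z) ^ n = c.eval z * g' z := by
      induction n with
      | zero => exact ⟨fun _ => 0, differentiableOn_const _, fun z _ => by simp⟩
      | succ n ih =>
        obtain ⟨g1, hg1, e1⟩ := ih
        refine ⟨fun z => f z * g1 z + (p.eval z) ^ n * g z, ?_, fun z hz => ?_⟩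
        · exact (hf.mul hg1).add ((p.differentiable.differentiableOn.pow n).mul hg)
        · have e1' := e1 z hz
          have e2' := h z hz
          linear_combination (f z) * e1' + (p.eval z) ^ n * e2'
    obtain ⟨g1, hg1, e1⟩ := hn
    refine ⟨fun z => a * g1 z, hg1.const_mul a, fun z hz => ?_⟩
    have e1' := e1 z hz
    simp only [eval_monomial, monomial_comp, eval_mul, eval_C, eval_pow]
    linear_combination a * e1'

theorem cb {n : ℕ} (hn : 1 ≤ n) (A : Matrix (Fin n) (Fin n) ℂ)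
    (Ω : Set ℂ) (hΩ : IsOpen Ω) (hc : Convex ℝ Ω) (f : ℂ → ℂ) (hf : DifferentiableOn ℂ f Ω)
    (hf1 : ∀ z ∈ Ω, ‖f z‖ ≤ 1) (hA : numRange A ⊆ Ω) (p : Polynomial ℂ)
    (hp : AgreesOnSpectrum A f p) (m : ℕ) (q : Fin m → Fin m → Polynomial ℂ)
    (hq : ∀ z : ℂ, ‖z‖ ≤ 1 → ‖Matrix.toEuclideanCLM (n := Fin m) (𝕜 := ℂ)
          (Matrix.of fun i j => (q i j).eval z)‖ ≤ 1)
    (v : Fin m → EuclideanSpace ℂ (Fin n)) :
    ∑ i, ‖∑ j, Matrix.toEuclideanCLM (n := Fin n) (𝕜 := ℂ)
        (aeval (aeval A p) (q i j)) (v j)‖ ^ 2 ≤ 4 * ∑ j, ‖v j‖ ^ 2 := by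
  classical
  set Φ := Matrix.toEuclideanCLM (n := Fin n) (𝕜 := ℂ) with hΦ
  set B : EuclideanSpace ℂ (Fin n) →L[ℂ] EuclideanSpace ℂ (Fin n) := Φ A with hB
  have : Nonempty (Fin n) := ⟨⟨0, hn⟩⟩
  have : Nontrivial (EuclideanSpace ℂ (Fin n)) := inferInstance
  set W : Set ℂ := {z : ℂ | ∃ x : EuclideanSpace ℂ (Fin n), ‖x‖ = 1 ∧ z = inner ℂ x (B x)}
    with hWdef
  have hWA : W = numRange A := rfl
  have hWc : Convex ℝ W := toeplitz_hausdorff B
  have hWimg : W = (fun x : EuclideanSpace ℂ (Fin n) => inner ℂ x (B x)) '' sphere 0 1 := by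
    ext z
    simp only [hWdef, mem_ofPred_eq, mem_image, mem_sphere_zero_iff_norm]
    constructor
    · rintro ⟨x, hx, rfl⟩; exact ⟨x, hx, rfl⟩
    · rintro ⟨x, hx, rfl⟩; exact ⟨x, hx, rfl⟩
  have hWk : IsCompact W := by
    rw [hWimg]
    refine (isCompact_sphere _ 1).image ?_
    exact continuous_id.inner B.continuous
  have hWne : W.Nonempty := by
    obtain ⟨x, hx⟩ := exists_norm_eq (EuclideanSpace ℂ (Fin n)) (zero_le_one)
    exact ⟨_, x, hx, rfl⟩
  obtain ⟨c, hcW⟩ := hWne
  have hWV : W ⊆ Ω := hA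
  obtain ⟨δ, hδ, hδV⟩ := hWk.exists_cthickening_subset_open hΩ hWV
  set K : Set ℂ := (fun z => z + c) ⁻¹' (cthickening δ W) with hK
  have hKc : IsCompact K := by
    have h1 : IsCompact (cthickening δ W) := hWk.cthickening
    have h2 : K = (fun z => z - c) '' (cthickening δ W) := by
      ext z
      simp only [hK, mem_preimage, mem_image]
      constructor
      · intro h; exact ⟨z + c, h, by ring⟩
      · rintro ⟨y, hy, rfl⟩; simpa using hy
    rw [h2]
    exact h1.image (by fun_prop)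
  have hKconv : Convex ℝ K := by
    have h1 : Convex ℝ (cthickening δ W) := hWc.cthickening δ
    exact h1.translate_preimage_left c
  have hK0 : (0 : ℂ) ∈ interior K := by
    have h1 : c ∈ thickening δ W := self_subset_thickening hδ W hcW
    have h2 : (fun z => z + c) ⁻¹' (thickening δ W) ⊆ K :=
      preimage_mono (thickening_subset_cthickening δ W)
    have h3 : IsOpen ((fun z : ℂ => z + c) ⁻¹' (thickening δ W)) :=
      isOpen_thickening.preimage (by fun_prop)
    exact interior_maximal h2 h3 (by simpa using h1)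
  set V' : Set ℂ := (fun z => z + c) ⁻¹' Ω with hV'
  have hVo' : IsOpen V' := hΩ.preimage (by fun_prop)
  have hVc' : Convex ℝ V' := hc.translate_preimage_left c
  have hKV : K ⊆ V' := preimage_mono hδV
  obtain ⟨χ, R, hext, hK1, hV1, hK2⟩ := exists_ext K V' hKc hKconv hK0 hVo' hKV
  set A' : EuclideanSpace ℂ (Fin n) →L[ℂ] EuclideanSpace ℂ (Fin n) := B - c • 1 with hA'
  have hW' : ∀ x : EuclideanSpace ℂ (Fin n), ‖x‖ = 1 → inner ℂ x (A' x) ∈ K := by
    intro x hx
    have h1 : inner ℂ x (A' x) + c = inner ℂ x (B x) := by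
      simp only [hA', sub_apply, smul_apply,
        one_apply_eq_self, inner_sub_right, inner_smul_right,
        inner_self_eq_norm_sq_to_K, hx]
      simp
    show inner ℂ x (A' x) + c ∈ cthickening δ W
    rw [h1]
    exact self_subset_cthickening W ⟨x, hx, rfl⟩
  obtain ⟨hunit, hpos⟩ := ext_op hext hK1 hK2 A' hW'
  have hAc : aeval A' (X + C c : Polynomial ℂ) = B := by
    rw [map_add, aeval_X, aeval_C, Algebra.algebraMap_eq_smul_one, hA']
    abel
  -- factorization
  obtain ⟨g0, hg0, e0⟩ := agrees_factor A Ω hΩ ((spectrum_subset_numRange A).trans hA) f hf p hp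
  have hfac : ∀ i j, ∃ g' : ℂ → ℂ, DifferentiableOn ℂ g' Ω ∧
      ∀ z ∈ Ω, (q i j).eval (f z) - ((q i j).comp p).eval z = A.charpoly.eval z * g' z :=
    fun i j => div_comp A.charpoly p hf hg0 e0 (q i j)
  choose g hg hge using hfac
  have haev : ∀ w : Polynomial ℂ, Φ (aeval A w) = aeval B w := by
    intro w
    induction w using Polynomial.induction_on' with
    | add p q hp hq => rw [map_add, map_add, map_add, hp, hq]
    | monomial k a =>
      rw [aeval_monomial, aeval_monomial, map_mul, map_pow, AlgHomClass.commutes]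
  have hinvχ : ContinuousOn (fun u => (χ u)⁻¹) (sphere 0 1) := fun u hu =>
    (CalcAux.inv_chi_diffAt hext hu).continuousAt.continuousWithinAt
  have hfc' : ContinuousOn f Ω := hf.continuousOn
  have hmaps : ∀ u ∈ sphere (0:ℂ) 1, (χ u)⁻¹ + c ∈ Ω := fun u hu => hV1 u (by simpa using hu)
  have hmain := main_ineq hext A' hunit hpos m
    (fun u => Matrix.of fun i j => (q i j).eval (f ((χ u)⁻¹ + c)))
    (by
      intro i j
      have h1 : ContinuousOn (fun u => f ((χ u)⁻¹ + c)) (sphere 0 1) :=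
        hfc'.comp (hinvχ.add continuousOn_const) hmaps
      exact (q i j).continuous.comp_continuousOn h1)
    1
    (by
      intro u hu
      exact hq _ (hf1 _ (hmaps u (by simpa using hu))))
    (fun i j => Φ (aeval (aeval A p) (q i j)))
    (by
      intro i j w
      have h1 : Φ (aeval (aeval A p) (q i j)) = aeval A' (((q i j).comp p).comp (X + C c)) := by
        rw [← aeval_comp, haev, aeval_comp (x := A'), hAc]
      rw [h1, ← map_mul, ← poly_calc hext A' hunit]
      have h2 : aeval A' (A.charpoly.comp (X + C c)) = 0 := by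
        rw [aeval_comp, hAc, ← haev, Matrix.aeval_self_charpoly, map_zero]
      have h3 := mul_calc hext A' hunit ((A.charpoly.comp (X + C c)) * w) V' hVo' hVc'
        (fun u hu => hV1 u hu) (fun z => g i j (z + c))
        ((hg i j).comp (differentiableOn_id.add_const c) (fun z hz => hz))
      rw [map_mul, h2, zero_mul, zero_mul] at h3
      have hc1 : ContinuousOn (fun u : ℂ => eval (χ u)⁻¹ (((q i j).comp p).comp (X + C c) * w) •
          Res χ A' u) (sphere 0 1) :=
        ((Polynomial.continuous _).comp_continuousOn hinvχ).smul (MainAux.res_cont hext A' hunit)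
      have hc2 : ContinuousOn (fun u : ℂ => (((A.charpoly.comp (X + C c)) * w).eval (χ u)⁻¹ *
          (g i j ((χ u)⁻¹ + c))) • Res χ A' u) (sphere 0 1) := by
        have h5 : ContinuousOn (fun u : ℂ => g i j ((χ u)⁻¹ + c)) (sphere 0 1) :=
          (hg i j).continuousOn.comp (hinvχ.add continuousOn_const) hmaps
        have h6 : ContinuousOn (fun u : ℂ => (((A.charpoly.comp (X + C c)) * w).eval (χ u)⁻¹ *
          (g i j ((χ u)⁻¹ + c)))) (sphere 0 1) :=
          ((Polynomial.continuous _).comp_continuousOn hinvχ).mul h5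
        exact h6.smul (MainAux.res_cont hext A' hunit)
      have h4 := MainAux.avg_add hc1 hc2
      rw [h3, add_zero] at h4
      rw [← h4]
      apply Real.circleAverage_congr_sphere
      intro u hu
      rw [abs_one] at hu
      show (((q i j).comp p).comp (X + C c) * w).eval (χ u)⁻¹ • Res χ A' u +
        (((A.charpoly.comp (X + C c)) * w).eval (χ u)⁻¹ * (g i j ((χ u)⁻¹ + c))) • Res χ A' u
        = ((q i j).eval (f ((χ u)⁻¹ + c)) * w.eval (χ u)⁻¹) • Res χ A' u
      rw [← add_smul]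
      congr 1
      have h5 := hge i j _ (hmaps u hu)
      simp only [eval_mul, eval_comp, eval_add, eval_X, eval_C] at h5 ⊢
      linear_combination -(eval (χ u)⁻¹ w) * h5)
    v
  norm_num at hmain
  exact hmain

/-- S0180 -/
theorem main (n : ℕ) (hn : 1 ≤ n) (A : Matrix (Fin n) (Fin n) ℂ)
    (Ω U : Set ℂ) (hΩ₁ : IsOpen Ω) (hΩ₃ : Convex ℝ Ω) (hΩU : Ω ⊆ U)
    (f : ℂ → ℂ) (hf₁ : DifferentiableOn ℂ f U)
    (hf₃ : f '' Ω = Metric.ball 0 1)
    (hA : numRange A ⊆ Ω) (p : Polynomial ℂ) (hp : AgreesOnSpectrum A f p) :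
    (∃ (H : Matrix (Fin n) (Fin n) ℂ) (τ : ℝ), MetricStrictlyFeasible (Polynomial.aeval A p) H τ) ∧
    ∃ (H : Matrix (Fin n) (Fin n) ℂ) (κsq : ℝ),
      IsOptimalMetric (Polynomial.aeval A p) H κsq ∧ 1 ≤ κsq ∧ κsq ≤ 4 := by
  have hf : DifferentiableOn ℂ f Ω := hf₁.mono hΩU
  have hf1 : ∀ z ∈ Ω, ‖f z‖ < 1 := by
    intro z hz
    have : f z ∈ ball (0:ℂ) 1 := hf₃ ▸ mem_image_of_mem f hz
    simpa using this
  have hT := pow_tendsto A Ω hΩ₁ ((spectrum_subset_numRange A).trans hA) f hf hf1 p hn hp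
  obtain ⟨h1, H, κsq, hopt, h1κ⟩ := metric_exists hn (aeval A p) hT
  refine ⟨h1, H, κsq, hopt, h1κ, ?_⟩
  obtain ⟨H', hH'⟩ := metric_of_cb (aeval A p) hT 4 (by norm_num)
    (fun m q hq v => cb hn A Ω hΩ₁ hΩ₃ f hf (fun z hz => (hf1 z hz).le) hA p hp m q hq v)
  exact hopt.2 H' 4 hH'

end Asm180

end Crest.Agent.H23
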