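import Mathlib

/-! Row 132, part of T8: the norm bound from a positive density. -/

set_option autoImplicit false

open Metric Set
open scoped ComplexOrder MatrixOrder

namespace Crest.Agent.H23

namespace DensBound

variable {n m : ℕ}

/-- the sesquilinear form `∑ conj(y_ac) Λ_ab F_cd x_bd`. -/
noncomputable def frm (Λ : Matrix (Fin n) (Fin n) ℂ) (F : Matrix (Fin m) (Fin m) ℂ)
    (y x : Fin n × Fin m → ℂ) : ℂ :=
  ∑ i : Fin n × Fin m, ∑ j : Fin n × Fin m,
    (starRingEnd ℂ) (y i) * (Λ i.1 j.1 * F i.2 j.2) * x j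

/-- the component vectors `(R x)_r ∈ ℂ^m`. -/
noncomputable def cmp (R : Matrix (Fin n) (Fin n) ℂ) (x : Fin n × Fin m → ℂ) (r : Fin n) :
    EuclideanSpace ℂ (Fin m) := WithLp.toLp 2 fun c => ∑ a, R r a * x (a, c)

lemma sum_rot {α β γ δ ε : Type*} [Fintype α] [Fintype β] [Fintype γ] [Fintype δ] [Fintype ε]
    (g : α → β → γ → δ → ε → ℂ) :
    ∑ a, ∑ c, ∑ b, ∑ d, ∑ r, g a c b d r = ∑ r, ∑ a, ∑ c, ∑ b, ∑ d, g a c b d r := by
  calc ∑ a, ∑ c, ∑ b, ∑ d, ∑ r, g a c b d r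
      = ∑ a, ∑ c, ∑ b, ∑ r, ∑ d, g a c b d r :=
        Finset.sum_congr rfl fun _ _ => Finset.sum_congr rfl fun _ _ =>
          Finset.sum_congr rfl fun _ _ => Finset.sum_comm
    _ = ∑ a, ∑ c, ∑ r, ∑ b, ∑ d, g a c b d r :=
        Finset.sum_congr rfl fun _ _ => Finset.sum_congr rfl fun _ _ => Finset.sum_comm
    _ = ∑ a, ∑ r, ∑ c, ∑ b, ∑ d, g a c b d r :=
        Finset.sum_congr rfl fun _ _ => Finset.sum_comm
    _ = ∑ r, ∑ a, ∑ c, ∑ b, ∑ d, g a c b d r := Finset.sum_comm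

lemma frm_eq (R : Matrix (Fin n) (Fin n) ℂ) (F : Matrix (Fin m) (Fin m) ℂ)
    (y x : Fin n × Fin m → ℂ) :
    frm (R.conjTranspose * R) F y x
      = ∑ r, inner ℂ (cmp R y r) (Matrix.toEuclideanCLM (n := Fin m) (𝕜 := ℂ) F (cmp R x r)) := by
  have h1 : ∀ r, inner ℂ (cmp R y r) (Matrix.toEuclideanCLM (n := Fin m) (𝕜 := ℂ) F (cmp R x r))
      = ∑ a, ∑ c, ∑ b, ∑ d, (R r b * x (b, d)) * F c d * ((starRingEnd ℂ) (R r a * y (a, c))) := by
    intro r
    rw [cmp, cmp, Matrix.toEuclideanCLM_toLp, PiLp.inner_apply, Finset.sum_comm]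
    apply Finset.sum_congr rfl
    intro c _
    simp only [Matrix.mulVec, dotProduct, RCLike.inner_apply, map_sum]
    rw [Finset.mul_sum]
    apply Finset.sum_congr rfl
    intro a _
    rw [Finset.sum_mul, Finset.sum_comm]
    apply Finset.sum_congr rfl
    intro d _
    rw [Finset.mul_sum, Finset.sum_mul]
    apply Finset.sum_congr rfl
    intro b _
    ring
  rw [Finset.sum_congr rfl fun r _ => h1 r, ← sum_rot]
  unfold frm
  simp only [Fintype.sum_prod_type, Matrix.mul_apply, Matrix.conjTranspose_apply]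
  apply Finset.sum_congr rfl
  intro a _
  apply Finset.sum_congr rfl
  intro c _
  apply Finset.sum_congr rfl
  intro b _
  apply Finset.sum_congr rfl
  intro d _
  rw [Finset.sum_mul, Finset.mul_sum, Finset.sum_mul]
  apply Finset.sum_congr rfl
  intro r _
  rw [map_mul]
  simp only [RCLike.star_def]
  ring

/-- pointwise inequality -/
lemma frm_bound {Λ : Matrix (Fin n) (Fin n) ℂ} (hΛ : Λ.PosSemidef) (F : Matrix (Fin m) (Fin m) ℂ)
    {M : ℝ} (hM : ‖Matrix.toEuclideanCLM (n := Fin m) (𝕜 := ℂ) F‖ ≤ M)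
    (y x : Fin n × Fin m → ℂ) :
    ‖frm Λ F y x‖ ≤ M / 2 * ((frm Λ 1 y y).re + (frm Λ 1 x x).re) := by
  obtain ⟨R, hR⟩ : ∃ R : Matrix (Fin n) (Fin n) ℂ, Λ = R.conjTranspose * R :=
    CStarAlgebra.nonneg_iff_eq_star_mul_self.1 hΛ.nonneg
  have h1 : ∀ z : Fin n × Fin m → ℂ, (frm Λ 1 z z).re = ∑ r, ‖cmp R z r‖ ^ 2 := by
    intro z
    rw [hR, frm_eq, map_one, Complex.re_sum]
    apply Finset.sum_congr rfl
    intro r _
    rw [one_apply_eq_self, inner_self_eq_norm_sq_to_K]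
    norm_cast
  rw [h1, h1, hR, frm_eq]
  have hM0 : 0 ≤ M := le_trans (norm_nonneg _) hM
  calc ‖∑ r, inner ℂ (cmp R y r) (Matrix.toEuclideanCLM (n := Fin m) (𝕜 := ℂ) F (cmp R x r))‖
      ≤ ∑ r, ‖inner ℂ (cmp R y r) (Matrix.toEuclideanCLM (n := Fin m) (𝕜 := ℂ) F (cmp R x r))‖ :=
        norm_sum_le _ _
    _ ≤ ∑ r, M / 2 * (‖cmp R y r‖ ^ 2 + ‖cmp R x r‖ ^ 2) := by
        apply Finset.sum_le_sum
        intro r _
        have h2 := norm_inner_le_norm (𝕜 := ℂ) (cmp R y r)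
          (Matrix.toEuclideanCLM (n := Fin m) (𝕜 := ℂ) F (cmp R x r))
        have h3 : ‖Matrix.toEuclideanCLM (n := Fin m) (𝕜 := ℂ) F (cmp R x r)‖
            ≤ M * ‖cmp R x r‖ :=
          (ContinuousLinearMap.le_opNorm _ _).trans (by gcongr)
        have h4 : ‖cmp R y r‖ * ‖Matrix.toEuclideanCLM (n := Fin m) (𝕜 := ℂ) F (cmp R x r)‖
            ≤ ‖cmp R y r‖ * (M * ‖cmp R x r‖) := by gcongr
        nlinarith [mul_nonneg hM0 (sq_nonneg (‖cmp R y r‖ - ‖cmp R x r‖))]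
    _ = M / 2 * (∑ r, ‖cmp R y r‖ ^ 2 + ∑ r, ‖cmp R x r‖ ^ 2) := by
        rw [← Finset.mul_sum, Finset.sum_add_distrib]

/-- The norm bound from a positive semidefinite density of mean `1`. -/
theorem dens_bound (Λ : ℝ → Matrix (Fin n) (Fin n) ℂ) (hc : Continuous Λ)
    (hpsd : ∀ θ, (Λ θ).PosSemidef)
    (hmean : ∀ a b, (2 * Real.pi : ℂ)⁻¹ * (∫ θ in (0 : ℝ)..2 * Real.pi, Λ θ a b)
        = (1 : Matrix (Fin n) (Fin n) ℂ) a b)
    (F : ℝ → Matrix (Fin m) (Fin m) ℂ) (hF : ∀ c d, Continuous fun θ => F θ c d) {M : ℝ}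
    (hM : ∀ θ, ‖Matrix.toEuclideanCLM (n := Fin m) (𝕜 := ℂ) (F θ)‖ ≤ M)
    (Z : Matrix (Fin n × Fin m) (Fin n × Fin m) ℂ)
    (hZ : ∀ i j, Z i j = (2 * Real.pi : ℂ)⁻¹ *
      (∫ θ in (0 : ℝ)..2 * Real.pi, Λ θ i.1 j.1 * F θ i.2 j.2)) :
    ‖Matrix.toEuclideanCLM (n := Fin n × Fin m) (𝕜 := ℂ) Z‖ ≤ M := by
  have hM0 : 0 ≤ M := le_trans (norm_nonneg _) (hM 0)
  have hΛc : ∀ a b, Continuous fun θ => Λ θ a b := fun a b => by
    exact (continuous_apply_apply a b).comp hc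
  have hint : ∀ (G : ℝ → Matrix (Fin m) (Fin m) ℂ) (hG : ∀ c d, Continuous fun θ => G θ c d)
      (y x : Fin n × Fin m → ℂ), Continuous fun θ => frm (Λ θ) (G θ) y x := by
    intro G hG y x
    unfold frm
    refine continuous_finsetSum _ fun i _ => continuous_finsetSum _ fun j _ => ?_
    exact (continuous_const.mul ((hΛc _ _).mul (hG _ _))).mul continuous_const
  -- integral of the form
  have hform : ∀ (G : ℝ → Matrix (Fin m) (Fin m) ℂ) (hG : ∀ c d, Continuous fun θ => G θ c d)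
      (Y : Matrix (Fin n × Fin m) (Fin n × Fin m) ℂ)
      (hY : ∀ i j, Y i j = (2 * Real.pi : ℂ)⁻¹ *
        (∫ θ in (0 : ℝ)..2 * Real.pi, Λ θ i.1 j.1 * G θ i.2 j.2))
      (y x : Fin n × Fin m → ℂ),
      ∑ i, ∑ j, (starRingEnd ℂ) (y i) * Y i j * x j
        = (2 * Real.pi : ℂ)⁻¹ * ∫ θ in (0 : ℝ)..2 * Real.pi, frm (Λ θ) (G θ) y x := by
    intro G hG Y hY y x
    unfold frm
    rw [intervalIntegral.integral_finsetSum, Finset.mul_sum]
    · apply Finset.sum_congr rfl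
      intro i _
      rw [intervalIntegral.integral_finsetSum, Finset.mul_sum]
      · apply Finset.sum_congr rfl
        intro j _
        rw [intervalIntegral.integral_mul_const, intervalIntegral.integral_const_mul, hY]
        ring
      · intro j _
        apply Continuous.intervalIntegrable
        exact (continuous_const.mul ((hΛc _ _).mul (hG _ _))).mul continuous_const
    · intro i _
      apply Continuous.intervalIntegrable
      refine continuous_finsetSum _ fun j _ => ?_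
      exact (continuous_const.mul ((hΛc _ _).mul (hG _ _))).mul continuous_const
  -- the mean of the diagonal form is the norm squared
  have hone : ∀ x : Fin n × Fin m → ℂ,
      (2 * Real.pi)⁻¹ * ∫ θ in (0 : ℝ)..2 * Real.pi, (frm (Λ θ) 1 x x).re = ∑ i, ‖x i‖ ^ 2 := by
    intro x
    have h1 := hform (fun _ => 1) (fun _ _ => continuous_const) 1 (by
      intro i j
      rw [intervalIntegral.integral_mul_const, ← mul_assoc, hmean]
      rcases i with ⟨a, c⟩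
      rcases j with ⟨b, d⟩
      simp only [Matrix.one_apply, Prod.mk.injEq]
      by_cases hab : a = b <;> by_cases hcd : c = d <;> simp [hab, hcd]) x x
    have h2 : ∑ i, ∑ j, (starRingEnd ℂ) (x i) * (1 : Matrix (Fin n × Fin m) (Fin n × Fin m) ℂ) i j * x j
        = ((∑ i, ‖x i‖ ^ 2 : ℝ) : ℂ) := by
      push_cast
      apply Finset.sum_congr rfl
      intro i _
      rw [Finset.sum_eq_single i]
      · rw [Matrix.one_apply_eq, mul_one, mul_comm, Complex.mul_conj, Complex.normSq_eq_norm_sq]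
        push_cast; rfl
      · intro j _ hj
        rw [Matrix.one_apply_ne (Ne.symm hj)]; simp
      · intro h; exact absurd (Finset.mem_univ i) h
    rw [h2] at h1
    have h3 : (∫ θ in (0 : ℝ)..2 * Real.pi, (frm (Λ θ) 1 x x).re)
        = (∫ θ in (0 : ℝ)..2 * Real.pi, frm (Λ θ) 1 x x).re :=
      (Complex.reCLM.intervalIntegral_comp_comm
        ((hint (fun _ => 1) (fun _ _ => continuous_const) x x).intervalIntegrable _ _))
    rw [h3]
    have h4 := congrArg Complex.re h1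
    rw [Complex.ofReal_re] at h4
    rw [h4]
    have h5 : (2 * Real.pi : ℂ)⁻¹ = (((2 * Real.pi)⁻¹ : ℝ) : ℂ) := by push_cast; ring
    rw [h5, Complex.re_ofReal_mul]
  -- main estimate
  have hmain : ∀ y x : EuclideanSpace ℂ (Fin n × Fin m),
      ‖inner ℂ y (Matrix.toEuclideanCLM (n := Fin n × Fin m) (𝕜 := ℂ) Z x)‖
        ≤ M / 2 * (‖y‖ ^ 2 + ‖x‖ ^ 2) := by
    intro y x
    have h1 : inner ℂ y (Matrix.toEuclideanCLM (n := Fin n × Fin m) (𝕜 := ℂ) Z x)
        = ∑ i, ∑ j, (starRingEnd ℂ) (y i) * Z i j * x j := by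
      rw [PiLp.inner_apply]
      apply Finset.sum_congr rfl
      intro i _
      rw [RCLike.inner_apply, Matrix.ofLp_toEuclideanCLM]
      simp only [Matrix.mulVec, dotProduct]
      rw [Finset.sum_mul]
      apply Finset.sum_congr rfl
      intro j _
      ring
    rw [h1, hform F hF Z hZ]
    rw [norm_mul]
    have hpi : 0 < (2 * Real.pi)⁻¹ := by positivity
    have h5 : ‖(2 * Real.pi : ℂ)⁻¹‖ = (2 * Real.pi)⁻¹ := by
      have : (2 * Real.pi : ℂ)⁻¹ = (((2 * Real.pi)⁻¹ : ℝ) : ℂ) := by push_cast; ring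
      rw [this, Complex.norm_real, Real.norm_of_nonneg hpi.le]
    rw [h5]
    have h6 : ‖∫ θ in (0 : ℝ)..2 * Real.pi, frm (Λ θ) (F θ) y x‖
        ≤ ∫ θ in (0 : ℝ)..2 * Real.pi, M / 2 * ((frm (Λ θ) 1 y y).re + (frm (Λ θ) 1 x x).re) := by
      refine (intervalIntegral.norm_integral_le_integral_norm (by positivity)).trans ?_
      apply intervalIntegral.integral_mono_on (by positivity)
      · exact ((hint F hF y x).norm).intervalIntegrable _ _
      · apply Continuous.intervalIntegrable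
        have c1 := Complex.continuous_re.comp (hint (fun _ => 1) (fun _ _ => continuous_const) y y)
        have c2 := Complex.continuous_re.comp (hint (fun _ => 1) (fun _ _ => continuous_const) x x)
        exact continuous_const.mul (c1.add c2)
      · intro θ _
        exact frm_bound (hpsd θ) (F θ) (hM θ) y x
    calc (2 * Real.pi)⁻¹ * ‖∫ θ in (0 : ℝ)..2 * Real.pi, frm (Λ θ) (F θ) y x‖
        ≤ (2 * Real.pi)⁻¹ * ∫ θ in (0 : ℝ)..2 * Real.pi,
            M / 2 * ((frm (Λ θ) 1 y y).re + (frm (Λ θ) 1 x x).re) := by gcongr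
      _ = M / 2 * ((2 * Real.pi)⁻¹ * (∫ θ in (0 : ℝ)..2 * Real.pi, (frm (Λ θ) 1 y y).re)
            + (2 * Real.pi)⁻¹ * ∫ θ in (0 : ℝ)..2 * Real.pi, (frm (Λ θ) 1 x x).re) := by
          rw [intervalIntegral.integral_const_mul, intervalIntegral.integral_add]
          · ring
          · exact (Complex.continuous_re.comp
              (hint (fun _ => 1) (fun _ _ => continuous_const) y y)).intervalIntegrable _ _
          · exact (Complex.continuous_re.comp
              (hint (fun _ => 1) (fun _ _ => continuous_const) x x)).intervalIntegrable _ _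
      _ = M / 2 * (‖y‖ ^ 2 + ‖x‖ ^ 2) := by
          rw [hone, hone, EuclideanSpace.norm_sq_eq, EuclideanSpace.norm_sq_eq]
  refine ContinuousLinearMap.opNorm_le_of_unit_norm (𝕜 := ℂ) hM0 ?_
  intro x hx
  set w := Matrix.toEuclideanCLM (n := Fin n × Fin m) (𝕜 := ℂ) Z x with hw
  by_cases hw0 : w = 0
  · rw [hw0]; simpa using hM0
  have hwn : 0 < ‖w‖ := norm_pos_iff.2 hw0
  set y : EuclideanSpace ℂ (Fin n × Fin m) := ((‖w‖ : ℂ)⁻¹) • w with hy
  have hyn : ‖y‖ = 1 := by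
    rw [hy, norm_smul, norm_inv, Complex.norm_real, norm_norm, inv_mul_cancel₀ hwn.ne']
  have h1 := hmain y x
  rw [hyn, hx] at h1
  have h2 : inner ℂ y w = (‖w‖ : ℂ) := by
    rw [hy, inner_smul_left, inner_self_eq_norm_sq_to_K, map_inv₀, Complex.conj_ofReal]
    have : (‖w‖ : ℂ) ≠ 0 := by exact_mod_cast hwn.ne'
    simp only [Complex.coe_algebraMap]
    field_simp
  rw [← hw, h2, Complex.norm_real, norm_norm] at h1
  linarith

/-- `‖S v‖² = Re (v* H v)` for Hermitian `S` with `S² = H`. -/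
lemma norm_sq_sqrt {S H : Matrix (Fin n) (Fin n) ℂ} (hS : S.IsHermitian) (hSH : S * S = H)
    (v : EuclideanSpace ℂ (Fin n)) :
    ‖Matrix.toEuclideanCLM (n := Fin n) (𝕜 := ℂ) S v‖ ^ 2
      = (star (WithLp.ofLp v) ⬝ᵥ (H.mulVec (WithLp.ofLp v))).re := by
  have h1 : (‖Matrix.toEuclideanCLM (n := Fin n) (𝕜 := ℂ) S v‖ ^ 2 : ℝ)
      = (star (S.mulVec (WithLp.ofLp v)) ⬝ᵥ (S.mulVec (WithLp.ofLp v))).re := by
    rw [EuclideanSpace.norm_sq_eq, Matrix.ofLp_toEuclideanCLM]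
    simp only [dotProduct, Pi.star_apply, Complex.re_sum]
    apply Finset.sum_congr rfl
    intro i _
    rw [RCLike.star_def, mul_comm, Complex.mul_conj, Complex.normSq_eq_norm_sq, Complex.ofReal_re]
  rw [h1, Matrix.star_mulVec, ← Matrix.dotProduct_mulVec, Matrix.mulVec_mulVec, hS.eq, hSH]

lemma norm_sq_le {S H : Matrix (Fin n) (Fin n) ℂ} (hS : S.IsHermitian) (hSH : S * S = H) {κ : ℝ}
    (hκ : ((κ : ℂ) • (1 : Matrix (Fin n) (Fin n) ℂ) - H).PosSemidef)
    (v : EuclideanSpace ℂ (Fin n)) :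
    ‖Matrix.toEuclideanCLM (n := Fin n) (𝕜 := ℂ) S v‖ ^ 2 ≤ κ * ‖v‖ ^ 2 := by
  rw [norm_sq_sqrt hS hSH]
  have h1 := hκ.re_dotProduct_nonneg (WithLp.ofLp v)
  rw [Matrix.sub_mulVec, dotProduct_sub, Matrix.smul_mulVec, Matrix.one_mulVec, dotProduct_smul] at h1
  have h2 : (star (WithLp.ofLp v) ⬝ᵥ (WithLp.ofLp v)) = ((‖v‖ ^ 2 : ℝ) : ℂ) := by
    rw [EuclideanSpace.norm_sq_eq]
    simp only [dotProduct, Pi.star_apply]
    push_cast
    apply Finset.sum_congr rfl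
    intro i _
    rw [RCLike.star_def, mul_comm, Complex.mul_conj, Complex.normSq_eq_norm_sq]
    push_cast; rfl
  rw [h2] at h1
  simp only [RCLike.re_to_complex, Complex.sub_re, smul_eq_mul, Complex.re_ofReal_mul,
    Complex.ofReal_re] at h1
  linarith

lemma le_norm_sq {S H : Matrix (Fin n) (Fin n) ℂ} (hS : S.IsHermitian) (hSH : S * S = H)
    (hH : (H - 1).PosSemidef)
    (v : EuclideanSpace ℂ (Fin n)) :
    ‖v‖ ^ 2 ≤ ‖Matrix.toEuclideanCLM (n := Fin n) (𝕜 := ℂ) S v‖ ^ 2 := by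
  rw [norm_sq_sqrt hS hSH]
  have h1 := hH.re_dotProduct_nonneg (WithLp.ofLp v)
  rw [Matrix.sub_mulVec, dotProduct_sub, Matrix.one_mulVec] at h1
  have h2 : (star (WithLp.ofLp v) ⬝ᵥ (WithLp.ofLp v)) = ((‖v‖ ^ 2 : ℝ) : ℂ) := by
    rw [EuclideanSpace.norm_sq_eq]
    simp only [dotProduct, Pi.star_apply]
    push_cast
    apply Finset.sum_congr rfl
    intro i _
    rw [RCLike.star_def, mul_comm, Complex.mul_conj, Complex.normSq_eq_norm_sq]
    push_cast; rfl
  rw [h2] at h1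
  simp only [RCLike.re_to_complex, Complex.sub_re, Complex.ofReal_re] at h1
  linarith

/-- `S ⊗ 1` acts slicewise. -/
noncomputable def kr (m : ℕ) (S : Matrix (Fin n) (Fin n) ℂ) :
    Matrix (Fin n × Fin m) (Fin n × Fin m) ℂ :=
  Matrix.of fun i j => if i.2 = j.2 then S i.1 j.1 else 0

lemma kr_mul (S T : Matrix (Fin n) (Fin n) ℂ) : kr m S * kr m T = kr m (S * T) := by
  ext ⟨a, c⟩ ⟨b, d⟩
  simp only [kr, Matrix.mul_apply, Matrix.of_apply, Fintype.sum_prod_type]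
  by_cases hcd : c = d
  · subst hcd
    simp
  · simp only [hcd, if_false]
    apply Finset.sum_eq_zero
    intro r _
    apply Finset.sum_eq_zero
    intro s _
    by_cases h1 : c = s
    · subst h1; simp [hcd]
    · simp [h1]

lemma kr_one : kr m (1 : Matrix (Fin n) (Fin n) ℂ) = 1 := by
  ext ⟨a, c⟩ ⟨b, d⟩
  simp only [kr, Matrix.of_apply, Matrix.one_apply, Prod.mk.injEq]
  by_cases hab : a = b <;> by_cases hcd : c = d <;> simp [hab, hcd]

lemma kr_norm_sq (S : Matrix (Fin n) (Fin n) ℂ) (x : EuclideanSpace ℂ (Fin n × Fin m)) :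
    ‖Matrix.toEuclideanCLM (n := Fin n × Fin m) (𝕜 := ℂ) (kr m S) x‖ ^ 2
      = ∑ c, ‖Matrix.toEuclideanCLM (n := Fin n) (𝕜 := ℂ) S
          (WithLp.toLp 2 fun a => x (a, c))‖ ^ 2 := by
  rw [EuclideanSpace.norm_sq_eq, Fintype.sum_prod_type, Finset.sum_comm]
  apply Finset.sum_congr rfl
  intro c _
  rw [EuclideanSpace.norm_sq_eq]
  apply Finset.sum_congr rfl
  intro a _
  congr 2
  rw [Matrix.ofLp_toEuclideanCLM, Matrix.ofLp_toEuclideanCLM]
  simp only [Matrix.mulVec, dotProduct, kr, Matrix.of_apply, Fintype.sum_prod_type]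
  apply Finset.sum_congr rfl
  intro b _
  simp

lemma slice_norm_sq (x : EuclideanSpace ℂ (Fin n × Fin m)) :
    ‖x‖ ^ 2 = ∑ c, ‖(WithLp.toLp 2 fun a => x (a, c) : EuclideanSpace ℂ (Fin n))‖ ^ 2 := by
  rw [EuclideanSpace.norm_sq_eq, Fintype.sum_prod_type, Finset.sum_comm]
  apply Finset.sum_congr rfl
  intro c _
  rw [EuclideanSpace.norm_sq_eq]

/-- The last bound of S0181. -/
theorem metric_bound {S H : Matrix (Fin n) (Fin n) ℂ} (hS : S.IsHermitian) (hSH : S * S = H)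
    {κ : ℝ} (hH : (H - 1).PosSemidef)
    (hκ : ((κ : ℂ) • (1 : Matrix (Fin n) (Fin n) ℂ) - H).PosSemidef)
    (Y Z : Matrix (Fin n × Fin m) (Fin n × Fin m) ℂ) (hYZ : kr m S * Y = Z * kr m S) {M : ℝ}
    (hκ0 : 0 ≤ κ) (hM : ‖Matrix.toEuclideanCLM (n := Fin n × Fin m) (𝕜 := ℂ) Z‖ ≤ M) :
    ‖Matrix.toEuclideanCLM (n := Fin n × Fin m) (𝕜 := ℂ) Y‖ ≤ Real.sqrt κ * M := by
  have hM0 : 0 ≤ M := le_trans (norm_nonneg _) hM
  refine ContinuousLinearMap.opNorm_le_bound _ (by positivity) fun x => ?_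
  have h1 : ∀ z : EuclideanSpace ℂ (Fin n × Fin m),
      ‖z‖ ≤ ‖Matrix.toEuclideanCLM (n := Fin n × Fin m) (𝕜 := ℂ) (kr m S) z‖ := by
    intro z
    rw [← sq_le_sq₀ (norm_nonneg _) (norm_nonneg _), kr_norm_sq, slice_norm_sq]
    exact Finset.sum_le_sum fun c _ => le_norm_sq hS hSH hH _
  have h2 : ‖Matrix.toEuclideanCLM (n := Fin n × Fin m) (𝕜 := ℂ) (kr m S) x‖
      ≤ Real.sqrt κ * ‖x‖ := by
    rw [← sq_le_sq₀ (norm_nonneg _) (by positivity), mul_pow, Real.sq_sqrt hκ0, kr_norm_sq,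
      slice_norm_sq, Finset.mul_sum]
    exact Finset.sum_le_sum fun c _ => norm_sq_le hS hSH hκ _
  have h3 : Matrix.toEuclideanCLM (n := Fin n × Fin m) (𝕜 := ℂ) (kr m S)
      (Matrix.toEuclideanCLM (n := Fin n × Fin m) (𝕜 := ℂ) Y x)
      = Matrix.toEuclideanCLM (n := Fin n × Fin m) (𝕜 := ℂ) Z
        (Matrix.toEuclideanCLM (n := Fin n × Fin m) (𝕜 := ℂ) (kr m S) x) := by
    have h4 := congrArg (Matrix.toEuclideanCLM (n := Fin n × Fin m) (𝕜 := ℂ)) hYZ
    rw [map_mul, map_mul] at h4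
    exact congrArg (fun T => T x) h4
  calc ‖Matrix.toEuclideanCLM (n := Fin n × Fin m) (𝕜 := ℂ) Y x‖
      ≤ _ := h1 _
    _ = ‖Matrix.toEuclideanCLM (n := Fin n × Fin m) (𝕜 := ℂ) Z
        (Matrix.toEuclideanCLM (n := Fin n × Fin m) (𝕜 := ℂ) (kr m S) x)‖ := by rw [h3]
    _ ≤ M * (Real.sqrt κ * ‖x‖) :=
        (ContinuousLinearMap.le_opNorm _ _).trans (by gcongr)
    _ = Real.sqrt κ * M * ‖x‖ := by ring

end DensBound

end Crest.Agent.H23
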