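import Crest.Agent.H23.PK
import Crest.Agent.H23.DensBound
import Crest.Prelude.Def_NumRangeMetric

/-! T8g/h/i of row 132. -/

set_option autoImplicit false

open Metric Set Filter Topology Real Polynomial
open scoped ComplexOrder

namespace Crest.Agent.H23.PK

/-- T8g: norm bound from a positive density. -/
theorem dens_bound {n m : ℕ} (Λ : ℝ → Matrix (Fin n) (Fin n) ℂ) (hΛc : Continuous Λ)
    (hΛ : ∀ θ, (Λ θ).PosSemidef)
    (hΛ1 : ∀ a b, (2 * Real.pi : ℂ)⁻¹ * (∫ θ in (0 : ℝ)..2 * Real.pi, Λ θ a b)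
        = (1 : Matrix (Fin n) (Fin n) ℂ) a b)
    (F : ℝ → Matrix (Fin m) (Fin m) ℂ) (hF : ∀ c d, Continuous (fun θ => F θ c d)) (M : ℝ)
    (hM : ∀ θ, ‖Matrix.toEuclideanCLM (n := Fin m) (𝕜 := ℂ) (F θ)‖ ≤ M)
    (X : Matrix (Fin n × Fin m) (Fin n × Fin m) ℂ)
    (hX : ∀ a b c d, X (a, c) (b, d) =
      (2 * Real.pi : ℂ)⁻¹ * (∫ θ in (0 : ℝ)..2 * Real.pi, Λ θ a b * F θ c d)) :
    ‖Matrix.toEuclideanCLM (n := Fin n × Fin m) (𝕜 := ℂ) X‖ ≤ M :=
  DensBound.dens_bound Λ hΛc hΛ hΛ1 F hF hM X (fun i j => hX i.1 j.1 i.2 j.2)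

/-- H is positive definite. -/
lemma metric_posDef {n : ℕ} {H T : Matrix (Fin n) (Fin n) ℂ} {κsq : ℝ}
    (hH : Crest.AnalysisR.NumRange.MetricFeasible T H κsq) : H.PosDef := by
  have h1 : H = 1 + (H - 1) := by abel
  rw [h1]
  exact Matrix.PosDef.add_posSemidef Matrix.PosDef.one hH.1

lemma sqrt_inv {n : ℕ} {H T S : Matrix (Fin n) (Fin n) ℂ} {κsq : ℝ}
    (hH : Crest.AnalysisR.NumRange.MetricFeasible T H κsq) (hS₂ : S * S = H) :
    S * S⁻¹ = 1 ∧ S⁻¹ * S = 1 := by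
  have h1 : IsUnit H := (metric_posDef hH).isUnit
  have h2 : IsUnit S.det := by
    rw [Matrix.isUnit_iff_isUnit_det, ← hS₂, Matrix.det_mul] at h1
    exact isUnit_of_mul_isUnit_left h1
  exact ⟨Matrix.mul_nonsing_inv S h2, Matrix.nonsing_inv_mul S h2⟩

lemma aeval_conj {n : ℕ} {A S : Matrix (Fin n) (Fin n) ℂ} (h1 : S * S⁻¹ = 1) (h2 : S⁻¹ * S = 1)
    (q : Polynomial ℂ) : aeval (S * A * S⁻¹) q * S = S * aeval A q := by
  have hpow : ∀ k : ℕ, (S * A * S⁻¹) ^ k * S = S * A ^ k := by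
    intro k
    induction k with
    | zero => simp
    | succ k ih =>
      calc (S * A * S⁻¹) ^ (k + 1) * S = (S * A * S⁻¹) ^ k * ((S * A * S⁻¹) * S) := by
            rw [pow_succ, mul_assoc]
        _ = (S * A * S⁻¹) ^ k * (S * A) := by rw [mul_assoc (S * A), h2, mul_one]
        _ = ((S * A * S⁻¹) ^ k * S) * A := (mul_assoc _ _ _).symm
        _ = S * A ^ (k + 1) := by rw [ih, mul_assoc, ← pow_succ]
  induction q using Polynomial.induction_on' with
  | add p q hp hq => rw [map_add, map_add, add_mul, mul_add, hp, hq]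
  | monomial k a =>
    rw [aeval_monomial, aeval_monomial, mul_assoc, hpow, Algebra.algebraMap_eq_smul_one,
      smul_mul_assoc, one_mul, smul_mul_assoc, one_mul, mul_smul_comm]

/-- T8h: similarity. -/
theorem sim_bound {n m : ℕ} (A H S T : Matrix (Fin n) (Fin n) ℂ) (κsq : ℝ)
    (hH : Crest.AnalysisR.NumRange.IsOptimalMetric T H κsq)
    (hS₁ : S.PosSemidef) (hS₂ : S * S = H) (q : Fin m → Fin m → Polynomial ℂ) (M : ℝ)
    (h : ‖Matrix.toEuclideanCLM (n := Fin n × Fin m) (𝕜 := ℂ)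
                (Matrix.of fun (i : Fin n × Fin m) (j : Fin n × Fin m) =>
                  Polynomial.aeval (S * A * S⁻¹) (q i.2 j.2) i.1 j.1)‖ ≤ M) :
    ‖Matrix.toEuclideanCLM (n := Fin n × Fin m) (𝕜 := ℂ)
                (Matrix.of fun (i : Fin n × Fin m) (j : Fin n × Fin m) =>
                  Polynomial.aeval A (q i.2 j.2) i.1 j.1)‖ ≤ Real.sqrt κsq * M := by
  have hM0 : 0 ≤ M := le_trans (norm_nonneg _) h
  rcases Nat.eq_zero_or_pos n with hn | hn
  · subst hn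
    have h0 : ∀ x : EuclideanSpace ℂ (Fin 0 × Fin m), x = 0 := by
      intro x
      ext i
      exact i.1.elim0
    refine ContinuousLinearMap.opNorm_le_bound _ (by positivity) fun x => ?_
    rw [h0 x]; simp
  obtain ⟨hf, -⟩ := hH
  obtain ⟨h1, h2⟩ := sqrt_inv hf hS₂
  have hκ : 0 ≤ κsq := by
    have h3 : ((κsq : ℂ) • (1 : Matrix (Fin n) (Fin n) ℂ) - 1).PosSemidef := by
      have : (κsq : ℂ) • (1 : Matrix (Fin n) (Fin n) ℂ) - 1
          = ((κsq : ℂ) • (1 : Matrix (Fin n) (Fin n) ℂ) - H) + (H - 1) := by abel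
      rw [this]
      exact hf.2.1.add hf.1
    have h4 := h3.diag_nonneg (i := ⟨0, hn⟩)
    simp only [Matrix.sub_apply, Matrix.smul_apply, Matrix.one_apply_eq, smul_eq_mul, mul_one] at h4
    have h5 := (Complex.le_def.1 h4).1
    simp at h5
    linarith
  refine DensBound.metric_bound (n := n) (m := m) hS₁.isHermitian hS₂ hf.1 hf.2.1 _ _ ?_ hκ h
  ext ⟨a, c⟩ ⟨b, d⟩
  have e1 : (DensBound.kr m S * (Matrix.of fun (i : Fin n × Fin m) (j : Fin n × Fin m) =>
                  Polynomial.aeval A (q i.2 j.2) i.1 j.1)) (a, c) (b, d)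
      = (S * aeval A (q c d)) a b := by
    simp only [DensBound.kr, Matrix.mul_apply, Matrix.of_apply, Fintype.sum_prod_type]
    apply Finset.sum_congr rfl
    intro x _
    simp
  have e2 : ((Matrix.of fun (i : Fin n × Fin m) (j : Fin n × Fin m) =>
                  Polynomial.aeval (S * A * S⁻¹) (q i.2 j.2) i.1 j.1) * DensBound.kr m S) (a, c) (b, d)
      = (aeval (S * A * S⁻¹) (q c d) * S) a b := by
    simp only [DensBound.kr, Matrix.mul_apply, Matrix.of_apply, Fintype.sum_prod_type]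
    apply Finset.sum_congr rfl
    intro x _
    simp
  rw [e1, e2, aeval_conj h1 h2]

/-- T8i: `C = S T S⁻¹` is a contraction (as `1 - Cᴴ C ⪰ 0`), S invertible. -/
theorem contraction {n : ℕ} (H S T : Matrix (Fin n) (Fin n) ℂ) (κsq : ℝ)
    (hH : Crest.AnalysisR.NumRange.IsOptimalMetric T H κsq)
    (hS₁ : S.PosSemidef) (hS₂ : S * S = H) :
    S * S⁻¹ = 1 ∧ S⁻¹ * S = 1 ∧
    (1 - (S * T * S⁻¹).conjTranspose * (S * T * S⁻¹)).PosSemidef := by
  obtain ⟨hf, -⟩ := hH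
  obtain ⟨h1, h2⟩ := sqrt_inv hf hS₂
  refine ⟨h1, h2, ?_⟩
  have hSh : S.conjTranspose = S := hS₁.isHermitian
  have hih : (S⁻¹).conjTranspose = S⁻¹ := by
    rw [Matrix.conjTranspose_nonsing_inv, hSh]
  have h3 : 1 - (S * T * S⁻¹).conjTranspose * (S * T * S⁻¹)
      = (S⁻¹).conjTranspose * (H - T.conjTranspose * H * T) * S⁻¹ := by
    rw [hih]
    have e1 : (S * T * S⁻¹).conjTranspose = S⁻¹ * (T.conjTranspose * S) := by
      rw [Matrix.conjTranspose_mul, Matrix.conjTranspose_mul, hih, hSh]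
    have e2 : S⁻¹ * H * S⁻¹ = 1 := by
      rw [← hS₂, ← mul_assoc, h2, one_mul, h1]
    have e3 : S⁻¹ * (T.conjTranspose * S) * (S * T * S⁻¹)
        = S⁻¹ * (T.conjTranspose * H * T) * S⁻¹ := by
      rw [← hS₂]
      simp only [mul_assoc]
    rw [e1, e3, mul_sub, sub_mul, e2]
  rw [h3]
  exact hf.2.2.conjTranspose_mul_mul_same _

end Crest.Agent.H23.PK
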