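import Crest.Agent.H23.PKD
import Crest.Agent.H23.PKG
import Crest.Agent.H23.Spec
import Crest.Prelude.Def_NumRangeMetric

/-!
# Row 132, task T8: assembly of S0181 (helper20)
-/

set_option autoImplicit false

open Metric Set Filter Topology Real Polynomial
open scoped ComplexOrder Matrix.Norms.L2Operator
open Crest.AnalysisR.NumRange

namespace Crest.Agent.H23.PK

theorem dens_psd {n : ℕ} {Ω U : Set ℂ} {f G : ℂ → ℂ} {r : ℝ} (h : Bd Ω U f G r)
    (C : Matrix (Fin n) (Fin n) ℂ)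
    (hC : Tendsto (fun k : ℕ => C ^ k) atTop (𝓝 0))
    (hcon : (1 - C.conjTranspose * C).PosSemidef) {t : ℂ} (ht : ‖t‖ = 1) :
    (Dens f G C C.conjTranspose t).PosSemidef := by
  obtain ⟨x, hx, hwx⟩ := h.w_nonneg ht
  set y : ℂ := f (G t) with hy
  have hyn : ‖y‖ = 1 := h.norm_fG ht
  have hyinv : y⁻¹ = star y := by
    rw [Complex.inv_def, Complex.normSq_eq_norm_sq, hyn]
    simp
  have hyy : y * star y = 1 := by
    rw [← hyinv]
    exact mul_inv_cancel₀ (h.ne_zero ht)
  set X : Matrix (Fin n) (Fin n) ℂ := 1 - y⁻¹ • C with hX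
  have hXu : IsUnit X := isUnit_one_sub_smul hC (norm_inv_fG h ht).le
  set R : Matrix (Fin n) (Fin n) ℂ := Ring.inverse X with hR
  have hXR : X * R = 1 := Ring.mul_inverse_cancel _ hXu
  have hRX : R * X = 1 := Ring.inverse_mul_cancel _ hXu
  have hXs : 1 - y • C.conjTranspose = X.conjTranspose := by
    rw [hX, Matrix.conjTranspose_sub, Matrix.conjTranspose_one, Matrix.conjTranspose_smul, hyinv,
      star_star]
  have h1 : X.conjTranspose * R.conjTranspose = 1 := by
    rw [← Matrix.conjTranspose_mul, hRX, Matrix.conjTranspose_one]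
  have h2 : R.conjTranspose * X.conjTranspose = 1 := by
    rw [← Matrix.conjTranspose_mul, hXR, Matrix.conjTranspose_one]
  have hinv : Ring.inverse (1 - y • C.conjTranspose) = R.conjTranspose := by
    rw [hXs]
    exact inv_eq h1 h2
  have hD : Dens f G C C.conjTranspose t
      = (x : ℂ) • (R.conjTranspose * (1 - C.conjTranspose * C) * R) := by
    rw [Dens, hwx, ← hy, hinv]
    congr 1
    -- R + y • (Cᴴ * Rᴴ) = Rᴴ (1 - Cᴴ C) R
    have hcomm : C.conjTranspose * R.conjTranspose = R.conjTranspose * C.conjTranspose := by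
      have h3 : C.conjTranspose * X.conjTranspose = X.conjTranspose * C.conjTranspose := by
        rw [← hXs, mul_sub, sub_mul, mul_one, one_mul, mul_smul_comm, smul_mul_assoc]
      calc C.conjTranspose * R.conjTranspose
          = (R.conjTranspose * X.conjTranspose) * C.conjTranspose * R.conjTranspose := by
            rw [h2, one_mul]
        _ = R.conjTranspose * (C.conjTranspose * X.conjTranspose) * R.conjTranspose := by
            rw [h3]; simp only [mul_assoc]
        _ = R.conjTranspose * C.conjTranspose * (X.conjTranspose * R.conjTranspose) := by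
            simp only [mul_assoc]
        _ = R.conjTranspose * C.conjTranspose := by rw [h1, mul_one]
    rw [hcomm]
    have h4 : R = R.conjTranspose * X.conjTranspose * R := by rw [h2, one_mul]
    have h5 : R.conjTranspose * C.conjTranspose
        = R.conjTranspose * C.conjTranspose * (X * R) := by rw [hXR, mul_one]
    rw [h5]
    change R + _ = _
    nth_rewrite 1 [h4]
    rw [← hXs, hX]
    have h6 : y • (R.conjTranspose * C.conjTranspose * ((1 - y⁻¹ • C) * R))
        = R.conjTranspose * (y • C.conjTranspose - C.conjTranspose * C) * R := by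
      have h7 : y • C.conjTranspose - C.conjTranspose * C
          = y • (C.conjTranspose * (1 - y⁻¹ • C)) := by
        rw [mul_sub, mul_one, mul_smul_comm, smul_sub, smul_smul, hyinv, hyy, one_smul]
      rw [h7, mul_smul_comm, smul_mul_assoc]
      simp only [mul_assoc]
    rw [h6, ← add_mul, ← mul_add]
    congr 2
    abel
  rw [hD]
  exact (hcon.conjTranspose_mul_mul_same R).smul (by exact_mod_cast hx)

theorem entry_avg {n : ℕ} {F : ℂ → Matrix (Fin n) (Fin n) ℂ} (hF : ContinuousOn F (sphere 0 1))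
    {X : Matrix (Fin n) (Fin n) ℂ} (hX : circleAverage F 0 1 = X) (a b : Fin n) :
    (2 * Real.pi : ℂ)⁻¹ * (∫ θ in (0 : ℝ)..2 * Real.pi,
      F (Complex.exp ((θ : ℂ) * Complex.I)) a b) = X a b := by
  have hlin : ∃ L : Matrix (Fin n) (Fin n) ℂ →L[ℝ] ℂ, ∀ M, L M = M a b := by
    refine ⟨⟨⟨⟨fun M => M a b, fun _ _ => rfl⟩, fun _ _ => rfl⟩, ?_⟩, fun _ => rfl⟩
    exact (continuous_apply b).comp (continuous_apply a)
  obtain ⟨L, hL⟩ := hlin
  have h1 := ContinuousLinearMap.circleAverage_comp_comm (c := 0) (R := 1) (f := F) L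
    (hF.circleIntegrable zero_le_one)
  rw [hX, hL] at h1
  rw [← h1, circleAverage_def, Complex.real_smul]
  congr 1
  · push_cast; rfl
  · apply intervalIntegral.integral_congr
    intro θ _
    simp only [Function.comp_apply, hL, circleMap, Complex.ofReal_one, one_mul, zero_add]

theorem main181
    (n : ℕ) (hn : 1 ≤ n) (A : Matrix (Fin n) (Fin n) ℂ)
    (Ω U : Set ℂ) (hΩ₁ : IsOpen Ω) (hΩ₂ : Bornology.IsBounded Ω)
    (hU : IsOpen U) (hΩU : closure Ω ⊆ U)
    (f : ℂ → ℂ) (hf₁ : DifferentiableOn ℂ f U) (hf₂ : Set.InjOn f U)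
    (hf₃ : f '' Ω = Metric.ball 0 1)
    (G : ℂ → ℂ) (r : ℝ) (hr₂ : r < 1)
    (hG₁ : DifferentiableOn ℂ G {t : ℂ | r < ‖t‖}) (hG₂ : Set.InjOn G {t : ℂ | r < ‖t‖})
    (hG₃ : G '' {t : ℂ | 1 < ‖t‖} = (closure Ω)ᶜ)
    (hA : numRange A ⊆ Ω) (p : Polynomial ℂ) (hp : AgreesOnSpectrum A f p)
    (H : Matrix (Fin n) (Fin n) ℂ) (κsq : ℝ) (hH : IsOptimalMetric (Polynomial.aeval A p) H κsq)
    (S : Matrix (Fin n) (Fin n) ℂ) (hS₁ : S.PosSemidef) (hS₂ : S * S = H) :
    ∃ Λ : ℝ → Matrix (Fin n) (Fin n) ℂ, Continuous Λ ∧ Function.Periodic Λ (2 * Real.pi) ∧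
      (∀ θ, (Λ θ).PosSemidef) ∧
      (∀ a b, (2 * Real.pi : ℂ)⁻¹ * (∫ θ in (0 : ℝ)..2 * Real.pi, Λ θ a b)
        = (1 : Matrix (Fin n) (Fin n) ℂ) a b) ∧
      ∀ (m : ℕ), 1 ≤ m → ∀ (V : Set ℂ), IsOpen V → closure Ω ⊆ V →
        ∀ v : ℂ → Matrix (Fin m) (Fin m) ℂ, (∀ c d, DifferentiableOn ℂ (fun z => v z c d) V) →
        ∀ q : Fin m → Fin m → Polynomial ℂ,
          (∀ c d, AgreesOnSpectrum A (fun z => v z c d) (q c d)) →
          (∀ a b c d, Polynomial.aeval (S * A * S⁻¹) (q c d) a b =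
              (2 * Real.pi : ℂ)⁻¹ * (∫ θ in (0 : ℝ)..2 * Real.pi,
                Λ θ a b * v (G (Complex.exp ((θ : ℂ) * Complex.I))) c d)) ∧
          ∀ M : ℝ, (∀ z ∈ closure Ω, ‖Matrix.toEuclideanCLM (n := Fin m) (𝕜 := ℂ) (v z)‖ ≤ M) →
            ‖Matrix.toEuclideanCLM (n := Fin n × Fin m) (𝕜 := ℂ)
                (Matrix.of fun (i : Fin n × Fin m) (j : Fin n × Fin m) =>
                  Polynomial.aeval A (q i.2 j.2) i.1 j.1)‖ ≤ Real.sqrt κsq * M := by
  have hbd : Bd Ω U f G r := ⟨hΩ₁, hΩ₂, hU, hΩU, hf₁, hf₂, hf₃, hr₂, hG₁, hG₂, hG₃⟩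
  have hσ : spectrum ℂ A ⊆ Ω := (spectrum_subset_numRange A).trans hA
  have hΩU' : Ω ⊆ U := subset_closure.trans hΩU
  obtain ⟨hSS, hSS', hcon⟩ := contraction H S (aeval A p) κsq hH hS₁ hS₂
  set B : Matrix (Fin n) (Fin n) ℂ := S * A * S⁻¹ with hBdef
  set C : Matrix (Fin n) (Fin n) ℂ := S * aeval A p * S⁻¹ with hCdef
  have hconj : ∀ q : ℂ[X], aeval B q = S * aeval A q * S⁻¹ := by
    intro q
    rw [← aeval_conj hSS hSS' q, mul_assoc, hSS, mul_one]
  have hT : Tendsto (fun k : ℕ => (aeval A p) ^ k) atTop (𝓝 0) :=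
    pow_tendsto A Ω hΩ₁ hσ f (hf₁.mono hΩU') (by
      intro z hz
      have h1 : f z ∈ f '' Ω := ⟨z, hz, rfl⟩
      rw [hf₃] at h1
      simpa using h1) p hn hp
  have hCpow : ∀ k : ℕ, C ^ k = S * (aeval A p) ^ k * S⁻¹ := by
    intro k
    induction k with
    | zero => rw [pow_zero, pow_zero, mul_one, hSS]
    | succ k ih =>
      rw [pow_succ, ih, hCdef, pow_succ]
      calc S * (aeval A p) ^ k * S⁻¹ * (S * (aeval A p) * S⁻¹)
          = S * (aeval A p) ^ k * (S⁻¹ * S) * (aeval A p) * S⁻¹ := by simp only [mul_assoc]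
        _ = S * ((aeval A p) ^ k * (aeval A p)) * S⁻¹ := by
          rw [hSS', mul_one]; simp only [mul_assoc]
  have hC : Tendsto (fun k : ℕ => C ^ k) atTop (𝓝 0) := by
    simp only [hCpow]
    have h1 := (hT.const_mul S).mul_const S⁻¹
    rwa [mul_zero, zero_mul] at h1
  have hC' : Tendsto (fun k : ℕ => C.conjTranspose ^ k) atTop (𝓝 0) := by
    have h1 : Continuous (fun M : Matrix (Fin n) (Fin n) ℂ => M.conjTranspose) :=
      Continuous.matrix_conjTranspose continuous_id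
    have h2 := (h1.tendsto 0).comp hC
    simp only [Matrix.conjTranspose_zero] at h2
    refine h2.congr ?_
    intro k
    simp only [Function.comp_apply, Matrix.conjTranspose_pow]
  have hB : ∀ t : ℂ, 1 ≤ ‖t‖ → IsUnit (algebraMap ℂ (Matrix (Fin n) (Fin n) ℂ) (G t) - B) := by
    intro t ht
    have h1 : G t ∉ spectrum ℂ A := fun hcon => hbd.not_mem ht (hσ hcon)
    have h2 : IsUnit (algebraMap ℂ (Matrix (Fin n) (Fin n) ℂ) (G t) - A) :=
      spectrum.notMem_iff.1 h1
    have hSu : IsUnit S := ⟨⟨S, S⁻¹, hSS, hSS'⟩, rfl⟩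
    have hSu' : IsUnit S⁻¹ := ⟨⟨S⁻¹, S, hSS', hSS⟩, rfl⟩
    have h3 : algebraMap ℂ (Matrix (Fin n) (Fin n) ℂ) (G t) - B
        = S * (algebraMap ℂ (Matrix (Fin n) (Fin n) ℂ) (G t) - A) * S⁻¹ := by
      rw [mul_sub, sub_mul, hBdef, ← Algebra.commutes, mul_assoc _ S, hSS, mul_one]
    rw [h3]
    exact (hSu.mul h2).mul hSu'
  have hχ : aeval B A.charpoly = 0 := by
    rw [hconj, Matrix.aeval_self_charpoly, mul_zero, zero_mul]
  obtain ⟨hf, hhf, hfp⟩ := agrees_factor A U hU (hσ.trans hΩU') f hf₁ p hp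
  -- the density
  set D : ℂ → Matrix (Fin n) (Fin n) ℂ := Dens f G C C.conjTranspose with hD
  have hDc : ContinuousOn D (sphere 0 1) := cont_dens hbd hC hC'
  have hcirc : ∀ θ : ℝ, ‖Complex.exp ((θ : ℂ) * Complex.I)‖ = 1 := fun θ =>
    Complex.norm_exp_ofReal_mul_I θ
  have hec : Continuous (fun θ : ℝ => Complex.exp ((θ : ℂ) * Complex.I)) := by fun_prop
  have hrepr : ∀ (V : Set ℂ), IsOpen V → closure Ω ⊆ V → ∀ v : ℂ → ℂ, DifferentiableOn ℂ v V →
      ∀ q : ℂ[X], AgreesOnSpectrum A v q →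
      circleAverage (fun t => v (G t) • D t) 0 1 = aeval B q := by
    intro V hV hΩV v hv q hq
    obtain ⟨hv', hhv, hvq⟩ := agrees_factor A V hV (hσ.trans (subset_closure.trans hΩV)) v hv q hq
    exact dens_repr hbd hC hC' hB A.charpoly p hχ (hconj p) hhf hfp hV hΩV hv hhv hvq
  have hΛc : Continuous (fun θ : ℝ => D (Complex.exp ((θ : ℂ) * Complex.I))) :=
    hDc.comp_continuous hec (fun θ => by rw [mem_sphere_zero_iff_norm]; exact hcirc θ)
  have hpsd : ∀ θ : ℝ, (D (Complex.exp ((θ : ℂ) * Complex.I))).PosSemidef := fun θ =>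
    dens_psd hbd C hC hcon (hcirc θ)
  have hmean : ∀ a b, (2 * Real.pi : ℂ)⁻¹ * (∫ θ in (0 : ℝ)..2 * Real.pi,
      D (Complex.exp ((θ : ℂ) * Complex.I)) a b) = (1 : Matrix (Fin n) (Fin n) ℂ) a b := by
    intro a b
    refine entry_avg hDc ?_ a b
    have h1 := hrepr U hU hΩU (fun _ => 1) (differentiableOn_const 1) (1 : ℂ[X]) (by
      intro μ _ j _
      simp)
    simp only [one_smul] at h1
    rw [map_one] at h1
    exact h1
  refine ⟨fun θ => D (Complex.exp ((θ : ℂ) * Complex.I)), hΛc, ?_, hpsd, hmean, ?_⟩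
  · intro θ
    show D _ = D _
    congr 1
    push_cast
    rw [add_mul, Complex.exp_add, Complex.exp_two_pi_mul_I, mul_one]
  · intro m hm V hV hΩV v hv q hq
    have hGV : ∀ t : ℂ, ‖t‖ = 1 → G t ∈ V := fun t ht => hΩV (hbd.mem_closure ht)
    have hvc : ∀ c d, ContinuousOn (fun t => v (G t) c d) (sphere 0 1) := fun c d =>
      (hv c d).continuousOn.comp hbd.contG (fun t ht => hGV t (by simpa using ht))
    have hre : ∀ a b c d, Polynomial.aeval B (q c d) a b =
        (2 * Real.pi : ℂ)⁻¹ * (∫ θ in (0 : ℝ)..2 * Real.pi,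
          D (Complex.exp ((θ : ℂ) * Complex.I)) a b *
            v (G (Complex.exp ((θ : ℂ) * Complex.I))) c d) := by
      intro a b c d
      have h1 := hrepr V hV hΩV (fun z => v z c d) (hv c d) (q c d) (hq c d)
      have h2 := entry_avg (F := fun t => v (G t) c d • D t) ((hvc c d).smul hDc) h1 a b
      rw [← h2]
      congr 1
      apply intervalIntegral.integral_congr
      intro θ _
      simp only [Matrix.smul_apply, smul_eq_mul]
      ring
    refine ⟨hre, ?_⟩
    intro M hM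
    apply sim_bound A H S (aeval A p) κsq hH hS₁ hS₂ q M
    apply dens_bound (fun θ => D (Complex.exp ((θ : ℂ) * Complex.I))) hΛc hpsd hmean
      (fun θ => v (G (Complex.exp ((θ : ℂ) * Complex.I))))
    · intro c d
      exact (hvc c d).comp_continuous hec
        (fun θ => by rw [mem_sphere_zero_iff_norm]; exact hcirc θ)
    · intro θ
      exact hM _ (hbd.mem_closure (hcirc θ))
    · intro a b c d
      exact hre a b c d

end Crest.Agent.H23.PK
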