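import Mathlib

/-!
Row 132 (Crouzeix, complete version).  Common definitions.

Coordinates: the exterior conformal map `G` of a convex compact set `K ∋ 0` is written
`G(t) = 1 / χ(1/t)`, with `χ` injective holomorphic on a disc `ball 0 R`, `R > 1`, `χ 0 = 0`.
The boundary curve is `(χ u)⁻¹`, `‖u‖ = 1`.
`Lf χ u = u χ'(u) / χ(u)` (value `1` at `u = 0`), the resolvent is
`Res χ A u = L(u) (1 - χ(u) A)⁻¹ = ∑ Φ_n(A) u^n`, `Φ_n` the Faber polynomials.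
-/

set_option autoImplicit false

open Metric Set

namespace Crest.Agent.H23

/-- `L(u) = u χ'(u) / χ(u)`, regularised at `0`. -/
noncomputable def Lf (χ : ℂ → ℂ) (u : ℂ) : ℂ := deriv χ u / dslope χ 0 u

/-- exterior datum: `χ` is holomorphic injective on `ball 0 R`, `R > 1`, `χ 0 = 0`, and the closed
curve `(χ u)⁻¹`, `‖u‖ = 1` is convex (tangent half-plane condition). -/
structure Ext (χ : ℂ → ℂ) (R : ℝ) : Prop where
  hR : 1 < R
  diff : DifferentiableOn ℂ χ (ball 0 R)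
  inj : InjOn χ (ball 0 R)
  zero : χ 0 = 0
  deriv_ne : ∀ u ∈ ball (0 : ℂ) R, deriv χ u ≠ 0
  conv : ∀ u u' : ℂ, ‖u‖ = 1 → ‖u'‖ = 1 → 0 ≤ ((1 - χ u / χ u') / Lf χ u).re

/-- coefficient `c_{n,k}` = coefficient of `u^n` in `L(u) χ(u)^k`. -/
noncomputable def fcoef (χ : ℂ → ℂ) (n k : ℕ) : ℂ :=
  Real.circleAverage (fun u : ℂ => Lf χ u * χ u ^ k * (u⁻¹) ^ n) 0 1

/-- Faber polynomials. -/
noncomputable def Phi (χ : ℂ → ℂ) (n : ℕ) : Polynomial ℂ :=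
  ∑ k ∈ Finset.range (n + 1), Polynomial.C (fcoef χ n k) * Polynomial.X ^ k

/-- `Res χ A u = L(u) (1 - χ(u) A)⁻¹`. -/
noncomputable def Res {E : Type*} [NormedAddCommGroup E] [InnerProductSpace ℂ E]
    (χ : ℂ → ℂ) (A : E →L[ℂ] E) (u : ℂ) : E →L[ℂ] E :=
  Lf χ u • Ring.inverse (1 - χ u • A)

end Crest.Agent.H23
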