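import Mathlib

/-! T7a, first part: separation and spectral splitting. -/

set_option autoImplicit false

open Matrix
open scoped ComplexOrder

namespace Crest.Agent.H23

/-- spectral splitting -/
lemma dual_split {n : ℕ} (W : Matrix (Fin n) (Fin n) ℂ) (hW : W.IsHermitian) (C : ℝ) (hC : 1 ≤ C)
    (h : ∀ H : Matrix (Fin n) (Fin n) ℂ, (H - 1).PosSemidef →
      ((C : ℂ) • (1 : Matrix (Fin n) (Fin n) ℂ) - H).PosSemidef → 0 < (trace (W * H)).re) :
    ∃ ξ η : Matrix (Fin n) (Fin n) ℂ, W = ξ * ξᴴ - η * ηᴴ ∧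
      C * (trace (η * ηᴴ)).re < (trace (ξ * ξᴴ)).re := by
  obtain ⟨U, d, hUU, hUU', hspec⟩ : ∃ (U : Matrix (Fin n) (Fin n) ℂ) (d : Fin n → ℝ),
      Uᴴ * U = 1 ∧ U * Uᴴ = 1 ∧ W = U * diagonal (fun i => (d i : ℂ)) * Uᴴ := by
    refine ⟨(hW.eigenvectorUnitary).1, hW.eigenvalues, ?_, ?_, ?_⟩
    · exact Unitary.coe_star_mul_self hW.eigenvectorUnitary
    · exact Unitary.coe_mul_star_self hW.eigenvectorUnitary
    · have := hW.spectral_theorem
      rw [Unitary.conjStarAlgAut_apply] at this
      exact this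
  let hh : Fin n → ℝ := fun i => if 0 < d i then 1 else C
  let H : Matrix (Fin n) (Fin n) ℂ := U * diagonal (fun i => (hh i : ℂ)) * Uᴴ
  have hH1 : (H - 1).PosSemidef := by
    have : H - 1 = U * diagonal (fun i => ((hh i - 1 : ℝ) : ℂ)) * Uᴴ := by
      have e : diagonal (fun i => ((hh i - 1 : ℝ) : ℂ)) = diagonal (fun i => (hh i : ℂ)) - 1 := by
        rw [← diagonal_one, diagonal_sub]; congr 1; ext i; push_cast; rfl
      rw [e, mul_sub, sub_mul, mul_one, hUU']
    rw [this]
    apply PosSemidef.mul_mul_conjTranspose_same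
    rw [posSemidef_diagonal_iff]
    intro i
    simp only [hh]
    split_ifs
    · simp
    · exact_mod_cast sub_nonneg.mpr hC
  have hH2 : ((C : ℂ) • (1 : Matrix (Fin n) (Fin n) ℂ) - H).PosSemidef := by
    have : ((C : ℂ) • (1 : Matrix (Fin n) (Fin n) ℂ) - H)
        = U * diagonal (fun i => ((C - hh i : ℝ) : ℂ)) * Uᴴ := by
      have e : diagonal (fun i => ((C - hh i : ℝ) : ℂ))
          = (C : ℂ) • (1 : Matrix (Fin n) (Fin n) ℂ) - diagonal (fun i => (hh i : ℂ)) := by
        rw [← diagonal_one, ← diagonal_smul, diagonal_sub]; congr 1; ext i; simp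
      rw [e, mul_sub, sub_mul, Matrix.mul_smul, Matrix.mul_one, Matrix.smul_mul, hUU']
    rw [this]
    apply PosSemidef.mul_mul_conjTranspose_same
    rw [posSemidef_diagonal_iff]
    intro i
    simp only [hh]
    split_ifs
    · exact_mod_cast sub_nonneg.mpr hC
    · simp
  have htr := h H hH1 hH2
  have htr2 : trace (W * H) = ∑ i, ((d i * hh i : ℝ) : ℂ) := by
    have : W * H = U * diagonal (fun i => ((d i * hh i : ℝ) : ℂ)) * Uᴴ := by
      have e : diagonal (fun i => ((d i * hh i : ℝ) : ℂ))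
          = diagonal (fun i => (d i : ℂ)) * diagonal (fun i => (hh i : ℂ)) := by
        rw [diagonal_mul_diagonal]; congr 1; ext i; push_cast; rfl
      rw [e, hspec]
      simp only [H]
      calc U * diagonal (fun i => (d i : ℂ)) * Uᴴ * (U * diagonal (fun i => (hh i : ℂ)) * Uᴴ)
          = U * diagonal (fun i => (d i : ℂ)) * (Uᴴ * U) * diagonal (fun i => (hh i : ℂ)) * Uᴴ := by
            simp only [Matrix.mul_assoc]
        _ = _ := by rw [hUU, Matrix.mul_one]; simp only [Matrix.mul_assoc]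
    rw [this, trace_mul_comm, ← Matrix.mul_assoc, hUU, Matrix.one_mul, trace_diagonal]
  let a : Fin n → ℝ := fun i => Real.sqrt (max (d i) 0)
  let b : Fin n → ℝ := fun i => Real.sqrt (max (-d i) 0)
  have ha : ∀ i, a i * a i = max (d i) 0 := fun i => Real.mul_self_sqrt (le_max_right _ _)
  have hb : ∀ i, b i * b i = max (-d i) 0 := fun i => Real.mul_self_sqrt (le_max_right _ _)
  have hsq : ∀ c : Fin n → ℝ, (U * diagonal (fun i => (c i : ℂ))) * (U * diagonal (fun i => (c i : ℂ)))ᴴ
      = U * diagonal (fun i => ((c i * c i : ℝ) : ℂ)) * Uᴴ := by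
    intro c
    rw [conjTranspose_mul, diagonal_conjTranspose]
    have e : star (fun i => (c i : ℂ)) = fun i => (c i : ℂ) := by ext i; simp
    rw [e]
    have e2 : diagonal (fun i => ((c i * c i : ℝ) : ℂ))
        = diagonal (fun i => (c i : ℂ)) * diagonal (fun i => (c i : ℂ)) := by
      rw [diagonal_mul_diagonal]; congr 1; ext i; push_cast; rfl
    rw [e2]
    simp only [Matrix.mul_assoc]
  have htrc : ∀ c : Fin n → ℝ, trace (U * diagonal (fun i => ((c i * c i : ℝ) : ℂ)) * Uᴴ)
      = ∑ i, ((c i * c i : ℝ) : ℂ) := by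
    intro c
    rw [trace_mul_comm, ← Matrix.mul_assoc, hUU, Matrix.one_mul, trace_diagonal]
  refine ⟨U * diagonal (fun i => (a i : ℂ)), U * diagonal (fun i => (b i : ℂ)), ?_, ?_⟩
  · rw [hsq, hsq, ← sub_mul, ← mul_sub, diagonal_sub, hspec]
    congr 3
    ext i
    rw [ha, hb, ← Complex.ofReal_sub]
    congr 1
    rcases le_total (d i) 0 with h0 | h0
    · rw [max_eq_right h0, max_eq_left (by linarith)]; ring
    · rw [max_eq_left h0, max_eq_right (by linarith)]; ring
  · rw [hsq, hsq, htrc, htrc, ← Complex.ofReal_sum, ← Complex.ofReal_sum, Complex.ofReal_re,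
      Complex.ofReal_re]
    rw [htr2, ← Complex.ofReal_sum, Complex.ofReal_re] at htr
    have : ∑ i, d i * hh i = ∑ i, a i * a i - C * ∑ i, b i * b i := by
      rw [Finset.mul_sum, ← Finset.sum_sub_distrib]
      apply Finset.sum_congr rfl
      intro i _
      rw [ha, hb]
      simp only [hh]
      split_ifs with h0
      · rw [max_eq_left h0.le, max_eq_right (by linarith)]; ring
      · push Not at h0
        rw [max_eq_right h0, max_eq_left (by linarith)]; ring
    linarith

lemma psd_entry {n : ℕ} (P : Matrix (Fin n) (Fin n) ℂ) (hP : P.PosSemidef) (i j : Fin n) :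
    2 * ‖P i j‖ ≤ (P i i).re + (P j j).re := by
  obtain ⟨c, hc1, hc2⟩ : ∃ c : ℂ, ‖c‖ = 1 ∧ c * P i j = (‖P i j‖ : ℂ) := by
    by_cases h : P i j = 0
    · exact ⟨1, by simp, by simp [h]⟩
    · refine ⟨(‖P i j‖ : ℂ) / P i j, ?_, ?_⟩
      · rw [norm_div]; simp [h]
      · field_simp
  have h1 := hP.dotProduct_mulVec_nonneg (Pi.single i 1 - c • Pi.single j 1)
  have hji : P j i = star (P i j) := (hP.isHermitian.apply j i).symm
  have e : star (Pi.single i 1 - c • Pi.single j 1) ⬝ᵥ (P *ᵥ (Pi.single i 1 - c • Pi.single j 1))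
      = P i i - c * P i j - (star c * P j i - star c * c * P j j) := by
    have e1 : star (Pi.single i (1:ℂ) : Fin n → ℂ) = Pi.single i 1 := by
      ext k; simp [Pi.single_apply, apply_ite]
    have e2 : star (Pi.single j (1:ℂ) : Fin n → ℂ) = Pi.single j 1 := by
      ext k; simp [Pi.single_apply, apply_ite]
    simp only [star_sub, star_smul, e1, e2, mulVec_sub, mulVec_smul, sub_dotProduct,
      dotProduct_sub, smul_dotProduct, dotProduct_smul, mulVec_single_one, col_apply,
      single_one_dotProduct, smul_eq_mul]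
    ring
  rw [e] at h1
  have h2 : star c * c = 1 := by
    rw [Complex.star_def, ← Complex.normSq_eq_conj_mul_self, Complex.normSq_eq_norm_sq, hc1]; simp
  have h3 : star c * P j i = (‖P i j‖ : ℂ) := by
    rw [hji, ← star_mul', hc2]; simp
  rw [h2, h3, hc2] at h1
  have h4 := (Complex.le_def.mp h1).1
  simp at h4
  linarith

lemma isClosed_psd {n : ℕ} : IsClosed {P : Matrix (Fin n) (Fin n) ℂ | P.PosSemidef} := by
  have : {P : Matrix (Fin n) (Fin n) ℂ | P.PosSemidef}
      = {P | Pᴴ = P} ∩ ⋂ x : Fin n → ℂ, {P | 0 ≤ star x ⬝ᵥ (P *ᵥ x)} := by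
    ext P
    simp only [Set.mem_ofPred_eq, Set.mem_inter_iff, Set.mem_iInter, posSemidef_iff_dotProduct_mulVec]
    rfl
  rw [this]
  refine IsClosed.inter (isClosed_eq (by fun_prop) continuous_id) (isClosed_iInter fun x => ?_)
  apply isClosed_le continuous_const
  fun_prop

lemma convex_psd {n : ℕ} : Convex ℝ {P : Matrix (Fin n) (Fin n) ℂ | P.PosSemidef} := by
  intro P hP Q hQ a b ha hb hab
  have h1 : (a • P).PosSemidef := PosSemidef.smul hP ha
  have h2 : (b • Q).PosSemidef := PosSemidef.smul hQ hb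
  exact h1.add h2

lemma dual_rep {n : ℕ} (f : Matrix (Fin n) (Fin n) ℂ →L[ℝ] ℝ) :
    ∃ Z : Matrix (Fin n) (Fin n) ℂ, Z.IsHermitian ∧
      ∀ X : Matrix (Fin n) (Fin n) ℂ, X.IsHermitian → f X = (trace (Z * X)).re := by
  let a : Fin n → Fin n → ℂ := fun i j => ⟨f (single i j 1), - f (single i j Complex.I)⟩
  have ha : ∀ X : Matrix (Fin n) (Fin n) ℂ, f X = (∑ i, ∑ j, a i j * X i j).re := by
    intro X
    conv_lhs => rw [matrix_eq_sum_single X]
    simp only [map_sum, Complex.re_sum]
    refine Finset.sum_congr rfl fun i _ => Finset.sum_congr rfl fun j _ => ?_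
    have : single i j (X i j) = (X i j).re • single i j (1 : ℂ) + (X i j).im • single i j Complex.I := by
      rw [smul_single, smul_single, ← single_add]
      congr 1
      apply Complex.ext <;> simp
    rw [this, map_add, map_smul, map_smul]
    simp only [a, Complex.mul_re, smul_eq_mul]
    ring
  refine ⟨Matrix.of fun i j => (a j i + star (a i j)) / 2, ?_, ?_⟩
  · ext i j
    simp [conjTranspose_apply, add_comm]
  · intro X hX
    rw [ha]
    have h1 : trace ((Matrix.of fun i j => (a j i + star (a i j)) / 2) * X)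
        = (∑ i, ∑ j, a j i * X j i) / 2 + star (∑ i, ∑ j, a i j * X i j) / 2 := by
      simp only [trace, diag_apply, mul_apply, of_apply, star_sum, star_mul', Finset.sum_div,
        ← Finset.sum_add_distrib]
      refine Finset.sum_congr rfl fun i _ => Finset.sum_congr rfl fun j _ => ?_
      rw [hX.apply]
      ring
    rw [h1, Finset.sum_comm]
    simp

lemma dual_sep {n : ℕ} (T : Matrix (Fin n) (Fin n) ℂ) (C : ℝ)
    (hno : ¬ ∃ H : Matrix (Fin n) (Fin n) ℂ, (H - 1).PosSemidef ∧
      ((C : ℂ) • (1 : Matrix (Fin n) (Fin n) ℂ) - H).PosSemidef ∧ (H - Tᴴ * H * T).PosSemidef) :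
    ∃ (Z : Matrix (Fin n) (Fin n) ℂ) (ε : ℝ), Z.PosSemidef ∧ 0 < ε ∧
      ∀ H : Matrix (Fin n) (Fin n) ℂ, (H - 1).PosSemidef →
        ((C : ℂ) • (1 : Matrix (Fin n) (Fin n) ℂ) - H).PosSemidef →
        (trace (Z * (H - Tᴴ * H * T))).re ≤ -ε := by
  have : LocallyConvexSpace ℝ (Matrix (Fin n) (Fin n) ℂ) :=
    inferInstanceAs (LocallyConvexSpace ℝ (Fin n → Fin n → ℂ))
  let S : Set (Matrix (Fin n) (Fin n) ℂ) := {H | (H - 1).PosSemidef ∧
      ((C : ℂ) • (1 : Matrix (Fin n) (Fin n) ℂ) - H).PosSemidef}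
  have hSclosed : IsClosed S := by
    refine IsClosed.inter (isClosed_psd.preimage (f := fun H => H - 1) (by fun_prop))
      (isClosed_psd.preimage
        (f := fun H => (C : ℂ) • (1 : Matrix (Fin n) (Fin n) ℂ) - H) (by fun_prop))
  have hSconv : Convex ℝ S := by
    intro H hH K hK a b ha hb hab
    have hb' : b = 1 - a := by linarith
    refine ⟨?_, ?_⟩
    · have h1 : (a • (H - 1)).PosSemidef := PosSemidef.smul hH.1 ha
      have h2 : (b • (K - 1)).PosSemidef := PosSemidef.smul hK.1 hb
      have := h1.add h2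
      convert this using 1
      subst hb'
      module
    · have h1 : (a • ((C : ℂ) • (1 : Matrix (Fin n) (Fin n) ℂ) - H)).PosSemidef :=
        PosSemidef.smul hH.2 ha
      have h2 : (b • ((C : ℂ) • (1 : Matrix (Fin n) (Fin n) ℂ) - K)).PosSemidef :=
        PosSemidef.smul hK.2 hb
      have := h1.add h2
      convert this using 1
      subst hb'
      module
  have hScomp : IsCompact S := by
    have hbox : IsCompact {H : Matrix (Fin n) (Fin n) ℂ | ∀ i j, H i j ∈ Metric.closedBall (0 : ℂ) C} := by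
      have : {H : Matrix (Fin n) (Fin n) ℂ | ∀ i j, H i j ∈ Metric.closedBall (0 : ℂ) C}
          = Set.pi Set.univ (fun _ : Fin n => Set.pi Set.univ (fun _ : Fin n => Metric.closedBall (0 : ℂ) C)) := by
        ext H
        exact ⟨fun h i _ j _ => h i j, fun h i j => h i trivial j trivial⟩
      rw [this]
      exact isCompact_univ_pi fun _ => isCompact_univ_pi fun _ => isCompact_closedBall _ _
    refine hbox.of_isClosed_subset hSclosed ?_
    intro H hH i j
    have hHp : H.PosSemidef := by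
      have := hH.1.add (PosSemidef.one (n := Fin n) (R := ℂ))
      simpa using this
    have hd : ∀ k, (H k k).re ≤ C := by
      intro k
      have := hH.2.diag_nonneg (i := k)
      have := (Complex.le_def.mp this).1
      simp at this
      exact this
    rw [mem_closedBall_zero_iff]
    have := psd_entry H hHp i j
    have := hd i
    have := hd j
    linarith
  let Φ : Matrix (Fin n) (Fin n) ℂ →L[ℝ] Matrix (Fin n) (Fin n) ℂ :=
    { toFun := fun H => H - Tᴴ * H * T
      map_add' := by intro a b; simp [mul_add, add_mul]; abel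
      map_smul' := by intro r a; simp [smul_sub]
      cont := by fun_prop }
  have hΦ : ∀ H, Φ H = H - Tᴴ * H * T := fun H => rfl
  obtain ⟨f, u, v, hf1, huv, hf2⟩ := geometric_hahn_banach_compact_closed
    (hSconv.is_linear_image (f := Φ) ⟨map_add Φ, map_smul Φ⟩) (hScomp.image Φ.continuous)
    (convex_psd (n := n)) (isClosed_psd (n := n)) (by
      rw [Set.disjoint_left]
      rintro _ ⟨H, hH, rfl⟩ hP
      exact hno ⟨H, hH.1, hH.2, hP⟩)
  have hv0 : v < 0 := by
    have := hf2 0 (PosSemidef.zero)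
    simpa using this
  have hfpos : ∀ P : Matrix (Fin n) (Fin n) ℂ, P.PosSemidef → 0 ≤ f P := by
    intro P hP
    by_contra hneg
    push Not at hneg
    have h1 : (((-v + 1) / (- f P)) • P).PosSemidef := by
      apply PosSemidef.smul hP
      apply div_nonneg <;> linarith
    have h2 := hf2 _ h1
    rw [map_smul, smul_eq_mul, div_mul_eq_mul_div, lt_div_iff₀ (by linarith)] at h2
    nlinarith
  obtain ⟨Z, hZh, hZf⟩ := dual_rep f
  have hZp : Z.PosSemidef := by
    refine PosSemidef.of_dotProduct_mulVec_nonneg hZh fun x => ?_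
    have h1 := hfpos _ (posSemidef_vecMulVec_self_star x)
    rw [hZf _ (posSemidef_vecMulVec_self_star x).isHermitian] at h1
    have h2 : trace (Z * vecMulVec x (star x)) = star x ⬝ᵥ (Z *ᵥ x) := by
      rw [mul_vecMulVec, trace_vecMulVec, dotProduct_comm]
    rw [h2] at h1
    rw [Complex.le_def]
    refine ⟨h1, ?_⟩
    have := hZh.im_star_dotProduct_mulVec_self x
    simpa using this.symm
  refine ⟨Z, -u, hZp, by linarith, fun H h1 h2 => ?_⟩
  have h3 := hf1 (Φ H) ⟨H, ⟨h1, h2⟩, rfl⟩
  have hHh : (H - Tᴴ * H * T).IsHermitian := by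
    have hH : H.IsHermitian := by
      have := h1.isHermitian.add (isHermitian_one (n := Fin n) (α := ℂ))
      simpa using this
    exact hH.sub (isHermitian_conjTranspose_mul_mul T hH)
  rw [hΦ, hZf _ hHh] at h3
  linarith
end Crest.Agent.H23
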