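import Mathlib

/-!
# Row 132, task T8: auxiliary complex analysis for S0181 (helper20)
-/

set_option autoImplicit false

open Metric Set Filter Topology Real

namespace Crest.Agent.H23.PK

/-- injective holomorphic functions have nonvanishing derivative -/
theorem deriv_ne_zero_of_injOn {f : ℂ → ℂ} {U : Set ℂ} (hU : IsOpen U)
    (hf : DifferentiableOn ℂ f U) (hi : InjOn f U) {z0 : ℂ} (hz0 : z0 ∈ U) : deriv f z0 ≠ 0 := by
  have han : AnalyticOnNhd ℂ f U := hf.analyticOnNhd hU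
  -- f is not locally constant
  have hnc : ∀ z ∈ U, ¬ (∀ᶠ w in 𝓝 z, f w = f z) := by
    intro z hz hcon
    obtain ⟨ε, hε, h1⟩ := Metric.eventually_nhds_iff_ball.1 (hcon.and (hU.mem_nhds hz))
    have h2 : z + (ε / 2 : ℝ) ∈ ball z ε := by
      rw [mem_ball, dist_eq_norm, add_sub_cancel_left, Complex.norm_real, Real.norm_eq_abs,
        abs_of_pos (by positivity)]
      linarith
    have h3 := h1 _ h2
    have h4 := hi h3.2 hz h3.1
    have h5 : ((ε / 2 : ℝ) : ℂ) = 0 := by linear_combination h4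
    have h6 : ε / 2 = 0 := by exact_mod_cast h5
    linarith
  have hopen : ∀ z ∈ U, 𝓝 (f z) ≤ map f (𝓝 z) := by
    intro z hz
    rcases (han z hz).eventually_constant_or_nhds_le_map_nhds with h | h
    · exact absurd h (hnc z hz)
    · exact h
  set ψ : ℂ → ℂ := Function.invFunOn f U with hψ
  have hleft : ∀ z ∈ U, ψ (f z) = z := fun z hz => hi.leftInvOn_invFunOn hz
  have hcont : ∀ z ∈ U, ContinuousAt ψ (f z) := by
    intro z hz
    rw [ContinuousAt, hleft z hz, tendsto_def]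
    intro s hs
    have h1 : s ∩ U ∈ 𝓝 z := inter_mem hs (hU.mem_nhds hz)
    have h2 : f '' (s ∩ U) ∈ 𝓝 (f z) := hopen z hz (image_mem_map h1)
    filter_upwards [h2] with y hy
    obtain ⟨x, hx, rfl⟩ := hy
    show ψ (f x) ∈ s
    rw [hleft x hx.2]
    exact hx.1
  intro hd0
  have hder : AnalyticAt ℂ (deriv f) z0 := (han z0 hz0).deriv
  rcases hder.eventually_eq_zero_or_eventually_ne_zero with h | h
  · -- locally constant
    apply hnc z0 hz0
    obtain ⟨ε, hε, h1⟩ := Metric.eventually_nhds_iff_ball.1 (h.and (hU.mem_nhds hz0))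
    filter_upwards [ball_mem_nhds z0 hε] with w hw
    exact (convex_ball z0 ε).is_const_of_fderivWithin_eq_zero (𝕜 := ℂ)
      (hf.mono (fun x hx => (h1 x hx).2)) (by
        intro x hx
        rw [fderivWithin_of_isOpen isOpen_ball hx]
        ext
        rw [fderiv_apply_one_eq_deriv, (h1 x hx).1]
        simp) hw (mem_ball_self hε)
  · obtain ⟨ε, hε, h1⟩ := Metric.eventually_nhds_iff_ball.1
      ((eventually_nhdsWithin_iff.1 h).and (hU.mem_nhds hz0))
    have hW : f '' ball z0 ε ∈ 𝓝 (f z0) := hopen z0 hz0 (image_mem_map (ball_mem_nhds z0 hε))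
    have hdiff : ∀ᶠ y in 𝓝[≠] (f z0), DifferentiableAt ℂ ψ y := by
      rw [eventually_nhdsWithin_iff]
      filter_upwards [hW] with y hy hne
      obtain ⟨x, hx, rfl⟩ := hy
      have hxU := (h1 x hx).2
      have hxne : x ≠ z0 := by rintro rfl; exact hne rfl
      have hdx : deriv f x ≠ 0 := (h1 x hx).1 hxne
      have h2 : HasDerivAt f (deriv f x) (ψ (f x)) := by
        rw [hleft x hxU]
        exact ((hf x hxU).differentiableAt (hU.mem_nhds hxU)).hasDerivAt
      have h3 : ∀ᶠ y in 𝓝 (f x), f (ψ y) = y := by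
        have h4 : f '' U ∈ 𝓝 (f x) := hopen x hxU (image_mem_map (hU.mem_nhds hxU))
        filter_upwards [h4] with y hy
        exact Function.invFunOn_eq hy
      exact (HasDerivAt.of_local_left_inverse (hcont x hxU) h2 hdx h3).differentiableAt
    have han2 : AnalyticAt ℂ ψ (f z0) :=
      Complex.analyticAt_of_differentiable_on_punctured_nhds_of_continuousAt hdiff (hcont z0 hz0)
    have h2 : HasDerivAt f (deriv f z0) (ψ (f z0)) := by
      rw [hleft z0 hz0]
      exact ((hf z0 hz0).differentiableAt (hU.mem_nhds hz0)).hasDerivAt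
    have h3 : HasDerivAt (f ∘ ψ) (deriv f z0 * deriv ψ (f z0)) (f z0) :=
      h2.comp (f z0) han2.differentiableAt.hasDerivAt
    have h4 : f ∘ ψ =ᶠ[𝓝 (f z0)] id := by
      have h4 : f '' U ∈ 𝓝 (f z0) := hopen z0 hz0 (image_mem_map (hU.mem_nhds hz0))
      filter_upwards [h4] with y hy
      exact Function.invFunOn_eq hy
    have h5 : HasDerivAt id (deriv f z0 * deriv ψ (f z0)) (f z0) := h3.congr_of_eventuallyEq h4.symm
    have h6 := h5.unique (hasDerivAt_id _)
    rw [hd0, zero_mul] at h6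
    exact zero_ne_one h6

section
variable {𝔸 : Type*} [NormedAddCommGroup 𝔸] [NormedSpace ℂ 𝔸] [CompleteSpace 𝔸]

/-- average of `t Q'(t)` vanishes -/
theorem avg_deriv {Q Q' : ℂ → 𝔸} (h : ∀ t : ℂ, ‖t‖ = 1 → HasDerivAt Q (Q' t) t) :
    circleAverage (fun t => t • Q' t) 0 1 = 0 := by
  rw [circleAverage_eq_circleIntegral one_ne_zero]
  have h1 : (∮ z in C(0, 1), (z - 0)⁻¹ • z • Q' z) = ∮ z in C(0, 1), Q' z := by
    apply circleIntegral.integral_congr zero_le_one
    intro z hz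
    have hz0 : z ≠ 0 := by
      rintro rfl
      simp at hz
    simp only [sub_zero, smul_smul, inv_mul_cancel₀ hz0, one_smul]
  rw [h1, circleIntegral.integral_eq_zero_of_hasDerivWithinAt zero_le_one, smul_zero]
  intro z hz
  exact (h z (by simpa using hz)).hasDerivWithinAt

/-- `avg t g'(t) k(g t) = 0` for `k` holomorphic on a disc containing the curve -/
theorem avg_comp {g g' : ℂ → ℂ} {k : ℂ → 𝔸} {R : ℝ}
    (hg : ∀ t : ℂ, ‖t‖ = 1 → HasDerivAt g (g' t) t) (hgm : ∀ t : ℂ, ‖t‖ = 1 → g t ∈ ball (0 : ℂ) R)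
    (hk : DifferentiableOn ℂ k (ball 0 R)) :
    circleAverage (fun t => (t * g' t) • k (g t)) 0 1 = 0 := by
  obtain ⟨Kp, hKp⟩ := hk.isExactOn_ball
  have h1 : ∀ t : ℂ, ‖t‖ = 1 → HasDerivAt (Kp ∘ g) (g' t • k (g t)) t := by
    intro t ht
    exact (hKp _ (hgm t ht)).scomp t (hg t ht)
  have h2 := avg_deriv h1
  simp only [smul_smul] at h2
  exact h2

end

section
variable {𝔸 : Type*} [NormedRing 𝔸] [NormedAlgebra ℂ 𝔸] [CompleteSpace 𝔸]

theorem inv_eq {x y : 𝔸} (h1 : x * y = 1) (h2 : y * x = 1) : Ring.inverse x = y :=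
  Ring.inverse_unit ⟨x, y, h1, h2⟩

theorem continuousOn_inverse {X : Type*} [TopologicalSpace X] {s : Set X} {F : X → 𝔸}
    (hF : ContinuousOn F s) (hu : ∀ x ∈ s, IsUnit (F x)) :
    ContinuousOn (fun x => Ring.inverse (F x)) s := by
  intro x hx
  obtain ⟨a, ha⟩ := hu x hx
  have h1 : ContinuousAt Ring.inverse (F x) := by
    rw [← ha]
    exact NormedRing.inverse_continuousAt a
  exact ContinuousAt.comp_continuousWithinAt h1 (hF x hx)

theorem differentiableAt_inverse' {F : ℂ → 𝔸} {x : ℂ}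
    (hF : DifferentiableAt ℂ F x) (hu : IsUnit (F x)) :
    DifferentiableAt ℂ (fun x => Ring.inverse (F x)) x := by
  obtain ⟨a, ha⟩ := hu
  have h1 : DifferentiableAt ℂ Ring.inverse (F x) := by
    rw [← ha]
    exact (hasFDerivAt_ringInverse (𝕜 := ℂ) a).differentiableAt
  exact h1.comp x hF

/-- the exterior normalisation: `avg t G'(t) (G t - B)⁻¹ = 1` -/
theorem avg_resolvent {G : ℂ → ℂ} {r : ℝ} (hr : r < 1) (hG : DifferentiableOn ℂ G {t : ℂ | r < ‖t‖})
    (hinj : InjOn G {t : ℂ | 1 < ‖t‖}) {z0 : ℂ} {δ : ℝ} (hδ0 : 0 < δ)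
    (hδ : ∀ t : ℂ, 1 < ‖t‖ → δ ≤ ‖G t - z0‖) (hunb : ∀ M : ℝ, ∃ t : ℂ, 1 < ‖t‖ ∧ M < ‖G t‖)
    (B : 𝔸) (hB : ∀ t : ℂ, 1 ≤ ‖t‖ → IsUnit (algebraMap ℂ 𝔸 (G t) - B)) :
    circleAverage (fun t => (t * deriv G t) • Ring.inverse (algebraMap ℂ 𝔸 (G t) - B)) 0 1 = 1 := by
  have hopen : IsOpen {t : ℂ | r < ‖t‖} := isOpen_lt continuous_const continuous_norm
  have hGat : ∀ t : ℂ, 1 ≤ ‖t‖ → DifferentiableAt ℂ G t := fun t ht =>
    (hG t (lt_of_lt_of_le hr ht)).differentiableAt (hopen.mem_nhds (lt_of_lt_of_le hr ht))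
  have hinv1 : ∀ u : ℂ, u ∈ ball (0 : ℂ) 1 → u ≠ 0 → 1 < ‖u⁻¹‖ := by
    intro u hu hne
    rw [norm_inv]
    exact (one_lt_inv₀ (norm_pos_iff.2 hne)).2 (by simpa using hu)
  have hinv1' : ∀ u : ℂ, u ∈ closedBall (0 : ℂ) 1 → u ≠ 0 → 1 ≤ ‖u⁻¹‖ := by
    intro u hu hne
    rw [norm_inv]
    exact (one_le_inv₀ (norm_pos_iff.2 hne)).2 (by simpa using hu)
  set χ0 : ℂ → ℂ := fun u => (G u⁻¹ - z0)⁻¹ with hχ0def
  have hne0 : ∀ u : ℂ, u ∈ ball (0 : ℂ) 1 → u ≠ 0 → G u⁻¹ - z0 ≠ 0 := by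
    intro u hu hne h
    have h1 := hδ _ (hinv1 u hu hne)
    rw [h, norm_zero] at h1
    linarith
  have hd : DifferentiableOn ℂ χ0 (ball 0 1 \ {0}) := by
    intro u hu
    have h1 : DifferentiableAt ℂ (fun u : ℂ => G u⁻¹) u :=
      (hGat _ (hinv1 u hu.1 hu.2).le).comp u (differentiableAt_inv hu.2)
    exact ((h1.sub_const z0).inv (hne0 u hu.1 hu.2)).differentiableWithinAt
  have hb : BddAbove (norm ∘ χ0 '' (ball 0 1 \ {0})) := by
    refine ⟨δ⁻¹, ?_⟩
    rintro _ ⟨u, hu, rfl⟩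
    simp only [Function.comp_apply, hχ0def, norm_inv]
    exact inv_anti₀ hδ0 (hδ _ (hinv1 u hu.1 hu.2))
  have hχ := Complex.differentiableOn_update_limUnder_of_bddAbove
    (ball_mem_nhds (0 : ℂ) one_pos) hd hb
  set χ : ℂ → ℂ := Function.update χ0 0 (limUnder (𝓝[≠] 0) χ0) with hχdef
  have hχeq : ∀ u : ℂ, u ≠ 0 → χ u = χ0 u := fun u hu => Function.update_of_ne hu _ _
  have hχne : ∀ u : ℂ, u ∈ ball (0 : ℂ) 1 → u ≠ 0 → χ u ≠ 0 := by
    intro u hu hne
    rw [hχeq u hne]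
    exact inv_ne_zero (hne0 u hu hne)
  have hχat : ∀ u ∈ ball (0 : ℂ) 1, DifferentiableAt ℂ χ u := fun u hu =>
    (hχ u hu).differentiableAt (isOpen_ball.mem_nhds hu)
  -- value at zero
  have hχ00 : χ 0 = 0 := by
    by_contra hcon
    have hpos : 0 < ‖χ 0‖ := norm_pos_iff.2 hcon
    have hcont : ContinuousAt (fun u => ‖χ u‖) 0 :=
      (hχat 0 (mem_ball_self one_pos)).continuousAt.norm
    have h1 : ∀ᶠ u in 𝓝 (0 : ℂ), ‖χ 0‖ / 2 < ‖χ u‖ := hcont.eventually (lt_mem_nhds (by linarith))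
    obtain ⟨ρ, hρ, h2⟩ := Metric.eventually_nhds_iff_ball.1 h1
    have hcomp : IsCompact {t : ℂ | 1 ≤ ‖t‖ ∧ ‖t‖ ≤ ρ⁻¹} := by
      have h3 : {t : ℂ | 1 ≤ ‖t‖ ∧ ‖t‖ ≤ ρ⁻¹} = {t : ℂ | 1 ≤ ‖t‖} ∩ closedBall 0 ρ⁻¹ := by
        ext t; simp
      rw [h3]
      exact (isCompact_closedBall _ _).inter_left (isClosed_le continuous_const continuous_norm)
    obtain ⟨M, hM⟩ := hcomp.exists_bound_of_continuousOn (f := G)
      (fun t ht => (hGat t ht.1).continuousAt.continuousWithinAt)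
    obtain ⟨t, ht1, ht2⟩ := hunb (max M (‖z0‖ + 2 / ‖χ 0‖))
    by_cases h3 : ‖t‖ ≤ ρ⁻¹
    · have := hM t ⟨ht1.le, h3⟩
      have := le_max_left M (‖z0‖ + 2 / ‖χ 0‖)
      linarith
    · push Not at h3
      have ht0 : t ≠ 0 := by
        rintro rfl
        simp at ht1
        linarith
      have h4 : t⁻¹ ∈ ball (0 : ℂ) ρ := by
        rw [mem_ball_zero_iff, norm_inv]
        exact inv_lt_of_inv_lt₀ hρ h3
      have h5 := h2 _ h4
      rw [hχeq _ (inv_ne_zero ht0)] at h5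
      simp only [hχ0def, inv_inv, norm_inv] at h5
      have h6 : ‖G t - z0‖ < 2 / ‖χ 0‖ := by
        have h7 : 0 < ‖G t - z0‖ := lt_of_lt_of_le hδ0 (hδ t ht1)
        rw [lt_inv_comm₀ (by positivity) h7] at h5
        rw [inv_div] at h5
        exact h5
      have h8 : ‖G t‖ ≤ ‖z0‖ + ‖G t - z0‖ := by
        have := norm_add_le z0 (G t - z0)
        rwa [add_sub_cancel] at this
      have := le_max_right M (‖z0‖ + 2 / ‖χ 0‖)
      linarith
  have hχinj : InjOn χ (ball 0 1) := by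
    intro u hu u' hu' h
    by_cases h0 : u = 0
    · by_cases h0' : u' = 0
      · rw [h0, h0']
      · rw [h0, hχ00] at h
        exact absurd h.symm (hχne u' hu' h0')
    · by_cases h0' : u' = 0
      · rw [h0', hχ00] at h
        exact absurd h (hχne u hu h0)
      · rw [hχeq u h0, hχeq u' h0'] at h
        have h1 : G u⁻¹ = G u'⁻¹ := by
          have h2 := inv_injective h
          linear_combination h2
        have h2 := hinj (hinv1 u hu h0) (hinv1 u' hu' h0') h1
        exact inv_injective h2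
  have hd0 : deriv χ 0 ≠ 0 := deriv_ne_zero_of_injOn isOpen_ball hχ hχinj (mem_ball_self one_pos)
  set F : ℂ → 𝔸 := fun t => (t * deriv G t) • Ring.inverse (algebraMap ℂ 𝔸 (G t) - B) with hF
  set K : ℂ → 𝔸 := Function.update (fun u => F u⁻¹) 0 1 with hK
  have hKeq : ∀ u : ℂ, u ≠ 0 → K u = F u⁻¹ := fun u hu => Function.update_of_ne hu _ _
  have hK0 : K 0 = 1 := Function.update_self _ _ _
  -- formula near zero
  have hform : ∀ u : ℂ, u ∈ ball (0 : ℂ) 1 → u ≠ 0 →
      K u = (deriv χ u / dslope χ 0 u) • Ring.inverse (1 - χ u • (B - algebraMap ℂ 𝔸 z0)) := by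
    intro u hu hne
    rw [hKeq u hne]
    have hχu := hχne u hu hne
    have hG1 : G u⁻¹ = z0 + (χ u)⁻¹ := by
      rw [hχeq u hne]
      simp [hχ0def]
    -- derivative relation
    have h1 : HasDerivAt (fun u : ℂ => G u⁻¹) (deriv G u⁻¹ * (-(u ^ 2)⁻¹)) u :=
      HasDerivAt.comp u (hGat _ (hinv1 u hu hne).le).hasDerivAt (hasDerivAt_inv hne)
    have h2 : HasDerivAt (fun u : ℂ => z0 + (χ u)⁻¹) (-deriv χ u / (χ u) ^ 2) u :=
      ((hχat u hu).hasDerivAt.inv hχu).const_add z0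
    have h3 : (fun u : ℂ => G u⁻¹) =ᶠ[𝓝 u] (fun u : ℂ => z0 + (χ u)⁻¹) := by
      filter_upwards [isOpen_ball.mem_nhds hu, isOpen_ne.mem_nhds hne] with v hv hv0
      rw [hχeq v hv0]
      simp [hχ0def]
    have h4 := (h1.congr_of_eventuallyEq h3.symm).unique h2
    have h5 : u⁻¹ * deriv G u⁻¹ = u * deriv χ u / χ u ^ 2 := by
      have h6 : deriv G u⁻¹ = u ^ 2 * (deriv χ u / χ u ^ 2) := by
        field_simp at h4 ⊢
        linear_combination -h4
      rw [h6]
      field_simp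
    have h7 : dslope χ 0 u = χ u / u := by
      rw [dslope_of_ne _ hne, slope_def_field, hχ00]
      simp
    simp only [hF]
    rw [h5, h7, hG1]
    have h8 : algebraMap ℂ 𝔸 (z0 + (χ u)⁻¹) - B =
        (χ u)⁻¹ • (1 - χ u • (B - algebraMap ℂ 𝔸 z0)) := by
      rw [smul_sub, smul_smul, inv_mul_cancel₀ hχu, one_smul, map_add, Algebra.algebraMap_eq_smul_one
        (χ u)⁻¹]
      abel
    have h9 : Ring.inverse ((χ u)⁻¹ • (1 - χ u • (B - algebraMap ℂ 𝔸 z0))) =
        χ u • Ring.inverse (1 - χ u • (B - algebraMap ℂ 𝔸 z0)) := by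
      have hu1 : IsUnit ((χ u)⁻¹ • (1 - χ u • (B - algebraMap ℂ 𝔸 z0))) := by
        rw [← h8, ← hG1]
        exact hB _ (hinv1 u hu hne).le
      have hu2 : IsUnit (1 - χ u • (B - algebraMap ℂ 𝔸 z0)) := by
        have h10 := hu1.smul (Units.mk0 (χ u) hχu)
        have h11 : (Units.mk0 (χ u) hχu) • ((χ u)⁻¹ • (1 - χ u • (B - algebraMap ℂ 𝔸 z0))) =
            (1 - χ u • (B - algebraMap ℂ 𝔸 z0)) := by
          rw [Units.smul_mk0, smul_smul, mul_inv_cancel₀ hχu, one_smul]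
        rwa [h11] at h10
      apply inv_eq
      · rw [smul_mul_smul_comm, Ring.mul_inverse_cancel _ hu2, inv_mul_cancel₀ hχu, one_smul]
      · rw [smul_mul_smul_comm, Ring.inverse_mul_cancel _ hu2, mul_inv_cancel₀ hχu, one_smul]
    rw [h8, h9, smul_smul]
    congr 1
    field_simp
  have hKcont0 : ContinuousAt K 0 := by
    have h1 : K =ᶠ[𝓝 0] fun u =>
        (deriv χ u / dslope χ 0 u) • Ring.inverse (1 - χ u • (B - algebraMap ℂ 𝔸 z0)) := by
      filter_upwards [ball_mem_nhds (0 : ℂ) one_pos] with u hu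
      by_cases hne : u = 0
      · rw [hne, hK0, dslope_same, hχ00, zero_smul, sub_zero, Ring.inverse_one, div_self hd0,
          one_smul]
      · exact hform u hu hne
    have hχ0at := hχat 0 (mem_ball_self one_pos)
    have h2 : ContinuousAt (deriv χ) 0 :=
      ((hχ.analyticOnNhd isOpen_ball) 0 (mem_ball_self one_pos)).deriv.continuousAt
    have h3 : ContinuousAt (dslope χ 0) 0 := continuousAt_dslope_same.2 hχ0at
    have h4 : ContinuousAt (fun u => Ring.inverse (1 - χ u • (B - algebraMap ℂ 𝔸 z0))) 0 := by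
      have h5 : ContinuousAt (fun u => 1 - χ u • (B - algebraMap ℂ 𝔸 z0)) 0 :=
        continuousAt_const.sub (hχ0at.continuousAt.smul continuousAt_const)
      have h6 : ContinuousAt Ring.inverse (1 - χ 0 • (B - algebraMap ℂ 𝔸 z0)) := by
        rw [hχ00, zero_smul, sub_zero]
        exact NormedRing.inverse_continuousAt (1 : 𝔸ˣ)
      exact ContinuousAt.comp (g := Ring.inverse) h6 h5
    refine ContinuousAt.congr ?_ h1.symm
    refine (h2.div h3 ?_).smul h4
    rw [dslope_same]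
    exact hd0
  have hderivcont : ∀ t : ℂ, 1 ≤ ‖t‖ → DifferentiableAt ℂ (deriv G) t := fun t ht =>
    ((hG.analyticOnNhd hopen) t (lt_of_lt_of_le hr ht)).deriv.differentiableAt
  have hFdiff : ∀ t : ℂ, 1 ≤ ‖t‖ → DifferentiableAt ℂ F t := by
    intro t ht
    have h1 : DifferentiableAt ℂ (fun t => algebraMap ℂ 𝔸 (G t) - B) t := by
      have h2 : DifferentiableAt ℂ (fun t => G t • (1 : 𝔸)) t := (hGat t ht).smul_const _
      simp only [Algebra.algebraMap_eq_smul_one]
      exact h2.sub_const B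
    exact ((differentiableAt_id.mul (hderivcont t ht))).smul (differentiableAt_inverse' h1 (hB t ht))
  have hmain := circleAverage_of_differentiable_on_off_countable (f := K) (c := 0) (R := 1)
    (countable_singleton (0 : ℂ)) (by
      rw [abs_one]
      intro u hu
      by_cases hne : u = 0
      · rw [hne]
        exact hKcont0.continuousWithinAt
      · have h1 : DifferentiableAt ℂ (fun u => F u⁻¹) u :=
          DifferentiableAt.comp u (hFdiff _ (hinv1' u hu hne)) (differentiableAt_inv hne)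
        refine (ContinuousAt.congr h1.continuousAt ?_).continuousWithinAt
        filter_upwards [isOpen_ne.mem_nhds hne] with v hv
        exact (hKeq v hv).symm) (by
      rw [abs_one]
      intro u hu
      have hne : u ≠ 0 := hu.2
      have h1 : DifferentiableAt ℂ (fun u => F u⁻¹) u :=
        DifferentiableAt.comp u (hFdiff _ (hinv1 u hu.1 hne).le) (differentiableAt_inv hne)
      refine h1.congr_of_eventuallyEq ?_
      filter_upwards [isOpen_ne.mem_nhds hne] with v hv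
      exact hKeq v hv)
  rw [← circleAverage_zero_one_congr_inv]
  rw [hK0] at hmain
  rw [← hmain]
  apply circleAverage_congr_sphere
  intro u hu
  have hne : u ≠ 0 := by
    rintro rfl
    simp at hu
  exact (hKeq u hne).symm

end

end Crest.Agent.H23.PK
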