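import Crest.Agent.H23.PK

/-!
# Row 132, task T8a: boundary behaviour (helper20)
-/

set_option autoImplicit false

open Metric Set Filter Topology Real

namespace Crest.Agent.H23.PK

theorem map_nhds_of_injOn {f : ℂ → ℂ} {U : Set ℂ} (hU : IsOpen U)
    (hf : DifferentiableOn ℂ f U) (hi : InjOn f U) {z : ℂ} (hz : z ∈ U) :
    map f (𝓝 z) = 𝓝 (f z) :=
  ((hf.analyticAt (hU.mem_nhds hz)).hasStrictDerivAt).map_nhds_eq
    (deriv_ne_zero_of_injOn hU hf hi hz)

theorem isOpen_image_of_injOn {f : ℂ → ℂ} {U : Set ℂ} (hU : IsOpen U)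
    (hf : DifferentiableOn ℂ f U) (hi : InjOn f U) : IsOpen (f '' U) := by
  rw [isOpen_iff_mem_nhds]
  rintro _ ⟨z, hz, rfl⟩
  rw [← map_nhds_of_injOn hU hf hi hz]
  exact image_mem_map (hU.mem_nhds hz)

theorem hasDerivAt_invFunOn {f : ℂ → ℂ} {U : Set ℂ} (hU : IsOpen U)
    (hf : DifferentiableOn ℂ f U) (hi : InjOn f U) {z : ℂ} (hz : z ∈ U) :
    HasDerivAt (Function.invFunOn f U) (deriv f z)⁻¹ (f z) := by
  have hleft : ∀ z ∈ U, Function.invFunOn f U (f z) = z := fun z hz => hi.leftInvOn_invFunOn hz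
  have hcont : ContinuousAt (Function.invFunOn f U) (f z) := by
    rw [ContinuousAt, hleft z hz, tendsto_def]
    intro s hs
    have h1 : s ∩ U ∈ 𝓝 z := inter_mem hs (hU.mem_nhds hz)
    have h2 : f '' (s ∩ U) ∈ 𝓝 (f z) := by
      rw [← map_nhds_of_injOn hU hf hi hz]
      exact image_mem_map h1
    filter_upwards [h2] with y hy
    obtain ⟨x, hx, rfl⟩ := hy
    show Function.invFunOn f U (f x) ∈ s
    rw [hleft x hx.2]
    exact hx.1
  have h2 : HasDerivAt f (deriv f z) (Function.invFunOn f U (f z)) := by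
    rw [hleft z hz]
    exact ((hf z hz).differentiableAt (hU.mem_nhds hz)).hasDerivAt
  have h3 : ∀ᶠ y in 𝓝 (f z), f (Function.invFunOn f U y) = y := by
    have h4 : f '' U ∈ 𝓝 (f z) := (isOpen_image_of_injOn hU hf hi).mem_nhds ⟨z, hz, rfl⟩
    filter_upwards [h4] with y hy
    exact Function.invFunOn_eq hy
  exact HasDerivAt.of_local_left_inverse hcont h2 (deriv_ne_zero_of_injOn hU hf hi hz) h3

theorem image_closure_eq {Ω U : Set ℂ} {f : ℂ → ℂ} (hb : Bornology.IsBounded Ω)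
    (hΩU : closure Ω ⊆ U) (hf : DifferentiableOn ℂ f U)
    (hf3 : f '' Ω = ball 0 1) : f '' closure Ω = closedBall 0 1 := by
  have h1 : f '' closure Ω = closure (f '' Ω) :=
    image_closure_of_isCompact hb.isCompact_closure (hf.continuousOn.mono hΩU)
  rw [h1, hf3, closure_ball _ one_ne_zero]

/-- T8a: holomorphic inverse beyond the closed disc. -/
theorem exists_inv {Ω U O : Set ℂ} {f : ℂ → ℂ} (hU : IsOpen U) (hb : Bornology.IsBounded Ω)
    (hΩU : closure Ω ⊆ U) (hf : DifferentiableOn ℂ f U) (hi : InjOn f U)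
    (hf3 : f '' Ω = ball 0 1) (hO : IsOpen O) (hΩO : closure Ω ⊆ O) :
    ∃ (R : ℝ) (ψ : ℂ → ℂ), 1 < R ∧ DifferentiableOn ℂ ψ (ball 0 R) ∧
      MapsTo ψ (ball 0 R) (O ∩ U) ∧ (∀ y ∈ ball (0 : ℂ) R, f (ψ y) = y) ∧
      (∀ z ∈ closure Ω, ψ (f z) = z) := by
  have himg := image_closure_eq hb hΩU hf hf3
  have hW : IsOpen (O ∩ U) := hO.inter hU
  have hopen : IsOpen (f '' (O ∩ U)) :=
    isOpen_image_of_injOn hW (hf.mono inter_subset_right) (hi.mono inter_subset_right)
  obtain ⟨δ, hδ, hsub⟩ := (isCompact_closedBall (0 : ℂ) 1).exists_thickening_subset_open hopen (by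
    rw [← himg]
    exact image_mono (subset_inter hΩO hΩU))
  rw [thickening_closedBall hδ zero_le_one] at hsub
  refine ⟨δ + 1, Function.invFunOn f U, by linarith, ?_, ?_, ?_, ?_⟩
  · intro y hy
    obtain ⟨z, hz, rfl⟩ := hsub hy
    exact (hasDerivAt_invFunOn hU hf hi hz.2).differentiableAt.differentiableWithinAt
  · intro y hy
    obtain ⟨z, hz, rfl⟩ := hsub hy
    rw [hi.leftInvOn_invFunOn hz.2]
    exact hz
  · intro y hy
    obtain ⟨z, hz, rfl⟩ := hsub hy
    rw [hi.leftInvOn_invFunOn hz.2]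
  · intro z hz
    exact hi.leftInvOn_invFunOn (hΩU hz)

/-- the standing data of S0181 -/
structure Bd (Ω U : Set ℂ) (f G : ℂ → ℂ) (r : ℝ) : Prop where
  hΩ₁ : IsOpen Ω
  hΩ₂ : Bornology.IsBounded Ω
  hU : IsOpen U
  hΩU : closure Ω ⊆ U
  hf₁ : DifferentiableOn ℂ f U
  hf₂ : Set.InjOn f U
  hf₃ : f '' Ω = Metric.ball 0 1
  hr₂ : r < 1
  hG₁ : DifferentiableOn ℂ G {t : ℂ | r < ‖t‖}
  hG₂ : Set.InjOn G {t : ℂ | r < ‖t‖}
  hG₃ : G '' {t : ℂ | 1 < ‖t‖} = (closure Ω)ᶜ

section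
variable {Ω U : Set ℂ} {f G : ℂ → ℂ} {r : ℝ}

namespace Bd

theorem diffG (h : Bd Ω U f G r) {t : ℂ} (ht : 1 ≤ ‖t‖) : DifferentiableAt ℂ G t := by
  have hopen : IsOpen {t : ℂ | r < ‖t‖} := isOpen_lt continuous_const continuous_norm
  have h1 : r < ‖t‖ := lt_of_lt_of_le h.hr₂ ht
  exact (h.hG₁ t h1).differentiableAt (hopen.mem_nhds h1)

theorem mem_closure (h : Bd Ω U f G r) {t : ℂ} (ht : ‖t‖ = 1) : G t ∈ closure Ω := by
  by_contra hcon
  have h1 : G t ∈ (closure Ω)ᶜ := hcon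
  rw [← h.hG₃] at h1
  obtain ⟨s, hs, hst⟩ := h1
  have h2 : s = t := h.hG₂ (lt_trans h.hr₂ hs) (by
    show r < ‖t‖
    rw [ht]; exact h.hr₂) hst
  rw [h2] at hs
  have hs' : 1 < ‖t‖ := hs
  linarith

theorem exterior (h : Bd Ω U f G r) {t : ℂ} (ht : 1 < ‖t‖) : G t ∉ closure Ω := by
  have h1 : G t ∈ G '' {t : ℂ | 1 < ‖t‖} := ⟨t, ht, rfl⟩
  rw [h.hG₃] at h1
  exact h1

theorem not_mem (h : Bd Ω U f G r) {t : ℂ} (ht : 1 ≤ ‖t‖) : G t ∉ Ω := by
  rcases ht.eq_or_lt with h1 | h1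
  · intro hcon
    have hc : ContinuousAt (fun x : ℝ => G ((x : ℂ) * t)) 1 := by
      have h2 : ContinuousAt (fun x : ℝ => (x : ℂ) * t) 1 :=
        (Complex.continuous_ofReal.mul continuous_const).continuousAt
      have h3 : ContinuousAt G ((fun x : ℝ => (x : ℂ) * t) 1) := by
        simp only [Complex.ofReal_one, one_mul]
        exact (h.diffG h1.le).continuousAt
      exact ContinuousAt.comp (f := fun x : ℝ => (x : ℂ) * t) h3 h2
    have h2 : ∀ᶠ x : ℝ in 𝓝 (1 : ℝ), G (((x : ℝ) : ℂ) * t) ∈ Ω := by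
      apply hc.eventually_mem
      simp only [Complex.ofReal_one, one_mul]
      exact h.hΩ₁.mem_nhds hcon
    obtain ⟨ε, hε, h3⟩ := Metric.eventually_nhds_iff_ball.1 h2
    have h4 := h3 (1 + ε / 2) (by
      rw [mem_ball, Real.dist_eq, add_sub_cancel_left, abs_of_pos (by positivity)]
      linarith)
    have h5 : 1 < ‖((1 + ε / 2 : ℝ) : ℂ) * t‖ := by
      rw [norm_mul, ← h1, mul_one, Complex.norm_real, Real.norm_eq_abs, abs_of_pos (by positivity)]
      linarith
    exact h.exterior h5 (subset_closure h4)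
  · intro hcon
    exact h.exterior h1 (subset_closure hcon)

theorem norm_fG (h : Bd Ω U f G r) {t : ℂ} (ht : ‖t‖ = 1) : ‖f (G t)‖ = 1 := by
  have h1 : f (G t) ∈ closedBall (0 : ℂ) 1 := by
    rw [← image_closure_eq h.hΩ₂ h.hΩU h.hf₁ h.hf₃]
    exact ⟨G t, h.mem_closure ht, rfl⟩
  have h2 : ‖f (G t)‖ ≤ 1 := by simpa using h1
  refine le_antisymm h2 ?_
  by_contra hcon
  push Not at hcon
  have h3 : f (G t) ∈ f '' Ω := by
    rw [h.hf₃]; simpa using hcon
  obtain ⟨z, hz, hzt⟩ := h3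
  have h4 := h.hf₂ (h.hΩU (subset_closure hz)) (h.hΩU (h.mem_closure ht)) hzt
  rw [h4] at hz
  exact h.not_mem ht.ge hz

theorem norm_fG' (h : Bd Ω U f G r) {t : ℂ} (ht : 1 < ‖t‖) (hGt : G t ∈ U) :
    1 ≤ ‖f (G t)‖ := by
  by_contra hcon
  push Not at hcon
  have h3 : f (G t) ∈ f '' closure Ω := by
    rw [image_closure_eq h.hΩ₂ h.hΩU h.hf₁ h.hf₃]
    simpa using hcon.le
  obtain ⟨z, hz, hzt⟩ := h3
  have h4 := h.hf₂ (h.hΩU hz) hGt hzt
  rw [h4] at hz
  exact h.exterior ht hz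

theorem hasDeriv (h : Bd Ω U f G r) {t : ℂ} (ht : ‖t‖ = 1) :
    HasDerivAt (fun t => f (G t)) (deriv f (G t) * deriv G t) t := by
  have h1 : HasDerivAt G (deriv G t) t := (h.diffG ht.ge).hasDerivAt
  have hm := h.hΩU (h.mem_closure ht)
  have h2 : HasDerivAt f (deriv f (G t)) (G t) :=
    ((h.hf₁ _ hm).differentiableAt (h.hU.mem_nhds hm)).hasDerivAt
  exact h2.comp t h1

theorem ne_zero (h : Bd Ω U f G r) {t : ℂ} (ht : ‖t‖ = 1) : f (G t) ≠ 0 := by
  intro h0
  have := h.norm_fG ht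
  rw [h0, norm_zero] at this
  exact zero_ne_one this

/-- `w = t g'/g` is real and nonnegative -/
theorem w_nonneg (h : Bd Ω U f G r) {t : ℂ} (ht : ‖t‖ = 1) :
    ∃ x : ℝ, 0 ≤ x ∧ t * (deriv f (G t) * deriv G t) / f (G t) = x := by
  set g : ℂ → ℂ := fun t => f (G t) with hg
  set g' : ℂ := deriv f (G t) * deriv G t with hg'
  have hd : HasDerivAt g g' t := h.hasDeriv ht
  have hgn : ‖g t‖ = 1 := h.norm_fG ht
  have hg0 : g t ≠ 0 := h.ne_zero ht
  have hwr : ∀ c : ℂ, inner ℝ (g t) (c * (t * g')) = (c * (t * g' / g t)).re := by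
    intro c
    have h1 : (g t)⁻¹ = (starRingEnd ℂ) (g t) := by
      rw [Complex.inv_def, Complex.normSq_eq_norm_sq, hgn]
      simp
    rw [Complex.inner]
    congr 1
    rw [div_eq_mul_inv, h1]
    ring
  -- tangential
  have him : (t * g' / g t).im = 0 := by
    set γ : ℝ → ℂ := fun θ => Complex.exp ((θ : ℂ) * Complex.I) * t with hγ
    have hγ0 : γ 0 = t := by simp [hγ]
    have hγd : HasDerivAt γ (Complex.I * t) 0 := by
      have h1 : HasDerivAt (fun θ : ℝ => (θ : ℂ) * Complex.I) (1 * Complex.I) 0 :=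
        (Complex.ofRealCLM.hasDerivAt (x := (0 : ℝ))).mul_const Complex.I
      have h2 : HasDerivAt (fun θ : ℝ => Complex.exp ((θ : ℂ) * Complex.I))
          (Complex.exp (((0 : ℝ) : ℂ) * Complex.I) * (1 * Complex.I)) 0 :=
        HasDerivAt.cexp h1
      have h3 := h2.mul_const t
      simpa using h3
    have hd' : HasDerivAt g g' (γ 0) := by rw [hγ0]; exact hd
    have hgγ : HasDerivAt (fun θ : ℝ => g (γ θ)) (g' * (Complex.I * t)) 0 :=
      HasDerivAt.comp (𝕜 := ℝ) (𝕜' := ℂ) (h₂ := g) (h := γ) (0 : ℝ) hd' hγd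
    have hns := hgγ.norm_sq
    rw [hγ0] at hns
    have hconst : (fun θ : ℝ => ‖g (γ θ)‖ ^ 2) = fun _ => 1 := by
      funext θ
      have h1 : ‖γ θ‖ = 1 := by
        simp only [hγ]
        rw [norm_mul, Complex.norm_exp_ofReal_mul_I, ht, one_mul]
      rw [show g (γ θ) = f (G (γ θ)) from rfl, h.norm_fG h1]
      norm_num
    rw [hconst] at hns
    have h4 := hns.unique (hasDerivAt_const (0 : ℝ) (1 : ℝ))
    have h5 : g' * (Complex.I * t) = Complex.I * (t * g') := by ring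
    rw [h5, hwr] at h4
    have h6 : (Complex.I * (t * g' / g t)).re = -(t * g' / g t).im := by
      simp [Complex.mul_re]
    rw [h6] at h4
    linarith
  -- radial
  have hre : 0 ≤ (t * g' / g t).re := by
    set γ : ℝ → ℂ := fun x => (x : ℂ) * t with hγ
    have hγ0 : γ 1 = t := by simp [hγ]
    have hγd : HasDerivAt γ t 1 := by
      have h1 : HasDerivAt (fun x : ℝ => (x : ℂ) * t) (1 * t) 1 :=
        (Complex.ofRealCLM.hasDerivAt (x := (1 : ℝ))).mul_const t
      simpa using h1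
    have hd' : HasDerivAt g g' (γ 1) := by rw [hγ0]; exact hd
    have hgγ : HasDerivAt (fun x : ℝ => g (γ x)) (g' * t) 1 :=
      HasDerivAt.comp (𝕜 := ℝ) (𝕜' := ℂ) (h₂ := g) (h := γ) (1 : ℝ) hd' hγd
    have hns := hgγ.norm_sq
    rw [hγ0, show g' * t = 1 * (t * g') by ring, hwr, one_mul] at hns
    by_contra hcon
    push Not at hcon
    -- derivative negative: for x > 1 near 1, ‖g‖^2 < 1
    have hmem : ∀ᶠ x in 𝓝 (1 : ℝ), G (γ x) ∈ U := by
      have hc : ContinuousAt (fun x : ℝ => G (γ x)) 1 := by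
        have h2 : ContinuousAt γ 1 := hγd.continuousAt
        have h3 : ContinuousAt G (γ 1) := by
          rw [hγ0]
          exact (h.diffG ht.ge).continuousAt
        exact ContinuousAt.comp (f := γ) h3 h2
      apply hc.eventually_mem
      rw [hγ0]
      exact h.hU.mem_nhds (h.hΩU (h.mem_closure ht))
    have hslope := (hasDerivAt_iff_tendsto_slope.1 hns).eventually (gt_mem_nhds (by linarith : 2 * (t * g' / g t).re < 0))
    rw [eventually_nhdsWithin_iff] at hslope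
    obtain ⟨ε, hε, h3⟩ := Metric.eventually_nhds_iff_ball.1 (hslope.and hmem)
    have hxb : (1 + ε / 2) ∈ ball (1 : ℝ) ε := by
      rw [mem_ball, Real.dist_eq, add_sub_cancel_left, abs_of_pos (by positivity)]
      linarith
    have h4 := h3 _ hxb
    have h5 := h4.1 (by simp; linarith)
    have h6 : 1 < ‖γ (1 + ε / 2)‖ := by
      simp only [hγ]
      rw [norm_mul, ht, mul_one, Complex.norm_real, Real.norm_eq_abs, abs_of_pos (by positivity)]
      linarith
    have h7 := h.norm_fG' h6 h4.2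
    rw [slope_def_field] at h5
    have h8 : ‖g (γ 1)‖ = 1 := by rw [hγ0]; exact hgn
    have h9 : (1 : ℝ) ≤ ‖g (γ (1 + ε / 2))‖ ^ 2 := by
      have : 1 ≤ ‖g (γ (1 + ε / 2))‖ := h7
      nlinarith
    have h10 : 0 ≤ (‖g (γ (1 + ε / 2))‖ ^ 2 - ‖g (γ 1)‖ ^ 2) / (1 + ε / 2 - 1) := by
      rw [h8]
      apply div_nonneg
      · nlinarith
      · linarith
    linarith
  refine ⟨(t * g' / g t).re, hre, ?_⟩
  show t * g' / g t = _
  exact Complex.ext (by rw [Complex.ofReal_re]) (by rw [Complex.ofReal_im, him])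

/-- `avg λ v(G) = 0` -/
theorem avg_hol (h : Bd Ω U f G r) {O : Set ℂ} (hO : IsOpen O) (hΩO : closure Ω ⊆ O)
    {v : ℂ → ℂ} (hv : DifferentiableOn ℂ v O) :
    circleAverage (fun t => t * deriv G t * v (G t)) 0 1 = 0 := by
  obtain ⟨R, ψ, hR, hψ, hmap, hfψ, hψf⟩ := exists_inv h.hU h.hΩ₂ h.hΩU h.hf₁ h.hf₂ h.hf₃ hO hΩO
  have hk : DifferentiableOn ℂ (fun y => v (ψ y) * deriv ψ y) (ball 0 R) := by
    apply DifferentiableOn.mul
    · exact hv.comp hψ (fun y hy => (hmap hy).1)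
    · exact (hψ.analyticOnNhd isOpen_ball).deriv.differentiableOn
  have h1 := avg_comp (g := fun t => f (G t)) (g' := fun t => deriv f (G t) * deriv G t)
    (k := fun y => v (ψ y) * deriv ψ y) (R := R) (fun t ht => h.hasDeriv ht) (fun t ht => by
      rw [mem_ball_zero_iff, h.norm_fG ht]; exact hR) hk
  refine Eq.trans ?_ h1
  apply circleAverage_congr_sphere
  intro t ht
  have ht1 : ‖t‖ = 1 := by simpa using ht
  have hcl := h.mem_closure ht1
  have hb : f (G t) ∈ ball (0 : ℂ) R := by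
    rw [mem_ball_zero_iff, h.norm_fG ht1]; exact hR
  have h2 : HasDerivAt ψ (deriv ψ (f (G t))) (f (G t)) :=
    ((hψ _ hb).differentiableAt (isOpen_ball.mem_nhds hb)).hasDerivAt
  have h3 : HasDerivAt f (deriv f (G t)) (ψ (f (G t))) := by
    rw [hψf _ hcl]
    have hm := h.hΩU hcl
    exact ((h.hf₁ _ hm).differentiableAt (h.hU.mem_nhds hm)).hasDerivAt
  have h4 : HasDerivAt (f ∘ ψ) (deriv f (G t) * deriv ψ (f (G t))) (f (G t)) := h3.comp _ h2
  have h5 : f ∘ ψ =ᶠ[𝓝 (f (G t))] id := by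
    filter_upwards [isOpen_ball.mem_nhds hb] with y hy
    exact hfψ y hy
  have h6 := (h4.congr_of_eventuallyEq h5.symm).unique (hasDerivAt_id _)
  simp only [smul_eq_mul]
  rw [hψf _ hcl]
  linear_combination (-(t * deriv G t * v (G t))) * h6

theorem resolvent (h : Bd Ω U f G r) {𝔸 : Type*} [NormedRing 𝔸] [NormedAlgebra ℂ 𝔸]
    [CompleteSpace 𝔸] (B : 𝔸) (hB : ∀ t : ℂ, 1 ≤ ‖t‖ → IsUnit (algebraMap ℂ 𝔸 (G t) - B)) :
    circleAverage (fun t => (t * deriv G t) • Ring.inverse (algebraMap ℂ 𝔸 (G t) - B)) 0 1 = 1 := by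
  obtain ⟨z0, hz0, hfz0⟩ : (0 : ℂ) ∈ f '' Ω := by
    rw [h.hf₃]; exact mem_ball_self one_pos
  obtain ⟨δ, hδ, hball⟩ := Metric.isOpen_iff.1 h.hΩ₁ z0 hz0
  refine avg_resolvent h.hr₂ h.hG₁ (h.hG₂.mono (fun t ht => lt_trans h.hr₂ ht)) (z0 := z0)
    (δ := δ) hδ ?_ ?_ B hB
  · intro t ht
    by_contra hcon
    push Not at hcon
    apply h.exterior ht
    apply subset_closure
    apply hball
    rw [mem_ball, dist_eq_norm]
    exact hcon
  · intro M
    obtain ⟨M', hM'⟩ := h.hΩ₂.isCompact_closure.isBounded.subset_ball (0 : ℂ)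
    have h1 : ((max M M' + 1 : ℝ) : ℂ) ∉ closure Ω := by
      intro hcon
      have h2 := hM' hcon
      rw [mem_ball_zero_iff, Complex.norm_real, Real.norm_eq_abs] at h2
      have h3 := le_abs_self (max M M' + 1)
      have h4 := le_max_right M M'
      linarith
    have h2 : ((max M M' + 1 : ℝ) : ℂ) ∈ G '' {t : ℂ | 1 < ‖t‖} := by
      rw [h.hG₃]; exact h1
    obtain ⟨t, ht, hGt⟩ := h2
    refine ⟨t, ht, ?_⟩
    rw [hGt, Complex.norm_real, Real.norm_eq_abs]
    have h3 := le_abs_self (max M M' + 1)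
    have h4 := le_max_left M M'
    linarith

/-- total mass of `w` -/
theorem avg_w (h : Bd Ω U f G r) :
    circleAverage (fun t => t * (deriv f (G t) * deriv G t) / f (G t)) 0 1 = 1 := by
  obtain ⟨z0, hz0, hfz0⟩ : (0 : ℂ) ∈ f '' Ω := by
    rw [h.hf₃]; exact mem_ball_self one_pos
  have hz0U : z0 ∈ U := h.hΩU (subset_closure hz0)
  set D : ℂ → ℂ := dslope f z0 with hD
  have hDd : DifferentiableOn ℂ D U :=
    (Complex.differentiableOn_dslope (h.hU.mem_nhds hz0U)).2 h.hf₁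
  have hfD : ∀ z, f z = (z - z0) * D z := by
    intro z
    have := sub_smul_dslope f z0 z
    rw [hfz0, sub_zero, smul_eq_mul] at this
    exact this.symm
  have hDne : ∀ z ∈ U, D z ≠ 0 := by
    intro z hz hDz
    by_cases hzz : z = z0
    · rw [hzz, hD, dslope_same] at hDz
      exact deriv_ne_zero_of_injOn h.hU h.hf₁ h.hf₂ hz0U hDz
    · apply hzz
      apply h.hf₂ hz hz0U
      rw [hfz0, hfD z, hDz, mul_zero]
  have hv : DifferentiableOn ℂ (fun z => deriv D z / D z) U :=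
    (hDd.analyticOnNhd h.hU).deriv.differentiableOn.div hDd hDne
  have h1 := h.avg_hol h.hU h.hΩU hv
  have h2 := h.resolvent (𝔸 := ℂ) z0 (by
    intro t ht
    rw [isUnit_iff_ne_zero]
    intro hcon
    have h3 : G t = z0 := by
      have : G t - z0 = 0 := hcon
      linear_combination this
    apply h.not_mem ht
    rw [h3]; exact hz0)
  have hcG : ContinuousOn G (sphere 0 1) := fun t ht =>
    (h.diffG (by simpa using (show ‖t‖ = 1 by simpa using ht).ge)).continuousAt.continuousWithinAt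
  have hopen : IsOpen {t : ℂ | r < ‖t‖} := isOpen_lt continuous_const continuous_norm
  have hcG' : ContinuousOn (deriv G) (sphere 0 1) := by
    have h3 : ContinuousOn (deriv G) {t : ℂ | r < ‖t‖} :=
      (h.hG₁.analyticOnNhd hopen).deriv.continuousOn
    apply h3.mono
    intro t ht
    have : ‖t‖ = 1 := by simpa using ht
    show r < ‖t‖
    rw [this]; exact h.hr₂
  have hmU : ∀ t : ℂ, ‖t‖ = 1 → G t ∈ U := fun t ht => h.hΩU (h.mem_closure ht)
  have hint1 : CircleIntegrable (fun t => t * deriv G t * (deriv D (G t) / D (G t))) 0 1 := by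
    apply ContinuousOn.circleIntegrable zero_le_one
    apply (continuousOn_id.mul hcG').mul
    exact hv.continuousOn.comp hcG (fun t ht => hmU t (by simpa using ht))
  have hne : ∀ t : ℂ, ‖t‖ = 1 → G t - z0 ≠ 0 := by
    intro t ht hcon
    apply h.not_mem ht.ge
    have h3 : G t = z0 := by linear_combination hcon
    rw [h3]; exact hz0
  have hint2 : CircleIntegrable
      (fun t => (t * deriv G t) • Ring.inverse (algebraMap ℂ ℂ (G t) - z0)) 0 1 := by
    apply ContinuousOn.circleIntegrable zero_le_one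
    simp only [Ring.inverse_eq_inv', smul_eq_mul, Algebra.algebraMap_self, RingHom.id_apply]
    apply (continuousOn_id.mul hcG').mul
    apply ContinuousOn.inv₀ (hcG.sub continuousOn_const)
    intro t ht
    exact hne t (by simpa using ht)
  have h3 := circleAverage_fun_add hint2 hint1
  rw [h1, h2, add_zero] at h3
  rw [← h3]
  apply circleAverage_congr_sphere
  intro t ht
  have ht1 : ‖t‖ = 1 := by simpa using ht
  have hU1 := hmU t ht1
  have hDt := hDne _ hU1
  have hGt := hne t ht1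
  have hder : deriv f (G t) = D (G t) + (G t - z0) * deriv D (G t) := by
    have h4 : HasDerivAt (fun z => (z - z0) * D z) (1 * D (G t) + (G t - z0) * deriv D (G t)) (G t) :=
      ((hasDerivAt_id (G t)).sub_const z0).mul
        ((hDd _ hU1).differentiableAt (h.hU.mem_nhds hU1)).hasDerivAt
    have h5 : f = fun z => (z - z0) * D z := funext hfD
    rw [h5, h4.deriv, one_mul]
  simp only [Ring.inverse_eq_inv', smul_eq_mul, Algebra.algebraMap_self, RingHom.id_apply]
  rw [hder, hfD (G t)]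
  field_simp

end Bd

end

end Crest.Agent.H23.PK
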