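import Crest.Agent.H23.PK

/-! Row 132, task T8f: the calculus on the side of Ω. -/

set_option autoImplicit false

open Metric Set Filter Topology Real Polynomial

namespace Crest.Agent.H23.PK

namespace PsiAux

variable {𝔸 : Type*} [NormedRing 𝔸] [NormedAlgebra ℂ 𝔸] [CompleteSpace 𝔸]

lemma ci {V : Type*} [NormedAddCommGroup V] {f : ℂ → V} (hf : ContinuousOn f (sphere 0 1)) :
    CircleIntegrable f 0 1 := hf.circleIntegrable zero_le_one

lemma avg_add' {V : Type*} [NormedAddCommGroup V] [NormedSpace ℝ V] {f g : ℂ → V}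
    (hf : ContinuousOn f (sphere 0 1)) (hg : ContinuousOn g (sphere 0 1)) :
    circleAverage (fun u => f u + g u) 0 1 = circleAverage f 0 1 + circleAverage g 0 1 :=
  Real.circleAverage_fun_add (ci hf) (ci hg)

lemma avg_mul_left' (A : 𝔸) {f : ℂ → 𝔸} (hf : ContinuousOn f (sphere 0 1)) :
    circleAverage (fun u => A * f u) 0 1 = A * circleAverage f 0 1 := by
  have := ContinuousLinearMap.circleAverage_comp_comm (c := 0) (R := 1)
    ((ContinuousLinearMap.mul ℂ 𝔸 A).restrictScalars ℝ) (ci hf)
  simpa [Function.comp_def] using this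

lemma avg_smul_one {f : ℂ → ℂ} (hf : ContinuousOn f (sphere 0 1)) :
    circleAverage (fun u => f u • (1 : 𝔸)) 0 1 = (circleAverage f 0 1) • (1 : 𝔸) := by
  have := ContinuousLinearMap.circleAverage_comp_comm (c := 0) (R := 1)
    (((ContinuousLinearMap.id ℂ ℂ).smulRight (1 : 𝔸)).restrictScalars ℝ) (ci hf)
  simpa [Function.comp_def] using this

end PsiAux

open PsiAux

section
variable {𝔸 : Type*} [NormedRing 𝔸] [NormedAlgebra ℂ 𝔸] [CompleteSpace 𝔸]

/-- T8f: the calculus on the side of Ω. `G` boundary curve, `λ = t G'`. -/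
theorem psi_calc {Ω O : Set ℂ} (hO : IsOpen O) (hΩO : closure Ω ⊆ O)
    {G l : ℂ → ℂ} (hGc : ContinuousOn G (sphere 0 1)) (hlc : ContinuousOn l (sphere 0 1))
    (hGm : ∀ t : ℂ, ‖t‖ = 1 → G t ∈ closure Ω)
    (B : 𝔸) (hB : ∀ t : ℂ, ‖t‖ = 1 → IsUnit (algebraMap ℂ 𝔸 (G t) - B))
    (h1 : circleAverage (fun t => l t • Ring.inverse (algebraMap ℂ 𝔸 (G t) - B)) 0 1 = 1)
    (h0 : ∀ v : ℂ → ℂ, DifferentiableOn ℂ v O → circleAverage (fun t => l t * v (G t)) 0 1 = 0)
    (χ : Polynomial ℂ) (hχ : aeval B χ = 0) :
    (∀ P : Polynomial ℂ, ∀ v : ℂ → ℂ, DifferentiableOn ℂ v O →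
      circleAverage (fun t => (l t * (P.eval (G t) * v (G t))) •
        Ring.inverse (algebraMap ℂ 𝔸 (G t) - B)) 0 1
      = aeval B P * circleAverage (fun t => (l t * v (G t)) •
        Ring.inverse (algebraMap ℂ 𝔸 (G t) - B)) 0 1) ∧
    (∀ v h : ℂ → ℂ, ∀ q : Polynomial ℂ, DifferentiableOn ℂ v O → DifferentiableOn ℂ h O →
      (∀ z ∈ O, v z - q.eval z = χ.eval z * h z) →
      circleAverage (fun t => (l t * v (G t)) • Ring.inverse (algebraMap ℂ 𝔸 (G t) - B)) 0 1
        = aeval B q) ∧
    (∀ f h : ℂ → ℂ, ∀ p : Polynomial ℂ, DifferentiableOn ℂ f O → DifferentiableOn ℂ h O →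
      (∀ z ∈ O, f z - p.eval z = χ.eval z * h z) → ∀ P : Polynomial ℂ,
      circleAverage (fun t => (l t * P.eval (f (G t))) •
        Ring.inverse (algebraMap ℂ 𝔸 (G t) - B)) 0 1 = aeval (aeval B p) P) := by
  set Rr : ℂ → 𝔸 := fun t => Ring.inverse (algebraMap ℂ 𝔸 (G t) - B) with hRr
  have hRc : ContinuousOn Rr (sphere 0 1) := by
    apply continuousOn_inverse
    · exact ((continuous_algebraMap ℂ 𝔸).comp_continuousOn hGc).sub continuousOn_const
    · intro t ht
      exact hB t (by simpa using ht)
  have hmemO : ∀ t ∈ sphere (0:ℂ) 1, G t ∈ O := fun t ht => hΩO (hGm t (by simpa using ht))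
  have hvc : ∀ v : ℂ → ℂ, DifferentiableOn ℂ v O → ContinuousOn (fun t => v (G t)) (sphere 0 1) :=
    fun v hv => hv.continuousOn.comp hGc hmemO
  have hlv : ∀ v : ℂ → ℂ, DifferentiableOn ℂ v O →
      ContinuousOn (fun t => (l t * v (G t))) (sphere 0 1) := fun v hv => hlc.mul (hvc v hv)
  have hlvR : ∀ v : ℂ → ℂ, DifferentiableOn ℂ v O →
      ContinuousOn (fun t => (l t * v (G t)) • Rr t) (sphere 0 1) := fun v hv =>
    (hlv v hv).smul hRc
  -- the functional
  set Ψ : (ℂ → ℂ) → 𝔸 := fun v => circleAverage (fun t => (l t * v (G t)) • Rr t) 0 1 with hΨ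
  have hΨadd : ∀ v w : ℂ → ℂ, DifferentiableOn ℂ v O → DifferentiableOn ℂ w O →
      Ψ (fun z => v z + w z) = Ψ v + Ψ w := by
    intro v w hv hw
    simp only [hΨ]
    rw [← avg_add' (hlvR v hv) (hlvR w hw)]
    congr 1
    funext t
    rw [← add_smul, mul_add]
  have hΨsmul : ∀ (a : ℂ) (v : ℂ → ℂ), Ψ (fun z => a * v z) = a • Ψ v := by
    intro a v
    simp only [hΨ]
    rw [← Real.circleAverage_fun_smul]
    congr 1
    funext t
    rw [smul_smul]
    congr 1
    ring
  have hΨcongr : ∀ v w : ℂ → ℂ, (∀ z ∈ O, v z = w z) → Ψ v = Ψ w := by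
    intro v w hvw
    simp only [hΨ]
    apply Real.circleAverage_congr_sphere
    intro t ht
    rw [abs_one] at ht
    simp only
    rw [hvw _ (hmemO t ht)]
  have hΨz : ∀ v : ℂ → ℂ, DifferentiableOn ℂ v O → Ψ (fun z => z * v z) = B * Ψ v := by
    intro v hv
    simp only [hΨ]
    rw [← avg_mul_left' B (hlvR v hv)]
    have e1 : circleAverage (fun t => (l t * (G t * v (G t))) • Rr t) 0 1
        = circleAverage (fun t => (l t * v (G t)) • (1 : 𝔸) + B * ((l t * v (G t)) • Rr t)) 0 1 := by
      apply Real.circleAverage_congr_sphere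
      intro t ht
      rw [abs_one] at ht
      simp only
      have h2 : (algebraMap ℂ 𝔸 (G t) - B) * Rr t = 1 :=
        Ring.mul_inverse_cancel _ (hB t (by simpa using ht))
      have h3 : (G t) • Rr t = 1 + B * Rr t := by
        rw [sub_mul, ← Algebra.smul_def] at h2
        rw [← h2]
        abel
      have h4 : (l t * (G t * v (G t))) • Rr t = (l t * v (G t)) • ((G t) • Rr t) := by
        rw [smul_smul]
        congr 1
        ring
      rw [h4, h3, smul_add, mul_smul_comm]
    have c1 : ContinuousOn (fun t => (l t * v (G t)) • (1 : 𝔸)) (sphere 0 1) :=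
      (hlv v hv).smul continuousOn_const
    have c2 : ContinuousOn (fun t => B * ((l t * v (G t)) • Rr t)) (sphere 0 1) :=
      continuousOn_const.mul (hlvR v hv)
    rw [e1, avg_add' c1 c2, avg_smul_one (hlv v hv), h0 v hv, zero_smul, zero_add]
  have hΨone : Ψ (fun _ => 1) = 1 := by
    simp only [hΨ, mul_one]
    exact h1
  -- part 1
  have hpart1 : ∀ P : Polynomial ℂ, ∀ v : ℂ → ℂ, DifferentiableOn ℂ v O →
      Ψ (fun z => P.eval z * v z) = aeval B P * Ψ v := by
    intro P v hv
    induction P using Polynomial.induction_on' with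
    | add p q hp hq =>
      have e1 : (fun z => (p + q).eval z * v z)
          = fun z => p.eval z * v z + q.eval z * v z := by
        funext z
        simp only [eval_add]
        ring
      rw [e1, map_add, add_mul, ← hp, ← hq]
      exact hΨadd (fun z => p.eval z * v z) (fun z => q.eval z * v z)
        (p.differentiable.differentiableOn.mul hv) (q.differentiable.differentiableOn.mul hv)
    | monomial n a =>
      have hn : Ψ (fun z => z ^ n * v z) = B ^ n * Ψ v := by
        induction n with
        | zero => simp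
        | succ n ih =>
          have e1 : (fun z => z ^ (n + 1) * v z) = fun z => z * (z ^ n * v z) := by
            funext z
            ring
          rw [e1, pow_succ', mul_assoc, ← ih]
          exact hΨz (fun z => z ^ n * v z) ((differentiableOn_id.pow n).mul hv)
      have e1 : (fun z => (monomial n a).eval z * v z)
          = fun z => a * (z ^ n * v z) := by
        funext z
        simp only [eval_monomial]
        ring
      rw [e1, aeval_monomial, ← Algebra.smul_def, smul_mul_assoc, ← hn]
      exact hΨsmul a (fun z => z ^ n * v z)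
  -- part 2
  have hpart2 : ∀ v h : ℂ → ℂ, ∀ q : Polynomial ℂ, ∀ w : ℂ → ℂ, DifferentiableOn ℂ h O →
      DifferentiableOn ℂ w O →
      (∀ z ∈ O, v z - q.eval z = χ.eval z * h z) → Ψ (fun z => v z * w z) = aeval B q * Ψ w := by
    intro v h q w hh hw hvq
    rw [hΨcongr (fun z => v z * w z)
      (fun z => q.eval z * w z + χ.eval z * (h z * w z))
      (by
        intro z hz
        have := hvq z hz
        linear_combination (w z) * this)]
    have e2 := hpart1 χ (fun z => h z * w z) (hh.mul hw)
    rw [hχ, zero_mul] at e2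
    have e3 := hΨadd (fun z => q.eval z * w z) (fun z => χ.eval z * (h z * w z))
      (q.differentiable.differentiableOn.mul hw)
      (χ.differentiable.differentiableOn.mul (hh.mul hw))
    rw [e2, add_zero, hpart1 q w hw] at e3
    exact e3
  refine ⟨hpart1, ?_, ?_⟩
  · intro v h q hv hh hvq
    have := hpart2 v h q (fun _ => 1) hh (differentiableOn_const _) hvq
    rw [hΨone, mul_one] at this
    simpa [hΨ] using this
  · intro f h p hf hh hfp P
    show Ψ (fun z => P.eval (f z)) = _
    induction P using Polynomial.induction_on' with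
    | add p' q' hp hq =>
      have e1 : (fun z => (p' + q').eval (f z))
          = fun z => p'.eval (f z) + q'.eval (f z) := by
        funext z
        simp only [eval_add]
      rw [e1, map_add, ← hp, ← hq]
      exact hΨadd (fun z => p'.eval (f z)) (fun z => q'.eval (f z))
        (p'.differentiable.comp_differentiableOn hf) (q'.differentiable.comp_differentiableOn hf)
    | monomial n a =>
      have hn : Ψ (fun z => (f z) ^ n) = (aeval B p) ^ n := by
        induction n with
        | zero => simpa using hΨone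
        | succ n ih =>
          have e1 : (fun z => (f z) ^ (n + 1)) = fun z => f z * (f z) ^ n := by
            funext z
            ring
          rw [e1, pow_succ', ← ih]
          exact hpart2 f h p (fun z => (f z) ^ n) hh (hf.pow n) hfp
      have e1 : (fun z => (monomial n a).eval (f z))
          = fun z => a * (f z) ^ n := by
        funext z
        simp only [eval_monomial]
      rw [e1, aeval_monomial, ← Algebra.smul_def, ← hn]
      exact hΨsmul a (fun z => (f z) ^ n)

end

end Crest.Agent.H23.PK
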