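import Crest.Agent.H23.PK
import Crest.Agent.H23.PKF

/-! Row 132, task T8c: the calculus on the disc side. -/

set_option autoImplicit false

open Metric Set Filter Topology Real Polynomial

namespace Crest.Agent.H23.PK

namespace PhiAux

lemma norm_avg_le' {V : Type*} [NormedAddCommGroup V] [NormedSpace ℝ V] {f : ℂ → V} {g : ℂ → ℝ}
    (hg : ContinuousOn g (sphere 0 1))
    (h : ∀ u ∈ sphere (0:ℂ) 1, ‖f u‖ ≤ g u) :
    ‖circleAverage f 0 1‖ ≤ circleAverage g 0 1 := by
  unfold Real.circleAverage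
  rw [norm_smul, smul_eq_mul]
  have : ‖(2 * Real.pi)⁻¹‖ = (2 * Real.pi)⁻¹ := by
    rw [Real.norm_eq_abs, abs_of_pos (by positivity)]
  rw [this]
  apply mul_le_mul_of_nonneg_left _ (by positivity)
  apply intervalIntegral.norm_integral_le_of_norm_le (by positivity)
  · filter_upwards with θ _
    apply h
    simp
  · exact PsiAux.ci hg

end PhiAux

open PsiAux PhiAux

section
variable {𝔸 : Type*} [NormedRing 𝔸] [NormedAlgebra ℂ 𝔸] [CompleteSpace 𝔸]

/-- T8c: the disc-side calculus on polynomials. -/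
theorem phi_poly {g w : ℂ → ℂ} (hg : ContinuousOn g (sphere 0 1))
    (hw : ContinuousOn w (sphere 0 1)) (hg1 : ∀ t : ℂ, ‖t‖ = 1 → ‖g t‖ = 1)
    (hw1 : circleAverage w 0 1 = 1)
    (hp : ∀ k : ℕ, 1 ≤ k → circleAverage (fun t => w t * g t ^ k) 0 1 = 0)
    (hm : ∀ k : ℕ, 1 ≤ k → circleAverage (fun t => w t * (g t)⁻¹ ^ k) 0 1 = 0)
    (C : 𝔸) (hC : Tendsto (fun k : ℕ => C ^ k) atTop (𝓝 0)) (P : Polynomial ℂ) :
    (∀ y : ℂ, 1 ≤ ‖y‖ → IsUnit (1 - y⁻¹ • C)) ∧
    circleAverage (fun t => (w t * P.eval (g t)) • Ring.inverse (1 - (g t)⁻¹ • C)) 0 1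
      = aeval C P := by
  have hunit : ∀ y : ℂ, 1 ≤ ‖y‖ → IsUnit (1 - y⁻¹ • C) := by
    intro y hy
    have h1 : ∀ᶠ k in atTop, ‖C ^ k‖ < 1 := by
      have := hC.norm
      rw [norm_zero] at this
      exact this.eventually (gt_mem_nhds one_pos)
    obtain ⟨k, hk⟩ := h1.exists
    have h2 : ‖(y⁻¹ • C) ^ k‖ < 1 := by
      rw [_root_.smul_pow, norm_smul, norm_pow, norm_inv]
      have h3 : (‖y‖⁻¹) ^ k ≤ 1 := pow_le_one₀ (by positivity) (inv_le_one_of_one_le₀ hy)
      calc (‖y‖⁻¹) ^ k * ‖C ^ k‖ ≤ 1 * ‖C ^ k‖ := by gcongr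
        _ < 1 := by rwa [one_mul]
    have h3 : IsUnit (1 - (y⁻¹ • C) ^ k) := isUnit_one_sub_of_norm_lt_one h2
    have h4 : (1 - y⁻¹ • C) * (∑ i ∈ Finset.range k, (y⁻¹ • C) ^ i) = 1 - (y⁻¹ • C) ^ k :=
      mul_neg_geom_sum _ _
    have h5 : (∑ i ∈ Finset.range k, (y⁻¹ • C) ^ i) * (1 - y⁻¹ • C) = 1 - (y⁻¹ • C) ^ k :=
      geom_sum_mul_neg _ _
    have hcomm : Commute (1 - y⁻¹ • C) (∑ i ∈ Finset.range k, (y⁻¹ • C) ^ i) := by
      rw [commute_iff_eq, h4, h5]
    rw [← h4] at h3
    exact (hcomm.isUnit_mul_iff.1 h3).1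
  refine ⟨hunit, ?_⟩
  have hgne : ∀ t ∈ sphere (0:ℂ) 1, g t ≠ 0 := by
    intro t ht h0
    have := hg1 t (by simpa using ht)
    rw [h0, norm_zero] at this
    norm_num at this
  have hgi : ContinuousOn (fun t => (g t)⁻¹) (sphere 0 1) := hg.inv₀ hgne
  set Rr : ℂ → 𝔸 := fun t => Ring.inverse (1 - (g t)⁻¹ • C) with hRr
  have hRu : ∀ t ∈ sphere (0:ℂ) 1, IsUnit (1 - (g t)⁻¹ • C) := fun t ht =>
    hunit _ (hg1 t (by simpa using ht)).ge
  have hRc : ContinuousOn Rr (sphere 0 1) := by
    apply continuousOn_inverse _ hRu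
    exact continuousOn_const.sub (hgi.smul continuousOn_const)
  have hReq : ∀ t ∈ sphere (0:ℂ) 1, Rr t = 1 + C * ((g t)⁻¹ • Rr t) := by
    intro t ht
    have h2 : (1 - (g t)⁻¹ • C) * Rr t = 1 := Ring.mul_inverse_cancel _ (hRu t ht)
    rw [sub_mul, one_mul] at h2
    rw [mul_smul_comm, ← smul_mul_assoc, ← h2]
    abel
  -- negative powers
  set D : ℕ → 𝔸 := fun N => circleAverage (fun t => (w t * (g t)⁻¹ ^ N) • Rr t) 0 1 with hD
  have hcN : ∀ N, ContinuousOn (fun t => w t * (g t)⁻¹ ^ N) (sphere 0 1) := fun N =>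
    hw.mul (hgi.pow N)
  have hcNR : ∀ N, ContinuousOn (fun t => (w t * (g t)⁻¹ ^ N) • Rr t) (sphere 0 1) := fun N =>
    (hcN N).smul hRc
  have hDstep : ∀ N, D N = (circleAverage (fun t => w t * (g t)⁻¹ ^ N) 0 1) • (1 : 𝔸)
      + C * D (N + 1) := by
    intro N
    simp only [hD]
    rw [← avg_smul_one (hcN N), ← avg_mul_left' C (hcNR (N + 1))]
    have c1 : ContinuousOn (fun t => (w t * (g t)⁻¹ ^ N) • (1 : 𝔸)) (sphere 0 1) :=
      (hcN N).smul continuousOn_const
    have c2 : ContinuousOn (fun t => C * ((w t * (g t)⁻¹ ^ (N + 1)) • Rr t)) (sphere 0 1) :=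
      continuousOn_const.mul (hcNR (N + 1))
    rw [← avg_add' c1 c2]
    apply Real.circleAverage_congr_sphere
    intro t ht
    rw [abs_one] at ht
    simp only
    conv_lhs => rw [hReq t ht]
    rw [smul_add, pow_succ, ← mul_assoc, mul_smul_comm, mul_smul_comm, smul_smul]
  have hD0 : ∀ N, D 0 = 1 + C ^ (N + 1) * D (N + 1) := by
    intro N
    induction N with
    | zero =>
      rw [hDstep 0]
      simp [hw1]
    | succ N ih =>
      rw [ih, hDstep (N + 1), hm (N + 1) (by omega), zero_smul, zero_add, pow_succ C (N + 1),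
        mul_assoc]
  have hbd : ∀ N, ‖D N‖ ≤ circleAverage (fun t => ‖w t‖ * ‖Rr t‖) 0 1 := by
    intro N
    apply norm_avg_le' (hw.norm.mul hRc.norm)
    intro t ht
    rw [norm_smul, norm_mul, norm_pow, norm_inv, hg1 t (by simpa using ht)]
    simp
  have hD1 : D 0 = 1 := by
    have h1 : Tendsto (fun N : ℕ => C ^ (N + 1) * D (N + 1)) atTop (𝓝 0) := by
      rw [tendsto_zero_iff_norm_tendsto_zero]
      have h2 : Tendsto (fun N : ℕ => ‖C ^ (N + 1)‖ * circleAverage (fun t => ‖w t‖ * ‖Rr t‖) 0 1)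
          atTop (𝓝 0) := by
        have h3 := (hC.comp (tendsto_add_atTop_nat 1)).norm
        rw [norm_zero] at h3
        have h4 := h3.mul_const (circleAverage (fun t => ‖w t‖ * ‖Rr t‖) 0 1)
        rw [zero_mul] at h4
        exact h4
      apply squeeze_zero (fun N => norm_nonneg _) _ h2
      intro N
      exact (norm_mul_le _ _).trans (mul_le_mul_of_nonneg_left (hbd _) (norm_nonneg _))
    have h2 : Tendsto (fun _ : ℕ => D 0) atTop (𝓝 (1 + 0)) := by
      refine (h1.const_add 1).congr (fun N => ?_)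
      exact (hD0 N).symm
    rw [add_zero] at h2
    exact tendsto_nhds_unique tendsto_const_nhds h2
  -- positive powers
  have hcP : ∀ k : ℕ, ContinuousOn (fun t => w t * g t ^ k) (sphere 0 1) := fun k =>
    hw.mul (hg.pow k)
  have hpow : ∀ k : ℕ, circleAverage (fun t => (w t * g t ^ k) • Rr t) 0 1 = C ^ k := by
    intro k
    induction k with
    | zero =>
      simp only [pow_zero]
      have : D 0 = circleAverage (fun t => (w t * 1) • Rr t) 0 1 := by
        simp [hD]
      rw [← this, hD1]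
    | succ k ih =>
      have h1 : circleAverage (fun t => (w t * g t ^ (k + 1)) • Rr t) 0 1
          = circleAverage (fun t => (w t * g t ^ (k + 1)) • (1 : 𝔸)
            + C * ((w t * g t ^ k) • Rr t)) 0 1 := by
        apply Real.circleAverage_congr_sphere
        intro t ht
        rw [abs_one] at ht
        simp only
        conv_lhs => rw [hReq t ht]
        have e : w t * g t ^ (k + 1) * (g t)⁻¹ = w t * g t ^ k := by
          rw [pow_succ]
          field_simp [hgne t ht]
        rw [smul_add, mul_smul_comm, mul_smul_comm, smul_smul, e]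
      have c1 : ContinuousOn (fun t => (w t * g t ^ (k + 1)) • (1 : 𝔸)) (sphere 0 1) :=
        (hcP (k + 1)).smul continuousOn_const
      have c2 : ContinuousOn (fun t => C * ((w t * g t ^ k) • Rr t)) (sphere 0 1) :=
        continuousOn_const.mul ((hcP k).smul hRc)
      have c3 : ContinuousOn (fun t => (w t * g t ^ k) • Rr t) (sphere 0 1) :=
        (hcP k).smul hRc
      rw [h1, avg_add' c1 c2, avg_smul_one (hcP (k + 1)), hp (k + 1) (by omega), zero_smul,
        zero_add, avg_mul_left' C c3, ih, pow_succ']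
  induction P using Polynomial.induction_on' with
  | add p q hp' hq' =>
    rw [map_add, ← hp', ← hq']
    have c1 : ContinuousOn (fun t => (w t * p.eval (g t)) • Rr t) (sphere 0 1) :=
      (hw.mul (p.continuous.comp_continuousOn hg)).smul hRc
    have c2 : ContinuousOn (fun t => (w t * q.eval (g t)) • Rr t) (sphere 0 1) :=
      (hw.mul (q.continuous.comp_continuousOn hg)).smul hRc
    rw [← avg_add' c1 c2]
    congr 1
    funext t
    rw [← add_smul, eval_add, mul_add]
  | monomial n a =>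
    rw [aeval_monomial, ← Algebra.smul_def, ← hpow n, ← Real.circleAverage_fun_smul]
    congr 1
    funext t
    rw [smul_smul, eval_monomial]
    congr 1
    ring

/-- T8d: polynomial approximation beyond the closed disc. -/
theorem exists_poly_approx {R : ℝ} (hR : 1 < R) {k : ℂ → ℂ} (hk : DifferentiableOn ℂ k (ball 0 R)) :
    ∃ P : ℕ → Polynomial ℂ,
      TendstoUniformlyOn (fun N y => (P N).eval y) k atTop (closedBall 0 1) := by
  obtain ⟨r, hr1, hrR⟩ := exists_between hR
  obtain ⟨s, hs1, hsr⟩ := exists_between hr1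
  lift r to NNReal using by linarith
  lift s to NNReal using by linarith
  have h1 : HasFPowerSeriesOnBall k (cauchyPowerSeries k 0 r) 0 r :=
    (hk.mono (closedBall_subset_ball hrR)).hasFPowerSeriesOnBall
      (by exact_mod_cast (lt_trans zero_lt_one hr1))
  have h4 := h1.tendstoUniformlyOn (r' := s) (by exact_mod_cast hsr)
  refine ⟨fun N => ∑ n ∈ Finset.range N,
    Polynomial.C ((cauchyPowerSeries k 0 r).coeff n) * Polynomial.X ^ n, ?_⟩
  have h5 : TendstoUniformlyOn (fun N y => (cauchyPowerSeries k 0 r).partialSum N y)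
      (fun y => k (0 + y)) atTop (closedBall 0 1) := by
    apply h4.mono
    apply closedBall_subset_ball
    exact hs1
  simp only [zero_add] at h5
  refine h5.congr (Eventually.of_forall fun N y _ => ?_)
  simp only [FormalMultilinearSeries.partialSum, eval_finsetSum, eval_mul, eval_C, eval_pow,
    eval_X]
  refine Finset.sum_congr rfl fun n _ => ?_
  rw [FormalMultilinearSeries.apply_eq_pow_smul_coeff, smul_eq_mul, mul_comm]

/-- T8e: averages and uniform limits. -/
theorem avg_tendsto {F : ℕ → ℂ → ℂ} {k g : ℂ → ℂ} {a : ℂ → 𝔸}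
    (hFc : ∀ N, ContinuousOn (F N) (closedBall 0 1))
    (hF : TendstoUniformlyOn F k atTop (closedBall 0 1))
    (hg : ContinuousOn g (sphere 0 1)) (hg1 : ∀ t : ℂ, ‖t‖ = 1 → ‖g t‖ = 1)
    (ha : ContinuousOn a (sphere 0 1)) :
    Tendsto (fun N => circleAverage (fun t => F N (g t) • a t) 0 1) atTop
      (𝓝 (circleAverage (fun t => k (g t) • a t) 0 1)) := by
  have hkc : ContinuousOn k (closedBall 0 1) :=
    hF.continuousOn (Frequently.of_forall hFc)
  have hmaps : MapsTo g (sphere 0 1) (closedBall 0 1) := by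
    intro t ht
    simp [hg1 t (by simpa using ht)]
  have hkg : ContinuousOn (fun t => k (g t)) (sphere 0 1) := hkc.comp hg hmaps
  have hFg : ∀ N, ContinuousOn (fun t => F N (g t)) (sphere 0 1) := fun N =>
    (hFc N).comp hg hmaps
  set K := circleAverage (fun t => ‖a t‖) 0 1 with hK
  have hK0 : 0 ≤ K := Real.circleAverage_nonneg_of_nonneg (fun _ _ => norm_nonneg _)
  rw [Metric.tendsto_atTop]
  intro ε hε
  rw [Metric.tendstoUniformlyOn_iff] at hF
  obtain ⟨N0, hN0⟩ := eventually_atTop.1 (hF (ε / (K + 1)) (by positivity))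
  refine ⟨N0, fun N hN => ?_⟩
  have h1 := hN0 N hN
  have c1 : ContinuousOn (fun t => F N (g t) • a t) (sphere 0 1) := (hFg N).smul ha
  have c2 : ContinuousOn (fun t => k (g t) • a t) (sphere 0 1) := hkg.smul ha
  rw [dist_eq_norm, ← Real.circleAverage_fun_sub (ci c1) (ci c2)]
  have h2 : ‖circleAverage (fun z => F N (g z) • a z - k (g z) • a z) 0 1‖
      ≤ circleAverage (fun t => ε / (K + 1) * ‖a t‖) 0 1 := by
    apply norm_avg_le' (continuousOn_const.mul ha.norm)
    intro t ht
    rw [← sub_smul, norm_smul]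
    apply mul_le_mul_of_nonneg_right _ (norm_nonneg _)
    have := h1 (g t) (hmaps ht)
    rw [dist_comm, dist_eq_norm] at this
    exact this.le
  have h3 : circleAverage (fun t => ε / (K + 1) * ‖a t‖) 0 1 = ε / (K + 1) * K := by
    have := Real.circleAverage_fun_smul (a := ε / (K + 1)) (f := fun t => ‖a t‖) (c := 0) (R := 1)
    simpa using this
  rw [h3] at h2
  refine h2.trans_lt ?_
  rw [div_mul_eq_mul_div, div_lt_iff₀ (by positivity)]
  nlinarith

end

end Crest.Agent.H23.PK
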