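import Crest.Agent.H23.PKA
import Crest.Agent.H23.PKC

/-!
# Row 132, task T8: the density (helper20)
-/

set_option autoImplicit false

open Metric Set Filter Topology Real Polynomial

namespace Crest.Agent.H23.PK

section
variable {𝔸 : Type*} [NormedRing 𝔸] [NormedAlgebra ℂ 𝔸] [CompleteSpace 𝔸]

/-- if `C ^ k → 0` then `1 - y C` is a unit for `‖y‖ ≤ 1` -/
theorem isUnit_one_sub_smul {C : 𝔸} (hC : Tendsto (fun k : ℕ => C ^ k) atTop (𝓝 0)) {y : ℂ}
    (hy : ‖y‖ ≤ 1) : IsUnit (1 - y • C) := by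
  have h1 : ∀ᶠ k : ℕ in atTop, ‖C ^ k‖ < 1 := by
    have h2 := hC.norm
    rw [norm_zero] at h2
    exact h2.eventually (gt_mem_nhds one_pos)
  obtain ⟨k, hk, hk1⟩ := (h1.and (eventually_ge_atTop 1)).exists
  have h3 : ‖(y • C) ^ k‖ < 1 := by
    rw [_root_.smul_pow, norm_smul, norm_pow]
    calc ‖y‖ ^ k * ‖C ^ k‖ ≤ 1 * ‖C ^ k‖ := by
          apply mul_le_mul_of_nonneg_right (pow_le_one₀ (norm_nonneg _) hy) (norm_nonneg _)
      _ < 1 := by rw [one_mul]; exact hk
  have h4 : IsUnit (1 - (y • C) ^ k) := isUnit_one_sub_of_norm_lt_one h3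
  -- factor
  have h5 : (1 - y • C) * (∑ i ∈ Finset.range k, (y • C) ^ i) = 1 - (y • C) ^ k := mul_neg_geom_sum _ _
  have h6 : (∑ i ∈ Finset.range k, (y • C) ^ i) * (1 - y • C) = 1 - (y • C) ^ k := geom_sum_mul_neg _ _
  have hcomm : Commute (1 - y • C) (∑ i ∈ Finset.range k, (y • C) ^ i) := by
    rw [Commute, SemiconjBy, h5, h6]
  exact (hcomm.isUnit_mul_iff.1 (by rw [h5]; exact h4)).1

theorem exists_radius {C : 𝔸} (hC : Tendsto (fun k : ℕ => C ^ k) atTop (𝓝 0)) :
    ∃ R : ℝ, 1 < R ∧ ∀ y ∈ ball (0 : ℂ) R, IsUnit (1 - y • C) := by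
  have hopen : IsOpen {y : ℂ | IsUnit (1 - y • C)} := by
    have h1 : Continuous (fun y : ℂ => 1 - y • C) :=
      continuous_const.sub (continuous_id.smul continuous_const)
    exact (Units.isOpen (R := 𝔸)).preimage h1
  obtain ⟨δ, hδ, hsub⟩ := (isCompact_closedBall (0 : ℂ) 1).exists_thickening_subset_open hopen (by
    intro y hy
    exact isUnit_one_sub_smul hC (by simpa using hy))
  rw [thickening_closedBall hδ zero_le_one] at hsub
  exact ⟨δ + 1, by linarith, fun y hy => hsub hy⟩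

end

section
variable {Ω U : Set ℂ} {f G : ℂ → ℂ} {r : ℝ}

namespace Bd

theorem contG (h : Bd Ω U f G r) : ContinuousOn G (sphere 0 1) := fun t ht =>
  (h.diffG (by simpa using (show ‖t‖ = 1 by simpa using ht).ge)).continuousAt.continuousWithinAt

theorem contG' (h : Bd Ω U f G r) : ContinuousOn (deriv G) (sphere 0 1) := by
  have hopen : IsOpen {t : ℂ | r < ‖t‖} := isOpen_lt continuous_const continuous_norm
  have h3 : ContinuousOn (deriv G) {t : ℂ | r < ‖t‖} :=
    (h.hG₁.analyticOnNhd hopen).deriv.continuousOn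
  apply h3.mono
  intro t ht
  have : ‖t‖ = 1 := by simpa using ht
  show r < ‖t‖
  rw [this]; exact h.hr₂

theorem contg (h : Bd Ω U f G r) : ContinuousOn (fun t => f (G t)) (sphere 0 1) :=
  (h.hf₁.continuousOn).comp h.contG (fun t ht => h.hΩU (h.mem_closure (by simpa using ht)))

theorem contg' (h : Bd Ω U f G r) : ContinuousOn (fun t => deriv f (G t)) (sphere 0 1) :=
  ((h.hf₁.analyticOnNhd h.hU).deriv.continuousOn).comp h.contG
    (fun t ht => h.hΩU (h.mem_closure (by simpa using ht)))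

theorem contl (h : Bd Ω U f G r) : ContinuousOn (fun t => t * deriv G t) (sphere 0 1) :=
  continuousOn_id.mul h.contG'

theorem contw (h : Bd Ω U f G r) :
    ContinuousOn (fun t => t * (deriv f (G t) * deriv G t) / f (G t)) (sphere 0 1) :=
  (continuousOn_id.mul (h.contg'.mul h.contG')).div h.contg (fun t ht => h.ne_zero (by simpa using ht))

theorem avg_pow (h : Bd Ω U f G r) (k : ℕ) (hk : 1 ≤ k) :
    circleAverage (fun t => t * (deriv f (G t) * deriv G t) / f (G t) * f (G t) ^ k) 0 1 = 0 := by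
  have h1 := avg_comp (g := fun t => f (G t)) (g' := fun t => deriv f (G t) * deriv G t)
    (k := fun y => y ^ (k - 1)) (R := 2) (fun t ht => h.hasDeriv ht) (fun t ht => by
      rw [mem_ball_zero_iff, h.norm_fG ht]; norm_num) (by fun_prop)
  refine Eq.trans ?_ h1
  apply circleAverage_congr_sphere
  intro t ht
  have ht1 : ‖t‖ = 1 := by simpa using ht
  have h2 := h.ne_zero ht1
  obtain ⟨j, rfl⟩ : ∃ j, k = j + 1 := ⟨k - 1, by omega⟩
  simp only [smul_eq_mul, add_tsub_cancel_right]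
  field_simp
  ring

theorem avg_pow' (h : Bd Ω U f G r) (k : ℕ) (hk : 1 ≤ k) :
    circleAverage (fun t => t * (deriv f (G t) * deriv G t) / f (G t) * (f (G t))⁻¹ ^ k) 0 1 = 0 := by
  have h1 := h.avg_pow k hk
  have h2 := ContinuousLinearMap.circleAverage_comp_comm (c := 0) (R := 1)
    (f := fun t => t * (deriv f (G t) * deriv G t) / f (G t) * f (G t) ^ k)
    ((Complex.conjCLE : ℂ ≃L[ℝ] ℂ) : ℂ →L[ℝ] ℂ) (by
      apply ContinuousOn.circleIntegrable zero_le_one
      exact h.contw.mul (h.contg.pow k))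
  rw [h1, map_zero] at h2
  refine Eq.trans ?_ h2
  apply circleAverage_congr_sphere
  intro t ht
  have ht1 : ‖t‖ = 1 := by simpa using ht
  obtain ⟨x, hx, hwx⟩ := h.w_nonneg ht1
  have h3 : (f (G t))⁻¹ = (starRingEnd ℂ) (f (G t)) := by
    rw [Complex.inv_def, Complex.normSq_eq_norm_sq, h.norm_fG ht1]
    simp
  simp only [Function.comp_apply]
  rw [hwx, h3]
  simp

end Bd

end

section
variable {Ω U : Set ℂ} {f G : ℂ → ℂ} {r : ℝ}
variable {𝔸 : Type*} [NormedRing 𝔸] [NormedAlgebra ℂ 𝔸] [CompleteSpace 𝔸]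

/-- the density as a function on the circle -/
noncomputable def Dens (f G : ℂ → ℂ) (C C' : 𝔸) (t : ℂ) : 𝔸 :=
  (t * (deriv f (G t) * deriv G t) / f (G t)) •
    (Ring.inverse (1 - (f (G t))⁻¹ • C) + f (G t) • (C' * Ring.inverse (1 - f (G t) • C')))

theorem norm_inv_fG (h : Bd Ω U f G r) {t : ℂ} (ht : ‖t‖ = 1) : ‖(f (G t))⁻¹‖ = 1 := by
  rw [norm_inv, h.norm_fG ht, inv_one]

theorem cont_inv1 (h : Bd Ω U f G r) {C : 𝔸} (hC : Tendsto (fun k : ℕ => C ^ k) atTop (𝓝 0)) :
    ContinuousOn (fun t => Ring.inverse (1 - (f (G t))⁻¹ • C)) (sphere 0 1) := by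
  apply continuousOn_inverse
  · exact continuousOn_const.sub ((h.contg.inv₀ (fun t ht => h.ne_zero (by simpa using ht))).smul
      continuousOn_const)
  · intro t ht
    exact isUnit_one_sub_smul hC (norm_inv_fG h (by simpa using ht)).le

theorem cont_inv2 (h : Bd Ω U f G r) {C' : 𝔸} (hC' : Tendsto (fun k : ℕ => C' ^ k) atTop (𝓝 0)) :
    ContinuousOn (fun t => Ring.inverse (1 - f (G t) • C')) (sphere 0 1) := by
  apply continuousOn_inverse
  · exact continuousOn_const.sub (h.contg.smul continuousOn_const)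
  · intro t ht
    exact isUnit_one_sub_smul hC' (h.norm_fG (by simpa using ht)).le

theorem cont_dens (h : Bd Ω U f G r) {C C' : 𝔸} (hC : Tendsto (fun k : ℕ => C ^ k) atTop (𝓝 0))
    (hC' : Tendsto (fun k : ℕ => C' ^ k) atTop (𝓝 0)) :
    ContinuousOn (Dens f G C C') (sphere 0 1) := by
  unfold Dens
  exact h.contw.smul ((cont_inv1 h hC).add (h.contg.smul (continuousOn_const.mul (cont_inv2 h hC'))))

theorem avg_second (h : Bd Ω U f G r) {C' : 𝔸} (hC' : Tendsto (fun k : ℕ => C' ^ k) atTop (𝓝 0))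
    {V : Set ℂ} (hV : IsOpen V) (hΩV : closure Ω ⊆ V) {v : ℂ → ℂ} (hv : DifferentiableOn ℂ v V) :
    circleAverage (fun t => (v (G t) * (t * (deriv f (G t) * deriv G t) / f (G t))) •
      (f (G t) • (C' * Ring.inverse (1 - f (G t) • C')))) 0 1 = 0 := by
  obtain ⟨R, ψ, hR, hψ, hmap, hfψ, hψf⟩ := exists_inv h.hU h.hΩ₂ h.hΩU h.hf₁ h.hf₂ h.hf₃ hV hΩV
  obtain ⟨R', hR', hun⟩ := exists_radius hC'
  have hk : DifferentiableOn ℂ (fun y => v (ψ y) • (C' * Ring.inverse (1 - y • C')))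
      (ball 0 (min R R')) := by
    apply DifferentiableOn.fun_smul
    · exact (hv.comp hψ (fun y hy => (hmap hy).1)).mono (ball_subset_ball (min_le_left _ _))
    · apply DifferentiableOn.const_mul
      intro y hy
      apply DifferentiableAt.differentiableWithinAt
      apply differentiableAt_inverse'
      · exact (differentiableAt_const _).sub (differentiableAt_id.smul_const _)
      · exact hun y (ball_subset_ball (min_le_right _ _) hy)
  have h1 := avg_comp (g := fun t => f (G t)) (g' := fun t => deriv f (G t) * deriv G t)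
    (R := min R R') (fun t ht => h.hasDeriv ht) (fun t ht => by
      rw [mem_ball_zero_iff, h.norm_fG ht]; exact lt_min hR hR') hk
  refine Eq.trans ?_ h1
  apply circleAverage_congr_sphere
  intro t ht
  have ht1 : ‖t‖ = 1 := by simpa using ht
  have h2 := h.ne_zero ht1
  simp only [smul_smul]
  rw [hψf _ (h.mem_closure ht1)]
  congr 1
  field_simp

theorem avg_first (h : Bd Ω U f G r) {B C : 𝔸} (hC : Tendsto (fun k : ℕ => C ^ k) atTop (𝓝 0))
    (hB : ∀ t : ℂ, 1 ≤ ‖t‖ → IsUnit (algebraMap ℂ 𝔸 (G t) - B))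
    (χ p : ℂ[X]) (hχ : aeval B χ = 0) (hp : aeval B p = C)
    {hf : ℂ → ℂ} (hhf : DifferentiableOn ℂ hf U) (hfp : ∀ z ∈ U, f z - p.eval z = χ.eval z * hf z)
    {V : Set ℂ} (hV : IsOpen V) (hΩV : closure Ω ⊆ V) {v : ℂ → ℂ} (hv : DifferentiableOn ℂ v V)
    {q : ℂ[X]} {hq : ℂ → ℂ} (hhq : DifferentiableOn ℂ hq V)
    (hvq : ∀ z ∈ V, v z - q.eval z = χ.eval z * hq z) :
    circleAverage (fun t => (v (G t) * (t * (deriv f (G t) * deriv G t) / f (G t))) •
      Ring.inverse (1 - (f (G t))⁻¹ • C)) 0 1 = aeval B q := by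
  obtain ⟨R, ψ, hR, hψ, hmap, hfψ, hψf⟩ := exists_inv h.hU h.hΩ₂ h.hΩU h.hf₁ h.hf₂ h.hf₃ hV hΩV
  have hk : DifferentiableOn ℂ (fun y => v (ψ y)) (ball 0 R) :=
    hv.comp hψ (fun y hy => (hmap hy).1)
  obtain ⟨P, hP⟩ := exists_poly_approx hR hk
  have hg1 : ∀ t : ℂ, ‖t‖ = 1 → ‖f (G t)‖ = 1 := fun t ht => h.norm_fG ht
  have hPc : ∀ N, ContinuousOn (fun y : ℂ => (P N).eval y) (closedBall 0 1) :=
    fun N => (P N).continuous.continuousOn
  -- disc side
  have hphi : ∀ N, circleAverage (fun t => (P N).eval (f (G t)) •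
      ((t * (deriv f (G t) * deriv G t) / f (G t)) • Ring.inverse (1 - (f (G t))⁻¹ • C))) 0 1
      = aeval C (P N) := by
    intro N
    have h1 := (phi_poly h.contg h.contw hg1 h.avg_w h.avg_pow h.avg_pow' C hC (P N)).2
    refine Eq.trans ?_ h1
    apply circleAverage_congr_sphere
    intro t _
    simp only [smul_smul]
    congr 1
    ring
  have hlim1 := avg_tendsto hPc hP h.contg hg1 (a := fun t =>
    (t * (deriv f (G t) * deriv G t) / f (G t)) • Ring.inverse (1 - (f (G t))⁻¹ • C))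
    (h.contw.smul (cont_inv1 h hC))
  -- the other side
  have hBc : ContinuousOn (fun t => Ring.inverse (algebraMap ℂ 𝔸 (G t) - B)) (sphere 0 1) := by
    apply continuousOn_inverse
    · exact ((algebraMapCLM ℂ 𝔸).continuous.comp_continuousOn h.contG).sub continuousOn_const
    · intro t ht
      exact hB t (by simpa using (show ‖t‖ = 1 by simpa using ht).ge)
  have hO : IsOpen (V ∩ U) := hV.inter h.hU
  have hΩO : closure Ω ⊆ V ∩ U := subset_inter hΩV h.hΩU
  obtain ⟨-, hpsi2, hpsi3⟩ := psi_calc hO hΩO h.contG h.contl (fun t ht => h.mem_closure ht) B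
    (fun t ht => hB t ht.ge) (h.resolvent B hB) (fun v hv => h.avg_hol hO hΩO hv) χ hχ
  have h2 := hpsi2 v hq q (hv.mono inter_subset_left) (hhq.mono inter_subset_left)
    (fun z hz => hvq z hz.1)
  have h3 := hpsi3 f hf p (h.hf₁.mono inter_subset_right) (hhf.mono inter_subset_right)
    (fun z hz => hfp z hz.2)
  have hpsi : ∀ N, circleAverage (fun t => (P N).eval (f (G t)) •
      ((t * deriv G t) • Ring.inverse (algebraMap ℂ 𝔸 (G t) - B))) 0 1
      = aeval C (P N) := by
    intro N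
    have h1 := h3 (P N)
    rw [hp] at h1
    refine Eq.trans ?_ h1
    apply circleAverage_congr_sphere
    intro t _
    simp only [smul_smul]
    congr 1
    ring
  have hlim2 := avg_tendsto hPc hP h.contg hg1 (a := fun t =>
    (t * deriv G t) • Ring.inverse (algebraMap ℂ 𝔸 (G t) - B))
    (h.contl.smul hBc)
  simp only [hphi] at hlim1
  simp only [hpsi] at hlim2
  have h4 := tendsto_nhds_unique hlim1 hlim2
  have h5 : circleAverage (fun t => (v (G t) * (t * (deriv f (G t) * deriv G t) / f (G t))) •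
      Ring.inverse (1 - (f (G t))⁻¹ • C)) 0 1 =
      circleAverage (fun t => v (ψ (f (G t))) • ((t * (deriv f (G t) * deriv G t) / f (G t)) •
        Ring.inverse (1 - (f (G t))⁻¹ • C))) 0 1 := by
    apply circleAverage_congr_sphere
    intro t ht
    have ht1 : ‖t‖ = 1 := by simpa using ht
    simp only [smul_smul]
    rw [hψf _ (h.mem_closure ht1)]
  have h6 : circleAverage (fun t => (t * deriv G t * v (G t)) •
      Ring.inverse (algebraMap ℂ 𝔸 (G t) - B)) 0 1 =
      circleAverage (fun t => v (ψ (f (G t))) • ((t * deriv G t) •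
        Ring.inverse (algebraMap ℂ 𝔸 (G t) - B))) 0 1 := by
    apply circleAverage_congr_sphere
    intro t ht
    have ht1 : ‖t‖ = 1 := by simpa using ht
    simp only [smul_smul]
    rw [hψf _ (h.mem_closure ht1)]
    congr 1
    ring
  rw [h5, h4, ← h6, h2]

theorem dens_repr (h : Bd Ω U f G r) {B C C' : 𝔸}
    (hC : Tendsto (fun k : ℕ => C ^ k) atTop (𝓝 0))
    (hC' : Tendsto (fun k : ℕ => C' ^ k) atTop (𝓝 0))
    (hB : ∀ t : ℂ, 1 ≤ ‖t‖ → IsUnit (algebraMap ℂ 𝔸 (G t) - B))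
    (χ p : ℂ[X]) (hχ : aeval B χ = 0) (hp : aeval B p = C)
    {hf : ℂ → ℂ} (hhf : DifferentiableOn ℂ hf U) (hfp : ∀ z ∈ U, f z - p.eval z = χ.eval z * hf z)
    {V : Set ℂ} (hV : IsOpen V) (hΩV : closure Ω ⊆ V) {v : ℂ → ℂ} (hv : DifferentiableOn ℂ v V)
    {q : ℂ[X]} {hq : ℂ → ℂ} (hhq : DifferentiableOn ℂ hq V)
    (hvq : ∀ z ∈ V, v z - q.eval z = χ.eval z * hq z) :
    circleAverage (fun t => v (G t) • Dens f G C C' t) 0 1 = aeval B q := by
  have h1 := avg_first h hC hB χ p hχ hp hhf hfp hV hΩV hv hhq hvq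
  have h2 := avg_second h hC' hV hΩV hv
  have hvc : ContinuousOn (fun t => v (G t)) (sphere 0 1) :=
    hv.continuousOn.comp h.contG (fun t ht => hΩV (h.mem_closure (by simpa using ht)))
  have hi1 : CircleIntegrable (fun t => (v (G t) * (t * (deriv f (G t) * deriv G t) / f (G t))) •
      Ring.inverse (1 - (f (G t))⁻¹ • C)) 0 1 :=
    ((hvc.mul h.contw).smul (cont_inv1 h hC)).circleIntegrable zero_le_one
  have hi2 : CircleIntegrable (fun t => (v (G t) * (t * (deriv f (G t) * deriv G t) / f (G t))) •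
      (f (G t) • (C' * Ring.inverse (1 - f (G t) • C')))) 0 1 :=
    ((hvc.mul h.contw).smul (h.contg.smul (continuousOn_const.mul
      (cont_inv2 h hC')))).circleIntegrable zero_le_one
  have h3 := circleAverage_fun_add hi1 hi2
  rw [h1, h2, add_zero] at h3
  rw [← h3]
  congr 1
  funext t
  rw [Dens, ← smul_add, smul_smul]

end

end Crest.Agent.H23.PK
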